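import Crest.Agent.X212.Idg99.Asd
import Crest.Agent.X212.Abel74.Red

/-! The index densities of spin^u modules, of their halves and of the bundle `g`. -/

set_option autoImplicit false
set_option linter.unusedSectionVars false
open scoped Manifold ContDiff Topology InnerProductSpace
open Finset Filter MeasureTheory Module

noncomputable section
namespace Crest.Agent.X212.Idg99
open An Wz78 Sob92 Ind95 Map77
open Num57 (OK)
open Abel74 (Red hf fF)

variable {E : Type} [NormedAddCommGroup E] [NormedSpace ℝ E] [FiniteDimensional ℝ E]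
  [MeasurableSpace E] [BorelSpace E]
  {HM : Type} [TopologicalSpace HM] {I : ModelWithCorners ℝ E HM}
  {M : Type} [TopologicalSpace M] [ChartedSpace HM M] [IsManifold I ∞ M]
  [MeasurableSpace M] {ι : Type} [Fintype ι]
  {X : Type} [NormedAddCommGroup X] [InnerProductSpace ℝ X] [FiniteDimensional ℝ X]
  {F : Fr I M ι} {o : ι → ι → ι → ι → M → ℝ} {p T S : M → X →L[ℝ] X} {ρ A : ι → M → X →L[ℝ] X}
  {x : M} {O O' : Set M}

/-- `∑ o f g` for two-forms -/
def wf (o : ι → ι → ι → ι → M → ℝ) (f g : ι → ι → M → ℝ) (x : M) : ℝ :=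
  c4 (fun a b c d => o a b c d x) fun a b c d => f a b x * g c d x

theorem sa_c4 {f : ι → ι → ι → ι → M → ℝ} (so : ∀ a b c d, SA I (o a b c d) x)
    (sf : ∀ a b c d, SA I (f a b c d) x) :
    SA I (fun y => c4 (fun a b c d => o a b c d y) fun a b c d => f a b c d y) x :=
  SA.sum _ fun a _ => SA.sum _ fun b _ => SA.sum _ fun c _ => SA.sum _ fun d _ =>
    (so a b c d).mul (sf a b c d)

theorem sa_trL (h : SA I T x) : SA I (fun y => trL (T y)) x :=
  h.clm (LinearMap.toContinuousLinearMap trL)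

theorem sm_wf (h : OK F o) {f g : ι → ι → M → ℝ} (hf : ∀ a b, An.Sm I (f a b))
    (hg : ∀ a b, An.Sm I (g a b)) : An.Sm I (wf o f g) := fun x =>
  sa_c4 (fun a b c d => h.sm a b c d x) fun a b c d => SA.mul (hf a b x) (hg c d x)

theorem sm_cwd (h : OK F o) (hT : An.Sm I T) (hA : ∀ a x, SA I (A a) x) :
    An.Sm I (cwd F o T A) := fun x =>
  sa_c4 (fun a b c d => h.sm a b c d x) fun a b c d => sa_trL (SA.mul (SA.mul (hT x)
    ((frm F).sCurv (hA · x) a b)) ((frm F).sCurv (hA · x) c d))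

theorem sm_sgd (h : OK F o) : An.Sm I (sgd F o) := fun x =>
  (sa_c4 (fun a b c d => h.sm a b c d x) fun a b c d => SA.sum _ fun k _ => SA.sum _ fun l _ =>
    ((lc_gam F).sRm (frm F) a b k l x).mul ((lc_gam F).sRm (frm F) c d k l x)).neg.neg.div_const _

theorem sm_eud (h : OK F o) : An.Sm I (eud F o) := fun x => by
  classical
  have L := lc_gam F
  have s : ∀ a b, SM I (cm I F.e F.c (Om2 F.P F.Gam) a b) x := fun a b s t => by
    have h1 := fun a => sm_Om2 L (frm F) a x
    simp only [cm, Matrix.sub_apply, Matrix.add_apply, Matrix.sum_apply, Matrix.smul_apply]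
    exact ((((frm F).sD a (h1 b s t)).sub ((frm F).sD b (h1 a s t))).add
      ((((h1 a).mul (h1 b)) s t).sub (((h1 b).mul (h1 a)) s t))).sub
      (SA.sum _ fun k _ => ((frm F).sc a b k x).mul (h1 k s t))
  have s' : SM I (fun y => stM fun a b c d => o a b c d y) x := fun s t =>
    (h.sm _ _ _ _ x).div_const _
  exact (sa_c4 (fun a b c d => h.sm a b c d x) fun a b c d =>
    SA.sum _ fun t _ => (s'.mul (s a b)).mul (s c d) t t).neg.div_const _

theorem cwd_sub : cwd F o (fun x => T x - S x) A x = cwd F o T A x - cwd F o S A x := by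
  simp only [cwd, cw_eq, sub_mul, map_sub, c4_sub]

theorem cwd_ind : cwd F o (O.indicator T) A x = O.indicator (cwd F o T A) x := by
  by_cases hx : x ∈ O <;> simp [cwd, cw, hx]

theorem Sub.ind (h : Sub F T A) (hO : IsClopen O) : Sub F (O.indicator T) A := by
  have k : ∀ x, O.indicator T =ᶠ[𝓝 x] T ∨ O.indicator T =ᶠ[𝓝 x] fun _ => 0 := fun x =>
    (em (x ∈ O)).imp
      (fun hx => mem_of_superset (hO.2.mem_nhds hx) fun _ hy => Set.indicator_of_mem hy T)
      fun hx => mem_of_superset (hO.1.isOpen_compl.mem_nhds hx) fun _ hy =>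
        Set.indicator_of_notMem hy T
  refine ⟨h.con, h.sk, fun x => (k x).elim (h.sm x).congr_of_eventuallyEq
    contMDiffAt_const.congr_of_eventuallyEq, fun a x => (k x).elim (fun e => ?_) fun e => ?_⟩ <;>
    rw [nabE_congr a e]
  · exact h.par a x
  · simp [nabE]

theorem Sub.mul (h : Sub F T A) (h' : Sub F S A) : Sub F (fun x => T x * S x) A :=
  ⟨h.con, h.sk, fun x => SA.mul (h.sm x) (h'.sm x), fun a x => by
    rw [nabE_mul a (h.sm x) (h'.sm x), h.par, h'.par, zero_mul, mul_zero, add_zero]⟩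

theorem Sub.sub (h : Sub F T A) (h' : Sub F S A) : Sub F (fun x => T x - S x) A :=
  ⟨h.con, h.sk, fun x => (h.sm x).sub (h'.sm x), fun a x => by
    rw [nabE_sub a (h.sm x) (h'.sm x), h.par, h'.par, sub_zero]⟩

theorem Sub.const (h : Sub F T A) {J : X →L[ℝ] X} (hJ : ∀ a x, J * A a x = A a x * J) :
    Sub F (fun _ => J) A := ⟨h.con, h.sk, contMDiff_const, fun a x => by simp [nabE, hJ]⟩

/-- the projector onto the line of a vector of length four -/
def ln (ξ : X) : X →L[ℝ] X := (1 / 16 : ℝ) • (innerSL ℝ ξ).smulRight ξ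

theorem ln_apply (ξ v : X) : ln ξ v = (⟪ξ, v⟫_ℝ / 16) • ξ := by
  simp [ln, smul_smul, div_eq_inv_mul]

theorem trL_ln (ξ : X) : trL (ln ξ) = ⟪ξ, ξ⟫_ℝ / 16 := by
  rw [ln, map_smul, show trL ((innerSL ℝ ξ).smulRight ξ) = ⟪ξ, ξ⟫_ℝ from
    LinearMap.trace_smulRight _ _, smul_eq_mul, one_div, div_eq_inv_mul]

section ln
variable {ξ : M → X} (hs : An.Sm I ξ) (hp : ∀ a x, Wz78.nab I F.e A a ξ x = 0)
include hs hp

theorem Sub.ln (h : Sub F T A) : Sub F (fun x => ln (ξ x)) A := by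
  have s : An.Sm I fun x => Idg99.ln (ξ x) := fun x => SA.smul contMDiffAt_const (SA.app
    (SA.clm (ContinuousLinearMap.smulRightL ℝ X X) (SA.clm (innerSL ℝ) (hs x))) (hs x))
  refine ⟨h.con, h.sk, s, fun a x => ContinuousLinearMap.ext fun w => ?_⟩
  have hc : SA I (fun _ : M => w) x := contMDiffAt_const
  have := nab_app' (e := F.e) (A := A) a (s x) hc
  simp only [ln_apply, div_eq_inv_mul] at this
  rw [nab_smul a (SA.mul contMDiffAt_const (SA.inner (hs x) hc)) (hs x), hp, smul_zero, add_zero,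
    show dv I (F.e a) (fun y => 16⁻¹ * ⟪ξ y, w⟫_ℝ) x = 16⁻¹ * _ from
      dv_const_smul _ (SA.inner (hs x) hc).md, dv_inner a (h.sk a x) (hs x) hc, hp,
    inner_zero_left, zero_add] at this
  exact (left_eq_add.1 (this.trans (add_comm _ _))).trans rfl

theorem cwd_ln (hA : ∀ a x, SA I (A a) x) : cwd F o (fun x => ln (ξ x)) A x = 0 := by
  have h : ∀ a b, curv I F.e F.c A a b x * ln (ξ x) = 0 := fun a b => by
    have := (frm F).nab_comm (hA · x) a b (hs x)
    simp only [show ∀ a, Wz78.nab I F.e A a ξ = fun _ => 0 from fun a => _root_.funext (hp a)]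
      at this
    ext1 v
    simp [ln_apply, ← this, Wz78.nab]
  simp only [cwd, cw, mul_assoc, trL_comm (ln _), h, mul_zero, map_zero, sum_const_zero]

end ln

variable [T2Space M] [BorelSpace M] [SecondCountableTopology M]

theorem sm_dn (h : OK F o) (hT : An.Sm I T) (hA : ∀ a x, SA I (A a) x) : An.Sm I (dn F o T A) := by
  rw [show dn F o T A = _ from _root_.funext (dn_eq F o T A)]
  exact fun x => ((sm_cwd h hT hA x).neg.div_const _).sub
    (SA.mul ((sa_trL (hT x)).div_const _) (sm_sgd h x))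

theorem dn_ind : dn F o (O.indicator T) A x = O.indicator (dn F o T A) x := by
  by_cases hx : x ∈ O <;> simp [dn, Ind95.dens, cw, hx]

/-- the index density in terms of the twisting curvature -/
theorem dn_tw (C : CC I F.e F.P F.Gam p ρ A) (hT : ∀ a, T x * ρ a x = ρ a x * T x)
    (hp : T x * p x = T x) : dn F o T A x = -cw (fun a b c d => o a b c d x) (T x)
      (fun a b => tw I F.e F.c F.Gam p ρ A a b x) / (128 * Real.pi ^ 2)
      - trL (T x) / 32 * sgd F o x := by
  have L := lc_gam F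
  have h : ∀ a b c d, trL (T x * curv I F.e F.c A a b x * curv I F.e F.c A c d x)
      = -(trL (T x) / 8) * ∑ m, ∑ l, RR F x a b m l * RR F x c d m l
        + trL (T x * tw I F.e F.c F.Gam p ρ A a b x * tw I F.e F.c F.Gam p ρ A c d x) :=
    fun a b c d => by
      have := tr_curv trL_comm (C.cl x) ((frm F).pr x) hT (C.tw_comm L (frm F) a b · x)
        (C.tw_comm L (frm F) c d · x) (L.Rm_s34 (frm F) a b · · x) (L.Rm_s34 (frm F) c d · · x)
        (L.Rm_p4 (frm F) c d · · x)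
      rw [trL_comm (p x), hp, ← mul_assoc (T x) (tw _ _ _ _ _ _ _ _ _ _)] at this
      rw [← this]
      simp only [tw, add_sub_cancel, C.curv_p (frm F), ← mul_assoc, hp]
      rw [mul_assoc (T x) _ (p x), C.curv_p (frm F), ← mul_assoc, hp]
  rw [dn_eq, cwd, cw_eq, cw_eq]
  simp only [h, c4_add, c4_mul]
  rw [sgd, cwT, c4]
  field_simp
  ring

/-- the index density for an abelian twisting curvature -/
theorem dn_ab (C : CC I F.e F.P F.Gam p ρ A) (hT : ∀ a, T x * ρ a x = ρ a x * T x)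
    (hp : T x * p x = T x) {J : X →L[ℝ] X} (hJ : J * J = -1) {k : ι → ι → M → ℝ}
    (hk : ∀ a b, T x * tw I F.e F.c F.Gam p ρ A a b x = (k a b x / 2) • (J * T x)) :
    dn F o T A x = trL (T x) * (wf o k k x / (512 * Real.pi ^ 2) - sgd F o x / 32) := by
  have h : ∀ a b c d, trL (T x * tw I F.e F.c F.Gam p ρ A a b x * tw I F.e F.c F.Gam p ρ A c d x)
      = -(trL (T x) / 4) * (k a b x * k c d x) := fun a b c d => by
    rw [hk, smul_mul_assoc, mul_assoc, hk, mul_smul_comm, ← mul_assoc, hJ]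
    simp only [neg_mul, one_mul, map_smul, map_neg, smul_eq_mul]
    ring
  rw [dn_tw C hT hp, cw_eq]
  simp only [h, c4_mul, wf]
  ring

variable {lam : Type} [Fintype lam] {m : Md M ι lam} {B : Base M ι lam} {G : Geo I M ι lam}
  {W : m.Cn}

variable (B G) in
/-- the curvature form of the line -/
abbrev fl (a b : ι) (x : M) : ℝ := fL B G x (a, b)

variable (B G) in
/-- the density of `Λ²` -/
def lad (x : M) : ℝ := wf B.o (fl B G) (fl B G) x / (16 * Real.pi ^ 2)

theorem kd_eq (F : Fr I M ι) (x : M) : m.kd B F W x = -(c4 (fun a b c d => B.o a b c d x)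
    fun a b c d => ⟪m.Fg F W x (a, b), m.Fg F W x (c, d)⟫_ℝ) / (256 * Real.pi ^ 2) := by
  rw [Md.kd, PiLp.inner_apply]
  simp only [Wz78.idx_apply, ContinuousLinearMap.id_apply, inner_sum, real_inner_smul_right,
    Base.st, Fintype.sum_prod_type, c4, div_mul_eq_mul_div _ (2 : ℝ), ← sum_div]
  field_simp
  ring

variable (hB : B.OK I) (hG : G.OK B) (H : m.OK I B) (C : m.IsConn B G W)

section
include hB hG

theorem lad_eq (x : M) : lad B G x = -cwd G.F B.o B.l G.a x / (32 * Real.pi ^ 2) := by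
  classical
  have h : ∀ a b c d, trL (B.l x * curv I G.F.e G.F.c G.a a b x * curv I G.F.e G.F.c G.a c d x)
      = -2 * (fl B G a b x * fl B G c d x) := fun a b c d => by
    have c1 := fun a b => (gfrm hG).curv_par (fun a => hG.con.sm a x) (hB.sl x)
      (fun a => Eventually.of_forall (hG.par a)) a b
    rw [← c1, curvL_eq hB hG, smul_mul_assoc, mul_assoc, ← c1, curvL_eq hB hG, mul_smul_comm,
      ← mul_assoc, hB.ilsq, neg_one_mul, map_smul, map_smul, map_neg, trL_apply, hB.lrk]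
    simp only [smul_eq_mul]
    ring
  simp only [lad, wf, cwd, cw_eq, h, c4_mul]
  ring

theorem sm_lad (h4 : finrank ℝ E = 4) : An.Sm I (lad B G) := fun x =>
  (sm_wf (OK.of_base h4 hB hG) (fun a b => sm_fL hB hG (a, b)) (fun a b => sm_fL hB hG (a, b))
    x).div_const _

end

section
include hB H

theorem trL_pg (x : M) : trL (m.pg x) = 3 := by
  rw [trL_apply, (⟨pg_mem x, fun _ => pg_of_mem⟩ : LinearMap.IsProj (m.gS x) (m.pg x : _ →ₗ[ℝ] _)).trace,
    Std94.finrank_g hB (Std94.pmx H x)]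
  norm_num

/-- the Killing form -/
theorem killing {ξ η : m.A} (hξ : ξ ∈ m.gS x) (hη : η ∈ m.gS x) :
    trL (adc (opL ξ) * adc (opL η) * m.pg x) = -⟪ξ, η⟫_ℝ / 2 := by
  have h1 : ∀ ξ ∈ m.gS x, trL (adc (opL ξ) * adc (opL ξ) * m.pg x) = -⟪ξ, ξ⟫_ℝ / 2 := fun ξ hξ => by
    have : adc (opL ξ) * adc (opL ξ) * m.pg x = (4 : ℝ) • ln ξ - (⟪ξ, ξ⟫_ℝ / 4) • m.pg x := by
      ext1 ζ
      simp only [mul_apply_eq_comp, Std94.adc_adc hB (Std94.pmx H x) hξ (pg_mem x ζ), sub_apply,
        smul_apply, ln_apply, ← inner_pg, pg_of_mem hξ, real_inner_self_eq_norm_sq]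
      module
    rw [this, map_sub, map_smul, map_smul, trL_ln, trL_pg hB H, smul_eq_mul, smul_eq_mul]
    ring
  have h2 : trL (adc (opL η) * adc (opL ξ) * m.pg x) = trL (adc (opL ξ) * adc (opL η) * m.pg x) := by
    rw [mul_assoc, trL_comm, mul_assoc, mul_assoc,
      show m.pg x * adc (opL η) = adc (opL η) * m.pg x from ContinuousLinearMap.ext (pg_adc hη)]
  have h3 := h1 _ (add_mem hξ hη)
  simp only [← adcL_apply, map_add, add_mul, mul_add] at h3
  simp only [adcL_apply, h1 ξ hξ, h1 η hη, h2, inner_add_left, inner_add_right,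
    real_inner_comm ξ η] at h3
  linarith

include hG C

theorem sub_pg : Sub G.F m.pg (m.adW W) :=
  ⟨hG.P ▸ con_adW C, adW_skw C, Std94.sm_pg hB H, pg_par H C (Std94.sm_pg hB H)⟩

omit hB in
theorem sub_p : Sub G.F m.p W := ⟨hG.P ▸ C.cc.toCon, C.sk, H.sp, C.cc.par⟩

theorem sub_pp : Sub G.F (m.pp B) W :=
  ⟨hG.P ▸ C.cc.toCon, C.sk, sm_pp H hB, pp_par hB H C⟩

theorem sub_pm : Sub G.F (m.pm B) W :=
  ⟨hG.P ▸ C.cc.toCon, C.sk, sm_pm H hB, pm_par hB H C⟩

/-- the density of `p₁ (g)` -/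
theorem cwd_pg (x : M) :
    cwd G.F B.o m.pg (m.adW W) x = 128 * Real.pi ^ 2 * m.kd B G.F W x := by
  have h : ∀ a b c d, trL (m.pg x * curv I G.F.e G.F.c (m.adW W) a b x
      * curv I G.F.e G.F.c (m.adW W) c d x)
      = -(1 / 2) * ⟪m.Fg G.F W x (a, b), m.Fg G.F W x (c, d)⟫_ℝ := fun a b c d => by
    rw [mul_assoc, trL_comm, neg_mul, one_div, ← div_eq_inv_mul, ← neg_div,
      ← killing hB H (Fg_mem _ _) (Fg_mem _ _)]
    congr 1
    ext1 ζ
    simp only [mul_apply_eq_comp, curv_adW_g hB hG H C _ _ (pg_mem x ζ),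
      curv_adW_g hB hG H C _ _ (adc_mem (Fg_mem _ _) (pg_mem x ζ))]
  simp only [cwd, cw_eq, h, c4_mul, kd_eq]
  field_simp
  ring

theorem sm_kd (h4 : finrank ℝ E = 4) : An.Sm I (m.kd B G.F W) := by
  rw [show m.kd B G.F W = fun x => cwd G.F B.o m.pg (m.adW W) x / (128 * Real.pi ^ 2) from
    _root_.funext fun x => by rw [cwd_pg hB hG H C]; field_simp]
  exact fun x => (sm_cwd (OK.of_base h4 hB hG) (Std94.sm_pg hB H) (con_adW C).sm x).div_const _

/-- the density of the coupled Dirac operator -/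
theorem dn_p (x : M) :
    dn G.F B.o m.p W x = lad B G x / 2 - 2 * m.kd B G.F W x - sgd G.F B.o x / 2 := by
  have t : ∀ T : En (Fin m.N), trL T = trE T := fun T => (trE_eq T).symm
  have h0 : ∀ s, trE (m.J * opL (m.Fg G.F W x s)) = 0 := fun s => by
    have k := Fg_mem (W := W) (x := x) G.F s
    have := congrArg (fun η => ⟪m.Fg G.F W x s, η⟫_ℝ) (pg_Jp (x := x) hB H)
    simp only [inner_zero_right, ← inner_pg, pg_of_mem k, inner_skw (g_skw k),
      ← mul_assoc, neg_eq_zero] at this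
    rwa [trE_comm, ← mul_assoc, g_p k, trE_comm] at this
  have h : ∀ a b c d, trL (m.p x * tw I G.F.e G.F.c G.F.Gam m.p m.ρ W a b x
      * tw I G.F.e G.F.c G.F.Gam m.p m.ρ W c d x) = -4 * (fl B G a b x * fl B G c d x)
        - ⟪m.Fg G.F W x (a, b), m.Fg G.F W x (c, d)⟫_ℝ := fun a b c d => by
    have k := fun s => Fg_mem (W := W) (x := x) G.F s
    have e1 : m.p x * (m.J * m.p x) = m.J * m.p x := by rw [← mul_assoc, ← H.Jp, mul_assoc, H.pidem]
    have e2 : m.J * m.p x * (m.J * m.p x) = -m.p x := by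
      rw [mul_assoc, e1, ← mul_assoc, H.Jsq, neg_one_mul]
    have e3 : ∀ s, opL (m.Fg G.F W x s) * (m.J * m.p x) = m.J * opL (m.Fg G.F W x s) := fun s => by
      rw [← mul_assoc, ← g_J (k s), mul_assoc, g_p' H (k s)]
    conv_rhs => rw [← hsL_opL (m.Fg G.F W x (c, d)), inner_skw (g_skw (k _))]
    simp only [tw_eq hB hG H C, mul_add, add_mul, mul_smul_comm, smul_mul_assoc, e1, e2, e3,
      g_p (k _), mul_assoc m.J (m.p x), t, map_add, map_smul, h0, map_neg, Abel74.tr_p H,
      smul_eq_mul]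
    ring
  rw [dn_tw (hG.P ▸ C.cc) (fun a => ((H.cl x).pl a).trans ((H.cl x).pr a).symm) (H.pidem x), cw_eq,
    t, Abel74.tr_p H]
  simp only [h, c4_sub, c4_mul, lad, wf, kd_eq]
  field_simp
  ring

variable {ξ : M → m.A} (R : Red G.F m W ξ)
include R

omit hB in
theorem sub_hf : Sub G.F (fun x => hf m x (ξ x)) W :=
  ⟨hG.P ▸ C.cc.toCon, C.sk, R.sm_hf H, R.hf_par H C⟩

theorem sub_ln : Sub G.F (fun x => ln (ξ x)) (m.adW W) := (sub_pg hB hG H C).ln R.sm R.par

/-- the density of the Dirac operator of a half -/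
theorem dn_hf (x : M) : dn G.F B.o (fun x => hf m x (ξ x)) W x
    = wf B.o (fun a b x => fl B G a b x + 2 * fF G.F m W ξ a b x)
      (fun a b x => fl B G a b x + 2 * fF G.F m W ξ a b x) x / (64 * Real.pi ^ 2)
      - sgd G.F B.o x / 4 := by
  have e := Abel74.hf_hf H (R.mem x) (R.sq x)
  have k := R.cc_hf H C
  rw [← hG.P] at k
  refine (dn_ab (k := fun a b x => fl B G a b x + 2 * fF G.F m W ξ a b x) k (fun a => ?_) e H.Jsq
    fun a b => ?_).trans ?_
  · rw [← mul_assoc, ← Abel74.rho_hf H (R.mem x)]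
  · rw [R.tw_half hB hG H C, mul_smul_comm, ← mul_assoc, ← Abel74.J_hf H (R.mem x), mul_assoc, e]
  · rw [trL_apply, ← trE_eq, R.tr_hf H hB]
    ring

end

variable (B m) in
/-- the bundles of the sub-theory given by `g ≤ pg` and a projector `s` on spinors -/
abbrev sbd (g : M → CL m.A m.A) (s : M → En (Fin m.N)) : Bd M ι (Fin m.N) :=
  ⟨B.P, B.o, m.ρ, g, fun x => idx (fun a b => B.P a b x) (g x), fun x => idx (B.sd x) (g x),
    fun x => m.pp B x * s x, fun x => m.pm B x * s x⟩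

variable {g : M → CL m.A m.A} {s : M → En (Fin m.N)} {u : M → Cf ι (Fin m.N)}

include hB H in
theorem ok_sbd (hg : Prj g) (hs : Prj s) (hp : ∀ x, s x * m.p x = m.p x * s x)
    (hρ : ∀ a x, s x * m.ρ a x = m.ρ a x * s x) : (sbd m B g s).OK := by
  have ap : ∀ {S S' : En (Fin m.N)}, S = S' → ∀ v, S v = S' v := fun e v => by rw [e]
  have c1 := fun x => ap (pp_comm (B := B) (hp x) (hρ · x))
  have c2 := fun x => ap (pm_comm (B := B) (hp x) (hρ · x))
  have c3 := fun a x => ap (hρ a x)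
  have i1 := fun x => ap (pp_pp hB H x)
  have i2 := fun x => ap (pm_pm hB H x)
  simp only [mul_apply_eq_comp] at c1 c2 c3 i1 i2
  refine ⟨fun x => ⟨hB.pr x, hB.rk x, fun a b c d => hB.o12 a b c d x,
      fun a b c d => hB.o23 a b c d x, fun a b c d => hB.o34 a b c d x,
      fun a b c d => hB.oP a b c d x, hB.onm x⟩, hg, fun _ => rfl, fun _ => rfl,
    ⟨fun x v => ?_, fun x v w => ?_⟩, ⟨fun x v => ?_, fun x v w => ?_⟩, H.ρsk,
    fun a x => (H.cl x).proj a, fun a b x v => ?_, fun a b x v => ?_, fun a x v => ?_,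
    fun a x v => ?_⟩ <;> simp only [mul_apply_eq_comp]
  · rw [c1, i1, hs.idem]
  · rw [pp_sym hB H, hs.symm, c1]
  · rw [c2, i2, hs.idem]
  · rw [pm_sym hB H, hs.symm, c2]
  · exact (ap ((H.cl x).rel a b) _).trans
      (congrArg ((-2 * B.P a b x) • ·) (ap (p_pp H x) (s x v)))
  · exact (ap ((H.cl x).rel a b) _).trans
      (congrArg ((-2 * B.P a b x) • ·) (ap (p_pm H x) (s x v)))
  · rw [c3, c1, hs.idem]
    exact (ap (pm_rho hB H a x) _).trans (congrArg (m.ρ a x) (i1 x _))
  · rw [c3, c2, hs.idem]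
    exact (ap (pp_rho hB H a x) _).trans (congrArg (m.ρ a x) (i2 x _))

theorem prj_on (O : Set M) (h : Prj p) : Prj (O.indicator p) := by
  refine ⟨fun x v => ?_, fun x v w => ?_⟩ <;> by_cases hx : x ∈ O <;> simp [hx, h.idem, h.symm]

include hB H in
theorem ok_on (hg : Prj g) (hs : Prj s) (hp : ∀ x, s x * m.p x = m.p x * s x)
    (hρ : ∀ a x, s x * m.ρ a x = m.ρ a x * s x) (O O' : Set M) :
    (sbd m B (O.indicator g) (O'.indicator s)).OK :=
  ok_sbd hB H (prj_on O hg) (prj_on O' hs) (fun x => by by_cases hx : x ∈ O' <;> simp [hx, hp])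
    fun a x => by by_cases hx : x ∈ O' <;> simp [hx, hρ]

section
variable {ξ : M → m.A} (R : Red F m W ξ)
include H R

theorem prj_ln : Prj fun x => ln (ξ x) :=
  ⟨fun x v => by simp [ln_apply, R.nrm H, show (4 : ℝ) ^ 2 / 16 = 1 by norm_num], fun x v w => by
    simp only [ln_apply, real_inner_smul_left, real_inner_smul_right, real_inner_comm v]; ring⟩

theorem prj_nor : Prj fun x => m.pg x - ln (ξ x) :=
  ⟨fun x v => by
    have : ln (ξ x) (m.pg x v) = ln (ξ x) v := by rw [ln_apply, ← inner_pg, pg_of_mem (R.mem x), ln_apply]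
    simp only [sub_apply, map_sub, pg_pg, this, (prj_ln H R).idem]
    rw [ln_apply, map_smul, pg_of_mem (R.mem x), sub_self, sub_zero], fun x v w => by
    simp only [sub_apply, inner_sub_left, inner_sub_right, inner_pg, (prj_ln H R).symm]⟩

include hB

theorem ok_hf (hg : Prj g) (O O' : Set M) :
    (sbd m B (O.indicator g) (O'.indicator fun x => hf m x (ξ x))).OK :=
  ok_on hB H hg ⟨fun x => DFunLike.congr_fun (Abel74.hf_hf H (R.mem x) (R.sq x)),
    fun x => Abel74.hf_sym H (R.mem x)⟩ (fun x => (Abel74.hf_comm H (R.mem x) rfl (H.Jp x).symm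
      (by rw [g_p (R.mem x), g_p' H (R.mem x)])).symm)
    (fun a x => (Abel74.rho_hf H (R.mem x) a).symm) O O'

end

/-- the linearised operator is Fredholm on every Sobolev level -/
theorem fr_full [CompactSpace M] [I.Boundaryless] {κ : Type} [Fintype κ] [DecidableEq κ]
    {d : Bd M ι κ} {A : ι → M → CL (HS κ) (HS κ)} {W : ι → M → En κ} (h : d.OK) (ho : OK F d.o)
    (D : BdP d F A W) {u : M → Cf ι κ} (hu : An.Sm I u) (k : ℕ) :
    Fred93.Fr ((d.full F u).H F k) (ind F (d.full F u)) :=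
  let ⟨_, h1, h2⟩ := good_full h ho D hu
  fr_ind h1 h2 (h.cliff_full D.P u) k

include hB hG H C

theorem bdp_sbd (hg : Sub G.F g (m.adW W)) (hs : Sub G.F s W) :
    BdP (sbd m B g s) G.F (m.adW W) W :=
  ⟨hG.P, hg, (sub_pp hB hG H C).mul hs, (sub_pm hB hG H C).mul hs,
    ⟨H.sρ, C.cc.comp⟩, fun x v => DFunLike.congr_fun (om_pp hB H x) (s x v)⟩

theorem bdp_md (hO : IsClopen O) (hO' : IsClopen O') :
    BdP ⟨B.P, B.o, m.ρ, O.indicator m.pg, fun x => idx (fun a b => B.P a b x) (O.indicator m.pg x),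
      fun x => idx (B.sd x) (O.indicator m.pg x), O'.indicator (m.pp B), O'.indicator (m.pm B)⟩
      G.F (m.adW W) W :=
  ⟨hG.P, (sub_pg hB hG H C).ind hO, (sub_pp hB hG H C).ind hO', (sub_pm hB hG H C).ind hO',
    ⟨H.sρ, C.cc.comp⟩, fun x v => by
      by_cases hx : x ∈ O' <;> simp only [Set.indicator_of_mem, Set.indicator_of_notMem, hx,
        not_false_eq_true, zero_apply, map_zero, neg_zero]
      exact DFunLike.congr_fun (om_pp hB H x) v⟩

variable [CompactSpace M] [I.Boundaryless] (h4 : finrank ℝ E = 4)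
include h4

theorem ind_sbd (h : (sbd m B g s).OK) (hg : Sub G.F g (m.adW W)) (hs : Sub G.F s W)
    (hu : An.Sm I u) : (ind G.F ((sbd m B g s).full G.F u) : ℝ) = ∫ x,
      (cwd G.F B.o g (m.adW W) x / (16 * Real.pi ^ 2)
        - trL (g x) * (eud G.F B.o x + sgd G.F B.o x) / 2
        + dn G.F B.o (fun x => m.p x * s x) W x) ∂G.F.μ := by
  rw [ind_full h (OK.of_base h4 hB hG) (bdp_sbd hB hG H C hg hs) hu]
  simp only [← add_mul, pp_add_pm]

/-- the index over clopen sets -/
theorem ind_on (hO : IsClopen O) (hO' : IsClopen O')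
    (h : (sbd m B (O.indicator g) (O'.indicator s)).OK) (hg : Sub G.F g (m.adW W))
    (hs : Sub G.F s W) (hu : An.Sm I u) :
    (ind G.F ((sbd m B (O.indicator g) (O'.indicator s)).full G.F u) : ℝ)
      = ∫ x in O, (cwd G.F B.o g (m.adW W) x / (16 * Real.pi ^ 2)
        - trL (g x) * (eud G.F B.o x + sgd G.F B.o x) / 2) ∂G.F.μ
      + ∫ x in O', dn G.F B.o (fun x => m.p x * s x) W x ∂G.F.μ := by
  have k := OK.of_base h4 hB hG
  have c : ∀ f : M → ℝ, HasCompactSupport f := HasCompactSupport.of_compactSpace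
  rw [ind_sbd hB hG H C h4 h (hg.ind hO) (hs.ind hO') hu, ← integral_indicator hO.2.measurableSet,
    ← integral_indicator hO'.2.measurableSet]
  refine (congrArg _ (_root_.funext fun x => ?_)).trans (integral_add
    ((integ (fun x => ((sm_cwd k hg.sm hg.con.sm x).div_const _).sub ((SA.mul (sa_trL (hg.sm x))
      ((sm_eud k x).add (sm_sgd k x))).div_const _)) (c _)).indicator hO.2.measurableSet)
    ((integ (sm_dn k ((sub_p hG H C).mul hs).sm C.cc.sm) (c _)).indicator hO'.2.measurableSet))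
  rw [cwd_ind, ← dn_ind]
  congr 1
  · by_cases hx : x ∈ O <;> simp [hx]
  · by_cases hx : x ∈ O' <;> simp [dn, hx]

/-- **The index of the linearised monopole operator over clopen sets.** -/
theorem ind_md (hO : IsClopen O) (hO' : IsClopen O') {d : Bd M ι (Fin m.N)} (h : d.OK)
    (e : d = ⟨B.P, B.o, m.ρ, O.indicator m.pg,
      fun x => idx (fun a b => B.P a b x) (O.indicator m.pg x),
      fun x => idx (B.sd x) (O.indicator m.pg x), O'.indicator (m.pp B), O'.indicator (m.pm B)⟩)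
    (hu : An.Sm I u) : (ind G.F (d.full G.F u) : ℝ)
      = ∫ x in O, (8 * m.kd B G.F W x - 3 * (eud G.F B.o x + sgd G.F B.o x) / 2) ∂G.F.μ
      + ∫ x in O', (lad B G x / 2 - 2 * m.kd B G.F W x - sgd G.F B.o x / 2) ∂G.F.μ := by
  obtain rfl : d = sbd m B (O.indicator m.pg) (O'.indicator m.p) := by
    rw [e]
    congr 1 <;> funext x <;> by_cases hx : x ∈ O' <;> simp [hx, pp_p H, pm_p H]
  rw [ind_on hB hG H C h4 hO hO' h (sub_pg hB hG H C) (sub_p hG H C) hu]
  simp only [cwd_pg hB hG H C, trL_pg hB H, H.pidem, dn_p hB hG H C]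
  congr 2
  funext x
  field_simp
  ring

variable {ξ : M → m.A} (R : Red G.F m W ξ)
include R

/-- **the abelian theory of a reduction** -/
theorem ind_tan (hO : IsClopen O) (hO' : IsClopen O') (hu : An.Sm I u) :
    (ind G.F ((sbd m B (O.indicator fun x => ln (ξ x))
      (O'.indicator fun x => hf m x (ξ x))).full G.F u) : ℝ)
      = -∫ x in O, (eud G.F B.o x + sgd G.F B.o x) / 2 ∂G.F.μ
      + ∫ x in O', (wf B.o (fun a b x => fl B G a b x + 2 * fF G.F m W ξ a b x)
        (fun a b x => fl B G a b x + 2 * fF G.F m W ξ a b x) x / (64 * Real.pi ^ 2)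
        - sgd G.F B.o x / 4) ∂G.F.μ := by
  rw [ind_on hB hG H C h4 hO hO' (ok_hf hB H R (prj_ln H R) O O') (sub_ln hB hG H C R)
    (sub_hf hG H C R) hu, ← integral_neg]
  simp only [cwd_ln R.sm R.par (con_adW C).sm, trL_ln, R.inn H, Abel74.p_hf H (R.mem _),
    dn_hf hB hG H C R]
  congr 2
  funext x
  ring

/-- **the normal theory of a reduction** -/
theorem ind_nor (hO : IsClopen O) (hO' : IsClopen O') (hu : An.Sm I u) :
    (ind G.F ((sbd m B (O.indicator fun x => m.pg x - ln (ξ x))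
      (O'.indicator fun x => hf m x (-ξ x))).full G.F u) : ℝ)
      = ∫ x in O, (8 * m.kd B G.F W x - (eud G.F B.o x + sgd G.F B.o x)) ∂G.F.μ
      + ∫ x in O', (wf B.o (fun a b x => fl B G a b x - 2 * fF G.F m W ξ a b x)
        (fun a b x => fl B G a b x - 2 * fF G.F m W ξ a b x) x / (64 * Real.pi ^ 2)
        - sgd G.F B.o x / 4) ∂G.F.μ := by
  rw [ind_on hB hG H C h4 hO hO' (ok_hf hB H R.neg (prj_nor H R) O O')
    ((sub_pg hB hG H C).sub (sub_ln hB hG H C R)) (sub_hf hG H C R.neg) hu]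
  simp only [cwd_sub, cwd_pg hB hG H C, cwd_ln R.sm R.par (con_adW C).sm, map_sub, trL_ln, R.inn H,
    trL_pg hB H, Abel74.p_hf H (R.neg.mem _), dn_hf hB hG H C R.neg, Abel74.fF_neg, mul_neg,
    ← sub_eq_add_neg]
  congr 2
  funext x
  field_simp
  ring

end Crest.Agent.X212.Idg99
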