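import Crest.Agent.X212.Idg99.Mat
import Crest.Agent.X212.Std94.Alt

/-! The Levi-Civita connection on one-forms and two-forms in a spanning frame. -/

set_option autoImplicit false
set_option linter.unusedSectionVars false
open scoped Manifold ContDiff Topology InnerProductSpace Kronecker Matrix
open Finset Filter

noncomputable section
namespace Crest.Agent.X212.Idg99
open An Wz78 Sob92 Ind95
open Map77 (Vol sdm)

section alg
variable {ι : Type} [Fintype ι] [DecidableEq ι]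

/-- the swap of two indices -/
def Sw (ι : Type) [DecidableEq ι] : Matrix (ι × ι) (ι × ι) ℝ :=
  Matrix.of fun s t => if s = t.swap then 1 else 0

theorem mul_Sw (A : Matrix (ι × ι) (ι × ι) ℝ) (s t : ι × ι) : (A * Sw ι) s t = A s t.swap := by
  simp [Sw, Matrix.mul_apply]

theorem Sw_mul (A : Matrix (ι × ι) (ι × ι) ℝ) (s t : ι × ι) : (Sw ι * A) s t = A s.swap t := by
  simp [Sw, Matrix.mul_apply, ← Prod.swap_eq_iff_eq_swap]

theorem Sw_kron (A B : Matrix ι ι ℝ) : Sw ι * A ⊗ₖ B = B ⊗ₖ A * Sw ι := by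
  ext s t; simp [mul_Sw, Sw_mul, mul_comm]

theorem trace_Sw (A B : Matrix ι ι ℝ) : (A ⊗ₖ B * Sw ι).trace = (A * B).trace := by
  simp only [Matrix.trace, Matrix.diag, mul_Sw]
  simp [Matrix.mul_apply, Fintype.sum_prod_type]

/-- the projector onto two-forms -/
def a2M (P : Matrix ι ι ℝ) : Matrix (ι × ι) (ι × ι) ℝ := (1 / 2 : ℝ) • (P ⊗ₖ P - P ⊗ₖ P * Sw ι)

/-- the Hodge star -/
def stM (o : ι → ι → ι → ι → ℝ) : Matrix (ι × ι) (ι × ι) ℝ :=
  Matrix.of fun s t => o s.1 s.2 t.1 t.2 / 2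

/-- the projector onto self-dual forms -/
def sdM (P : ι → ι → ℝ) (o : ι → ι → ι → ι → ℝ) : Matrix (ι × ι) (ι × ι) ℝ := Matrix.of (sdm P o)

theorem sdM_eq (P : ι → ι → ℝ) (o : ι → ι → ι → ι → ℝ) :
    sdM P o = (1 / 2 : ℝ) • (a2M (Matrix.of P) + stM o) := by
  ext s t; simp [sdM, sdm, a2M, stM, mul_Sw]; ring

theorem trace_a2 {P R R' : Matrix ι ι ℝ} (hP : Pᵀ = P) (h4 : P.trace = 4) (hPP : P * P = P)
    (hR : Rᵀ = -R) (hR' : R'ᵀ = -R') (hc : R * P = P * R) :
    (a2M P * (R ⊗ₖ (1 : Matrix ι ι ℝ) + (1 : Matrix ι ι ℝ) ⊗ₖ R)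
      * (R' ⊗ₖ (1 : Matrix ι ι ℝ) + (1 : Matrix ι ι ℝ) ⊗ₖ R')).trace = 2 * (P * R * R').trace := by
  have h : ∀ R : Matrix ι ι ℝ, Sw ι * (R ⊗ₖ (1 : Matrix ι ι ℝ) + (1 : Matrix ι ι ℝ) ⊗ₖ R)
      = (R ⊗ₖ (1 : Matrix ι ι ℝ) + (1 : Matrix ι ι ℝ) ⊗ₖ R) * Sw ι := fun R => by
    rw [mul_add, add_mul, Sw_kron, Sw_kron, add_comm]
  have e1 : P * R * (P * R') = P * R * R' := by
    rw [mul_assoc P R, ← mul_assoc R, hc, ← mul_assoc, ← mul_assoc, hPP]
  have e2 : (P * R' * (P * R)).trace = (P * R * R').trace := by rw [Matrix.trace_mul_comm, e1]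
  have e3 : (P * R * R' * P).trace = (P * R * R').trace := by
    rw [Matrix.trace_mul_comm, ← mul_assoc, ← mul_assoc, hPP]
  have e4 : P * (P * R * R') = P * R * R' := by rw [← mul_assoc, ← mul_assoc, hPP]
  rw [a2M, smul_mul_assoc, smul_mul_assoc, sub_mul, sub_mul, mul_assoc _ (Sw ι), h,
    mul_assoc (P ⊗ₖ P) (_ * Sw ι), mul_assoc _ (Sw ι), h]
  simp only [mul_add, add_mul, ← mul_assoc, ← Matrix.mul_kronecker_mul, mul_one, one_mul,
    Matrix.trace_smul, Matrix.trace_sub, Matrix.trace_add, trace_Sw, Matrix.trace_kronecker,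
    trace_sym_skew hP hR, trace_sym_skew hP hR', h4, smul_eq_mul]
  simp only [← mul_assoc] at e1 e2 e3 e4
  simp only [e1, e2, e3, e4, hPP]
  ring

theorem trace_sdM {P : ι → ι → ℝ} {o : ι → ι → ι → ι → ℝ} (h : Vol P o) : (sdM P o).trace = 3 := by
  have h1 : ∀ a b, o a b a b = 0 := fun a b => by
    have := h.a1 a a b b
    rw [h.a2, show o a a b b = 0 by linarith, neg_zero]
  simp only [Matrix.trace, Matrix.diag, sdM, Matrix.of_apply, sdm, h1, Fintype.sum_prod_type,
    zero_div, add_zero, ← sum_div, sum_sub_distrib, h.pr.idem, ← mul_sum, ← sum_mul, h.tr]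
  norm_num

theorem sdM_symm {P : ι → ι → ℝ} {o : ι → ι → ι → ι → ℝ} (h : Vol P o) : (sdM P o)ᵀ = sdM P o := by
  ext s t; exact h.sdm_symm t s

theorem sdM_idem {P : ι → ι → ℝ} {o : ι → ι → ι → ι → ℝ} (h : Vol P o) :
    sdM P o * sdM P o = sdM P o := by
  ext s t; exact h.sdm_idem s t

omit [DecidableEq ι] in
/-- an alternating tensor orthogonal to the volume form vanishes -/
theorem alt_zero {P : ι → ι → ℝ} {o N : ι → ι → ι → ι → ℝ} (h : Vol P o) (hN : Std94.Alt N)
    (hP : ∀ a b c d, ∑ k, P a k * N k b c d = N a b c d) (h0 : c4 o N = 0) (a b c d : ι) :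
    N a b c d = 0 := by
  obtain ⟨U, hU⟩ := Std94.exists_OF h.pr.symm h.pr.idem h.tr ⟨h.a1, h.a2, h.a3⟩ h.po h.nm
  have e : ∀ a b c d, N a b c d = Std94.ct U N 0 1 2 3 * o a b c d := fun a b c d => by
    have h1 : N a b c d = Std94.ct (fun a i => U i a) (Std94.ct U N) a b c d := by
      rw [Std94.ct_ct]; simp only [hU.P]; exact (hN.ct_proj hP a b c d).symm
    have h2 : Std94.ct U N = fun i j k l => Std94.ct U N 0 1 2 3 * Std94.eps i j k l := by
      funext i j k l; exact (hN.ct U).eq_eps i j k l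
    rw [h1, hU.o]
    nth_rewrite 1 [h2]
    simp only [Std94.ct.eq_1 (fun a i => U i a), mul_sum, mul_left_comm (Std94.ct U N 0 1 2 3)]
  generalize Std94.ct U N 0 1 2 3 = t at e
  have h3 : c4 o N = t * 24 := by
    simp only [c4, e, ← h.nm, mul_sum]
    exact sum_congr rfl fun _ _ => sum_congr rfl fun _ _ => sum_congr rfl fun _ _ =>
      sum_congr rfl fun _ _ => by ring
  rw [e, show t = 0 by linarith, zero_mul]

theorem skew_four {P : ι → ι → ℝ} {o : ι → ι → ι → ι → ℝ} (h : Vol P o) {Ω : Matrix ι ι ℝ}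
    (hΩ : Ωᵀ = -Ω) : c4 o (fun b c d f => ∑ k, Ω b k * o k c d f)
      + c4 o (fun b c d f => ∑ k, Ω c k * o b k d f) + c4 o (fun b c d f => ∑ k, Ω d k * o b c k f)
      + c4 o (fun b c d f => ∑ k, Ω f k * o b c d k) = 0 := by
  have h1 : c4 o (fun b c d f => ∑ k, Ω b k * o k c d f) = 0 := by
    have := trace_sym_skew (S := Matrix.of fun k b => ∑ c, ∑ d, ∑ f, o b c d f * o k c d f)
      (by ext k b; simp [mul_comm]) hΩ
    rw [← this, Matrix.trace_mul_comm]
    simp only [c4, Matrix.trace, Matrix.diag, Matrix.mul_apply, Matrix.of_apply, mul_sum]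
    refine sum_congr rfl fun b _ => ?_
    symm
    rw [sum_comm]
    refine sum_congr rfl fun c _ => ?_
    rw [sum_comm]
    refine sum_congr rfl fun d _ => ?_
    rw [sum_comm]
    exact sum_congr rfl fun f _ => sum_congr rfl fun k _ => by ring
  have h2 : c4 o (fun b c d f => ∑ k, Ω c k * o b k d f) = 0 := by
    rw [← h1, c4, c4, sum_comm]
    simp only [mul_sum]
    exact sum_congr rfl fun b _ => sum_congr rfl fun c _ => sum_congr rfl fun d _ =>
      sum_congr rfl fun f _ => sum_congr rfl fun k _ => by rw [h.a1 c b, h.a1 c k]; ring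
  have h3 : c4 o (fun b c d f => ∑ k, Ω d k * o b c k f) = 0 := by
    rw [← h2, c4, c4]
    refine sum_congr rfl fun b _ => ?_
    rw [sum_comm]
    simp only [mul_sum]
    exact sum_congr rfl fun c _ => sum_congr rfl fun d _ =>
      sum_congr rfl fun f _ => sum_congr rfl fun k _ => by rw [h.a2 b d c, h.a2 b d k]; ring
  have h4 : c4 o (fun b c d f => ∑ k, Ω f k * o b c d k) = 0 := by
    rw [← h3, c4, c4]
    refine sum_congr rfl fun b _ => sum_congr rfl fun c _ => ?_
    rw [sum_comm]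
    simp only [mul_sum]
    exact sum_congr rfl fun d _ =>
      sum_congr rfl fun f _ => sum_congr rfl fun k _ => by rw [h.a3 b c f d, h.a3 b c f k]; ring
  rw [h1, h2, h3, h4]; ring

end alg

variable {E H : Type*} [NormedAddCommGroup E] [NormedSpace ℝ E] [TopologicalSpace H]
  {I : ModelWithCorners ℝ E H} {M : Type*} [TopologicalSpace M] [ChartedSpace H M]
  {ι : Type} [Fintype ι] [DecidableEq ι] [IsManifold I 1 M]

/-- the Gram matrix -/
def Pm (P : ι → ι → M → ℝ) (x : M) : Matrix ι ι ℝ := Matrix.of fun a b => P a b x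
/-- the Christoffel matrix -/
def Gm (Γ : ι → ι → ι → M → ℝ) (a : ι) (x : M) : Matrix ι ι ℝ := Matrix.of fun b k => Γ a b k x
/-- the Levi-Civita connection on one-forms, a skew matrix -/
def Om (P : ι → ι → M → ℝ) (Γ : ι → ι → ι → M → ℝ) (a : ι) (x : M) : Matrix ι ι ℝ :=
  -Gm Γ a x + (Gm Γ a x)ᵀ + Pm P x * Gm Γ a x
/-- the Levi-Civita connection on two-tensors -/
def Om2 (P : ι → ι → M → ℝ) (Γ : ι → ι → ι → M → ℝ) : ι → M → Matrix (ι × ι) (ι × ι) ℝ :=
  kr (Om P Γ) (Om P Γ)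

variable {e : ι → (x : M) → TangentSpace I x} {P : ι → ι → M → ℝ} {c Γ : ι → ι → ι → M → ℝ}
  {o : ι → ι → ι → ι → M → ℝ} (L : LC I e P c Γ) (F : Frm I e P c)

include F in
theorem Pm_symm (x : M) : (Pm P x)ᵀ = Pm P x := by ext a b; exact (F.pr x).symm b a
include F in
theorem Pm_idem (x : M) : Pm P x * Pm P x = Pm P x := by ext a b; exact (F.pr x).idem a b
include F in
theorem sm_Pm (x : M) : SM I (Pm P) x := fun a b => F.sP a b x
include L

theorem sm_Gm (a : ι) (x : M) : SM I (Gm Γ a) x := fun b k => L.sm a b k x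
theorem Gm_Pm (a : ι) (x : M) : Gm Γ a x * Pm P x = Gm Γ a x := by ext b l; exact L.proj a b l x
theorem Dm_Pm (a : ι) (x : M) : Dm I (e a) (Pm P) x = Gm Γ a x + (Gm Γ a x)ᵀ := by
  ext b l; exact L.met a b l x

include F

theorem Pm_Gt (a : ι) (x : M) : Pm P x * (Gm Γ a x)ᵀ = (Gm Γ a x)ᵀ := by
  rw [← Pm_symm F, ← Matrix.transpose_mul, Gm_Pm L]

theorem Gt_Pm (a : ι) (x : M) : (Gm Γ a x)ᵀ * Pm P x = -(Pm P x * Gm Γ a x) := by
  have h := Dm_mul (v := e a) (sm_Pm F x) (sm_Pm F x)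
  simp only [Pm_idem F, Dm_Pm L, add_mul, mul_add, Gm_Pm L, Pm_Gt L F] at h
  rw [eq_neg_iff_add_eq_zero]
  rw [← add_left_cancel_iff (a := Gm Γ a x + (Gm Γ a x)ᵀ), add_zero]
  conv_rhs => rw [h]
  abel

theorem sm_Om (a : ι) (x : M) : SM I (Om P Γ a) x := fun s t =>
  ((sm_Gm L a x s t).neg.add (sm_Gm L a x t s)).add ((sm_Pm F x).mul (sm_Gm L a x) s t)

theorem Om_skew (a : ι) (x : M) : (Om P Γ a x)ᵀ = -Om P Γ a x := by
  simp only [Om, Matrix.transpose_add, Matrix.transpose_neg, Matrix.transpose_transpose,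
    Matrix.transpose_mul, Pm_symm F, Gt_Pm L F]
  abel

theorem Om_Pm (a : ι) (x : M) : Om P Γ a x * Pm P x = -Gm Γ a x := by
  simp only [Om, add_mul, neg_mul, mul_assoc, Gm_Pm L, Gt_Pm L F]; abel

theorem Pm_Om (a : ι) (x : M) : Pm P x * Om P Γ a x = (Gm Γ a x)ᵀ := by
  simp only [Om, mul_add, mul_neg, ← mul_assoc, Pm_idem F, Pm_Gt L F]; abel

theorem nm_Pm (a : ι) (x : M) : nm I e (Om P Γ) a (Pm P) x = 0 := by
  simp only [nm, Dm_Pm L, Om_Pm L F, Pm_Om L F]; abel

theorem Om_proj (S : Sep I e P) (a : ι) (x : M) : ∑ b, P a b x • Om P Γ b x = Om P Γ a x := by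
  have h : ∑ b, P a b x • Gm Γ b x = Gm Γ a x := by
    ext s t; simpa [Matrix.sum_apply, Gm] using L.proj1 F S a s t x
  simp only [Om, ← h, smul_add, smul_neg, sum_add_distrib, sum_neg_distrib, Matrix.transpose_sum,
    Matrix.transpose_smul, Matrix.mul_sum, Matrix.mul_smul]

theorem cm_Pm (a b : ι) (x : M) :
    cm I e c (Om P Γ) a b x * Pm P x = -Matrix.of fun m l => Rm I e c Γ a b m l x := by
  have h1 : ∀ a b, Dm I (e a) (Om P Γ b) x * Pm P x
      = -Dm I (e a) (Gm Γ b) x - Om P Γ b x * Gm Γ a x + Gm Γ b x * (Gm Γ a x)ᵀ := fun a b => by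
    have h := Dm_mul (v := e a) (sm_Om L F b x) (sm_Pm F x)
    have h2 : Dm I (e a) (fun y => -Gm Γ b y) x = -Dm I (e a) (Gm Γ b) x := by
      ext s t; exact dv_neg (fun y => Γ b s t y) x
    have h3 : Om P Γ b x * (Gm Γ a x)ᵀ = -(Gm Γ b x * (Gm Γ a x)ᵀ) := by
      rw [← Pm_Gt L F, ← mul_assoc, Om_Pm L F, neg_mul, Pm_Gt L F]
    simp only [Om_Pm L F, h2, Dm_Pm L, mul_add, h3] at h
    rw [h]; abel
  have h2 : (Matrix.of fun m l => Rm I e c Γ a b m l x) = Dm I (e a) (Gm Γ b) x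
      - Dm I (e b) (Gm Γ a) x + (Gm Γ a x * (Gm Γ b x)ᵀ - Gm Γ b x * (Gm Γ a x)ᵀ)
      - ∑ k, c a b k x • Gm Γ k x := by
    ext m l
    simp [Rm, Dm, Gm, Matrix.mul_apply, Matrix.sum_apply]
  simp only [cm, sub_mul, add_mul, h1, h2, mul_assoc, Om_Pm L F, Matrix.sum_mul, smul_mul_assoc,
    mul_neg, smul_neg, sum_neg_distrib]
  abel

theorem cm_Om_skew (a b : ι) (x : M) : (cm I e c (Om P Γ) a b x)ᵀ = -cm I e c (Om P Γ) a b x :=
  cm_skew (Om_skew L F) a b

theorem Pm_cm (a b : ι) (x : M) :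
    Pm P x * cm I e c (Om P Γ) a b x = -Matrix.of fun m l => Rm I e c Γ a b m l x := by
  have h := congrArg Matrix.transpose (cm_Pm L F a b x)
  rw [Matrix.transpose_mul, Pm_symm F, cm_Om_skew L F, mul_neg, neg_eq_iff_eq_neg] at h
  rw [h]; ext m l; simp [L.Rm_s34 F a b m l x]

theorem cwm_Pm (o : ι → ι → ι → ι → ℝ) (x : M) :
    cwm o (Pm P x) (fun a b => cm I e c (Om P Γ) a b x)
      = cwT o fun a b m l => Rm I e c Γ a b m l x := by
  have h : ∀ a b a' b', (Pm P x * cm I e c (Om P Γ) a b x * cm I e c (Om P Γ) a' b' x).trace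
      = -∑ k, ∑ l, Rm I e c Γ a b k l x * Rm I e c Γ a' b' k l x := fun a b a' b' => by
    rw [← Pm_idem F, mul_assoc (Pm P x), mul_assoc (Pm P x), Matrix.trace_mul_comm, mul_assoc,
      cm_Pm L F, Pm_cm L F]
    rw [neg_mul_neg]
    simp only [Matrix.trace, Matrix.diag, Matrix.mul_apply, Matrix.of_apply, ← sum_neg_distrib]
    exact sum_congr rfl fun k _ => sum_congr rfl fun l _ => by rw [L.Rm_s34 F a' b' l k x]; ring
  simp only [cwm, h, c4_neg]; rfl

theorem sm_Om2 (a : ι) (x : M) : SM I (Om2 P Γ a) x := sm_kr (sm_Om L F a x) (sm_Om L F a x)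

theorem Om2_skew (a : ι) (x : M) : (Om2 P Γ a x)ᵀ = -Om2 P Γ a x :=
  kr_skew (Om_skew L F a x) (Om_skew L F a x)

theorem Om2_proj (S : Sep I e P) (a : ι) (x : M) : ∑ b, P a b x • Om2 P Γ b x = Om2 P Γ a x :=
  kr_proj (fun a => Om_proj L F S a x) (fun a => Om_proj L F S a x) a

theorem cm_Om2_skew (a b : ι) (x : M) : (cm I e c (Om2 P Γ) a b x)ᵀ = -cm I e c (Om2 P Γ) a b x :=
  cm_skew (Om2_skew L F) a b

omit L in
theorem sm_a2 (x : M) : SM I (fun y => a2M (Pm P y)) x :=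
  (((sm_Pm F x).kron (sm_Pm F x)).sub (((sm_Pm F x).kron (sm_Pm F x)).mul (SM.const _))).smul _

theorem nm_a2 (a : ι) (x : M) : nm I e (Om2 P Γ) a (fun y => a2M (Pm P y)) x = 0 := by
  have h := (sm_Pm F x).kron (sm_Pm F x)
  have h1 : nm I e (Om2 P Γ) a (fun y => Pm P y ⊗ₖ Pm P y) x = 0 := by
    rw [Om2, nm_kr (sm_Pm F x) (sm_Pm F x), nm_Pm L F]; simp
  have h2 : nm I e (Om2 P Γ) a (fun _ => Sw ι) x = 0 := by
    simp only [nm, Dm_const, Om2, kr, mul_add, add_mul, Sw_kron]; abel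
  simp only [a2M]
  rw [nm_smul _ (h.sub (h.mul (SM.const _))), nm_sub h (h.mul (SM.const _)),
    nm_mul h (SM.const _), h1, h2]
  simp

theorem cwm_a2 (o : ι → ι → ι → ι → ℝ) (x : M) (h4 : ∑ a, P a a x = 4) :
    cwm o (a2M (Pm P x)) (fun a b => cm I e c (Om2 P Γ) a b x)
      = 2 * cwT o fun a b m l => Rm I e c Γ a b m l x := by
  simp only [cwm, Om2, cm_kr (fun a => sm_Om L F a x) fun a => sm_Om L F a x, ← cwm_Pm L F,
    ← c4_mul]
  congr 1
  funext a b a' b'
  exact trace_a2 (Pm_symm F x) h4 (Pm_idem F x) (cm_Om_skew L F _ _ x) (cm_Om_skew L F _ _ x)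
    (by rw [cm_Pm L F, Pm_cm L F])

/-- the volume form is parallel -/
theorem o_par (so : ∀ a b c d x, SA I (o a b c d) x)
    (ho : ∀ x, Vol (fun a b => P a b x) fun a b c d => o a b c d x) (a : ι) (x : M) (b c d f : ι) :
    dv I (e a) (o b c d f) x + ∑ k, (Om P Γ a x b k * o k c d f x + Om P Γ a x c k * o b k d f x
      + Om P Γ a x d k * o b c k f x + Om P Γ a x f k * o b c d k x) = 0 := by
  have h := ho x
  have n : ∀ {u w : M → ℝ}, (∀ y, u y = -w y) → dv I (e a) u x = -dv I (e a) w x := fun {u w} h => by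
    rw [show u = -w from _root_.funext h, dv_neg]
  refine alt_zero h (N := fun b c d f => dv I (e a) (o b c d f) x + ∑ k,
    (Om P Γ a x b k * o k c d f x + Om P Γ a x c k * o b k d f x
      + Om P Γ a x d k * o b c k f x + Om P Γ a x f k * o b c d k x))
    ⟨fun b c d f => ?_, fun b c d f => ?_, fun b c d f => ?_⟩ (fun b c d f => ?_) ?_ b c d f
  · rw [n fun y => (ho y).a1 b c d f, neg_add, ← sum_neg_distrib]
    congr 1
    exact sum_congr rfl fun k _ => by rw [h.a1 k c, h.a1 b k, h.a1 b c, h.a1 b c]; ring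
  · rw [n fun y => (ho y).a2 b c d f, neg_add, ← sum_neg_distrib]
    congr 1
    exact sum_congr rfl fun k _ => by rw [h.a2 k c, h.a2 b k, h.a2 b c k, h.a2 b c d]; ring
  · rw [n fun y => (ho y).a3 b c d f, neg_add, ← sum_neg_distrib]
    congr 1
    exact sum_congr rfl fun k _ => by rw [h.a3 k c, h.a3 b k, h.a3 b c k, h.a3 b c d]; ring
  · have h1 : dv I (e a) (o b c d f) x = ∑ k, (dv I (e a) (P b k) x * o k c d f x
        + P b k x * dv I (e a) (o k c d f) x) := by
      rw [show o b c d f = fun y => ∑ k, P b k y * o k c d f y from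
        _root_.funext fun y => ((ho y).po b c d f).symm,
        dv_sum' _ fun k => (F.sP b k x).mul (so k c d f x)]
      exact sum_congr rfl fun k _ => dv_mul (F.sP b k x) (so k c d f x)
    have h2 : ∑ j, P b j x * ∑ k, Om P Γ a x j k * o k c d f x = ∑ k, Γ a k b x * o k c d f x := by
      simp only [mul_sum, ← mul_assoc]
      rw [sum_comm]
      simp only [← sum_mul]
      exact sum_congr rfl fun k _ => congrArg (· * _) (congrFun (congrFun (Pm_Om L F a x) b) k)
    have h3 : ∑ k, Om P Γ a x b k * o k c d f x = -∑ k, Γ a b k x * o k c d f x := by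
      rw [sum_congr rfl fun k _ => congrArg (Om P Γ a x b k * ·) (h.po k c d f).symm]
      simp only [mul_sum, ← mul_assoc]
      rw [sum_comm]
      simp only [← sum_mul, ← sum_neg_distrib, ← neg_mul]
      exact sum_congr rfl fun k _ => congrArg (· * _) (congrFun (congrFun (Om_Pm L F a x) b) k)
    have h4 : ∀ (w : ι → ℝ) (g : ι → ι → ℝ), (∀ k, ∑ j, P b j x * g j k = g b k) →
        ∑ j, P b j x * ∑ k, w k * g j k = ∑ k, w k * g b k := fun w g hg => by
      simp only [mul_sum, mul_left_comm (P b _ x)]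
      rw [sum_comm]
      simp only [← mul_sum, hg]
    simp only [mul_add, sum_add_distrib, h2, h3, L.met, add_mul] at h1 ⊢
    rw [h4 _ (fun j k => o j k d f x) fun k => h.po b k d f,
      h4 _ (fun j k => o j c k f x) fun k => h.po b c k f,
      h4 _ (fun j k => o j c d k x) fun k => h.po b c d k]
    linarith
  · have h1 : c4 (fun a b c d => o a b c d x) (fun b c d f => dv I (e a) (o b c d f) x) = 0 := by
      have h2 : dv I (e a) (fun y => ∑ b, ∑ c, ∑ d, ∑ f, o b c d f y * o b c d f y) x = 0 := by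
        rw [show (fun y => ∑ b, ∑ c, ∑ d, ∑ f, o b c d f y * o b c d f y) = fun _ => (24 : ℝ) from
          _root_.funext fun y => by simpa only [sq] using (ho y).nm, dv_const]; rfl
      have s := fun b c d f => (so b c d f x).mul (so b c d f x)
      rw [dv_sum' _ fun b => SA.sum _ fun c _ => SA.sum _ fun d _ => SA.sum _ fun f _ => s b c d f,
        sum_congr rfl fun b _ => by
          rw [dv_sum' _ fun c => SA.sum _ fun d _ => SA.sum _ fun f _ => s b c d f,
            sum_congr rfl fun c _ => by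
              rw [dv_sum' _ fun d => SA.sum _ fun f _ => s b c d f, sum_congr rfl fun d _ => by
                rw [dv_sum' _ fun f => s b c d f, sum_congr rfl fun f _ =>
                  dv_mul (so b c d f x) (so b c d f x)]]]] at h2
      simp only [mul_comm (dv _ _ _ _), sum_add_distrib] at h2
      rw [c4]; linarith
    simp only [sum_add_distrib, c4_add, h1, zero_add]
    exact skew_four h (Om_skew L F a x)

theorem nm_st (so : ∀ a b c d x, SA I (o a b c d) x)
    (ho : ∀ x, Vol (fun a b => P a b x) fun a b c d => o a b c d x) (a : ι) (x : M) :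
    nm I e (Om2 P Γ) a (fun y => stM fun a b c d => o a b c d y) x = 0 := by
  ext s t
  have h := o_par L F so ho a x s.1 s.2 t.1 t.2
  have h1 : dv I (e a) (fun y => o s.1 s.2 t.1 t.2 y / 2) x = dv I (e a) (o s.1 s.2 t.1 t.2) x / 2 := by
    simp only [div_eq_inv_mul]; exact dv_const_smul _ (so _ _ _ _ x).md
  have h2 : ∀ b k, Om P Γ a x k b = -Om P Γ a x b k := fun b k =>
    congrFun (congrFun (Om_skew L F a x) b) k
  simp only [nm, Dm, stM, Om2, kr, Matrix.add_apply, Matrix.sub_apply, Matrix.of_apply, h1,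
    Matrix.mul_apply, Matrix.kroneckerMap_apply, Matrix.one_apply, Fintype.sum_prod_type, add_mul,
    mul_add, sum_add_distrib, mul_ite, ite_mul, mul_one, one_mul, mul_zero, zero_mul, sum_ite_eq,
    sum_ite_eq', mem_univ, if_true, Matrix.zero_apply, h2 t.1, h2 t.2] at h ⊢
  simp only [sum_ite_irrel, sum_const_zero, sum_ite_eq, sum_ite_eq', mem_univ, if_true, mul_neg,
    sum_neg_distrib, ← mul_div_assoc, div_mul_eq_mul_div, ← sum_div, mul_comm (o _ _ _ _ x)]
  linarith

omit L in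
theorem sm_sd (so : ∀ a b c d x, SA I (o a b c d) x) (x : M) :
    SM I (fun y => sdM (fun a b => P a b y) fun a b c d => o a b c d y) x := by
  simp only [sdM_eq]
  exact ((sm_a2 F x).add fun s t => (so _ _ _ _ x).div_const _).smul _

theorem nm_sd (so : ∀ a b c d x, SA I (o a b c d) x)
    (ho : ∀ x, Vol (fun a b => P a b x) fun a b c d => o a b c d x) (a : ι) (x : M) :
    nm I e (Om2 P Γ) a (fun y => sdM (fun a b => P a b y) fun a b c d => o a b c d y) x = 0 := by
  have h : SM I (fun y => stM fun a b c d => o a b c d y) x := fun s t => (so _ _ _ _ x).div_const _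
  simp only [sdM_eq]
  refine (nm_smul _ ((sm_a2 F x).add h) a).trans ?_
  rw [nm_add (sm_a2 F x) h, nm_a2 L F, nm_st L F so ho]
  simp

omit L F in
variable (I e P c Γ) in
/-- the Euler density is `-cwS / 128 π²` -/
def cwS (o : ι → ι → ι → ι → ℝ) (x : M) : ℝ := cwm o (stM o) fun a b => cm I e c (Om2 P Γ) a b x

theorem cwm_sd (o : ι → ι → ι → ι → ℝ) (x : M) (h4 : ∑ a, P a a x = 4) :
    cwm o (sdM (fun a b => P a b x) o) (fun a b => cm I e c (Om2 P Γ) a b x)
      = cwT o (fun a b m l => Rm I e c Γ a b m l x) + cwS I e P c Γ o x / 2 := by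
  have h := cwm_a2 L F o x h4
  simp only [cwm, cwS, sdM_eq, smul_mul_assoc, add_mul, Matrix.trace_smul, Matrix.trace_add,
    smul_eq_mul, c4_mul, c4_add] at h ⊢
  rw [show (Matrix.of fun a b => P a b x) = Pm P x from rfl, h]; ring

end Crest.Agent.X212.Idg99
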