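import Crest.Agent.X212.Idg99.Md
import Crest.Agent.X212.Taub88.Pt8

/-! Integrality: complex Clifford modules have even index; twisting by a line. -/

set_option autoImplicit false
set_option linter.unusedSectionVars false
open scoped Manifold ContDiff Topology InnerProductSpace Matrix
open Finset Filter MeasureTheory Module

noncomputable section
namespace Crest.Agent.X212.Idg99
open An Wz78 Sob92 Ind95 Map77
open Num57 (OK)
open Abel74 (Red hf fF)

theorem even_of_sq {V : Type*} [AddCommGroup V] [Module ℝ V] [FiniteDimensional ℝ V]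
    (T : V →ₗ[ℝ] V) (h : ∀ v, T (T v) = -v) : Even (finrank ℝ V) := by
  have e : T ∘ₗ T = (-1 : ℝ) • LinearMap.id := LinearMap.ext fun v => by simp [h]
  have := congrArg LinearMap.det e
  rw [LinearMap.det_comp, LinearMap.det_smul, LinearMap.det_id, mul_one] at this
  by_contra hn
  rw [(Nat.not_even_iff_odd.1 hn).neg_one_pow] at this
  nlinarith [mul_self_nonneg (LinearMap.det T)]

section pt
variable {ι : Type} [Fintype ι] {P : ι → ι → ℝ} {o : ι → ι → ι → ι → ℝ}
  {X Y : Type} [NormedAddCommGroup X] [InnerProductSpace ℝ X] [FiniteDimensional ℝ X]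
  [NormedAddCommGroup Y] [InnerProductSpace ℝ Y] [FiniteDimensional ℝ Y]
  {p J : X →L[ℝ] X} {ρ : ι → X →L[ℝ] X}

/-- Schur's lemma in real rank eight -/
theorem schur8 (h : Taub88.P8 P o p J ρ) {S : X →L[ℝ] X} (hs : ∀ v w, ⟪S v, w⟫_ℝ = ⟪v, S w⟫_ℝ)
    (hρ : ∀ a, S * ρ a = ρ a * S) (hp : S * p = S) : S = (trL S / 8) • p := by
  obtain ⟨u, hu, h1⟩ : ∃ u, Taub88.pp o p ρ u = u ∧ ⟪u, u⟫_ℝ = 1 := by
    obtain ⟨v, hv⟩ : ∃ v, Taub88.pp o p ρ v ≠ 0 := by
      by_contra hn
      have := h.tr_pp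
      rw [show Taub88.pp o p ρ = 0 from ContinuousLinearMap.ext fun v =>
        not_not.1 fun k => hn ⟨v, k⟩] at this
      simp [Taub88.tr] at this
    refine ⟨‖Taub88.pp o p ρ v‖⁻¹ • Taub88.pp o p ρ v, ?_, ?_⟩
    · rw [map_smul, ← mul_apply_eq_comp, h.pp_pp]
    · rw [real_inner_self_eq_norm_sq, norm_smul, norm_inv, norm_norm,
        inv_mul_cancel₀ (norm_ne_zero_iff.2 hv), one_pow]
  have c : ∀ a v, S (ρ a v) = ρ a (S v) := fun a v => DFunLike.congr_fun (hρ a) v
  have hp' : p * S = S := ContinuousLinearMap.ext fun v => ext_inner_left ℝ fun w => by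
    rw [mul_apply_eq_comp, ← h.ps, ← hs, ← mul_apply_eq_comp, hp, hs]
  have e1 : Taub88.pp o p ρ (S u) = S u := by
    rw [← mul_apply_eq_comp, Taub88.pp, smul_mul_assoc, sub_mul, hp',
      show Wz78.omA o ρ * S = S * Wz78.omA o ρ from (om_comm hρ).symm]
    nth_rewrite 1 [← hp]
    rw [← mul_sub, ← mul_smul_comm]
    exact congrArg S hu
  have e2 : ∀ a b, ⟪ρ a (ρ b u), S u⟫_ℝ = -⟪u, S u⟫_ℝ * P a b := fun a b => by
    have k : ⟪ρ b (ρ a u), S u⟫_ℝ = ⟪ρ a (ρ b u), S u⟫_ℝ := by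
      rw [h.ρs b, h.ρs a, ← c, ← c, ← hs, real_inner_comm, neg_neg]
    have := congrArg (⟪·, S u⟫_ℝ) (h.rel a b u)
    simp only [inner_sub_left, inner_neg_left, real_inner_smul_left, k, h.p_of hu] at this
    linarith
  have e3 := h.par2 hu (S u)
  have e0 := DFunLike.congr_fun h.sum_sq u
  have e6 : ∀ a, ∑ b, P a b • ρ a (ρ b u) = ρ a (ρ a u) := fun a => by
    simpa only [map_sum, map_smul] using congrArg (ρ a) (h.sum_ρ a u)
  simp only [_root_.sum_apply, mul_apply_eq_comp, smul_apply, h.p_of hu] at e0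
  simp only [e1, e2, h1, mul_smul, ← smul_sum, e6, e0] at e3
  have e4 : S u = ⟪u, S u⟫_ℝ • u := by linear_combination (norm := module) (-1 / 4 : ℝ) • e3
  generalize ⟪u, S u⟫_ℝ = r at e4
  have e5 : S = r • p := ContinuousLinearMap.ext fun v => by
    have := h.ext8 hu h1 (X := S - r • 1) (fun a => by simp [c, e4]) (fun a b => by simp [c, e4]) v
    rw [sub_apply, sub_eq_zero, ← mul_apply_eq_comp, hp] at this
    exact this
  rw [e5, map_smul, show trL p = 8 from h.rk, smul_eq_mul, mul_div_cancel_right₀ _ (by norm_num)]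

/-- the matrix of an endomorphism -/
def mt : (Y →L[ℝ] Y) →ₗ[ℝ] Matrix (Fin (finrank ℝ Y)) (Fin (finrank ℝ Y)) ℝ where
  toFun := mat (stdOrthonormalBasis ℝ Y)
  map_add' S T := by ext k l; exact map_add (ent _ k l) S T
  map_smul' r T := by ext k l; exact map_smul (ent _ k l) r T

theorem mt_mul (S T : Y →L[ℝ] Y) : mt (S * T) = mt S * mt T := mat_mul _ S T

theorem mt_tr (T : Y →L[ℝ] Y) : (mt T).trace = trL T := (trL_mat _ T).symm

theorem mt_t {S T : Y →L[ℝ] Y} (h : ∀ v w, ⟪S v, w⟫_ℝ = ⟪v, T w⟫_ℝ) : (mt S)ᵀ = mt T := by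
  ext k l; exact (real_inner_comm _ _).trans (h _ _)

end pt

variable {E : Type} [NormedAddCommGroup E] [NormedSpace ℝ E] [FiniteDimensional ℝ E]
  [MeasurableSpace E] [BorelSpace E]
  {HM : Type} [TopologicalSpace HM] {I : ModelWithCorners ℝ E HM}
  {M : Type} [TopologicalSpace M] [ChartedSpace HM M] [IsManifold I ∞ M]
  [MeasurableSpace M] {ι : Type} [Fintype ι]
  {X Y : Type} [NormedAddCommGroup X] [InnerProductSpace ℝ X] [FiniteDimensional ℝ X]
  [NormedAddCommGroup Y] [InnerProductSpace ℝ Y] [FiniteDimensional ℝ Y]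
  {F : Fr I M ι} {o : ι → ι → ι → ι → M → ℝ} {p s : M → X →L[ℝ] X} {ρ W : ι → M → X →L[ℝ] X}
  {J : X →L[ℝ] X} {x : M} {O : Set M} {l : M → Y →L[ℝ] Y} {il : Y →L[ℝ] Y} {A : ι → M → Y →L[ℝ] Y}
  {f k : ι → ι → M → ℝ}

theorem sm_mt {T : M → Y →L[ℝ] Y} (h : SA I T x) : SM I (fun y => mt (T y)) x :=
  fun k l => h.clm (ent _ k l)

theorem Dm_mt {v : (x : M) → TangentSpace I x} {T : M → Y →L[ℝ] Y} (h : SA I T x) :
    Dm I v (fun y => mt (T y)) x = mt (dv I v T x) := by
  ext k l; exact dv_clm (ent _ k l) h.md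

theorem cm_mt (h : ∀ a, SA I (A a) x) (a b : ι) :
    cm I F.e F.c (fun a y => mt (A a y)) a b x = mt (curv I F.e F.c A a b x) := by
  simp only [cm, curv, Dm_mt (h _), map_sub, map_add, map_sum, map_smul, mt_mul]

theorem nm_mt {T : M → Y →L[ℝ] Y} (h : SA I T x) (a : ι) :
    nm I F.e (fun a y => mt (A a y)) a (fun y => mt (T y)) x = mt (nabE I F.e A a T x) := by
  simp only [nm, nabE, Dm_mt h, map_sub, map_add, mt_mul]

variable (F p ρ W J) in
/-- a complex Clifford module with a unitary Clifford connection -/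
structure Cm : Prop where
  cc : CC I F.e F.P F.Gam p ρ W
  sk : ∀ a x, Skew (W a x)
  ρsk : ∀ a x, Skew (ρ a x)
  Jsq : J * J = -1
  Jsk : Skew J
  Jp : ∀ x, J * p x = p x * J
  Jρ : ∀ a x, J * ρ a x = ρ a x * J
  JW : ∀ a x, J * W a x = W a x * J

variable (F l il A f) in
/-- a hermitian line with a connection of curvature `f • il` -/
structure Li : Prop where
  sub : Sub F l A
  sym : ∀ x v w, ⟪l x v, w⟫_ℝ = ⟪v, l x w⟫_ℝ
  idem : ∀ x, l x * l x = l x
  rk : ∀ x, trL (l x) = 2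
  sq : il * il = -1
  sk : Skew il
  ill : ∀ x, il * l x = l x * il
  ilA : ∀ a x, il * A a x = A a x * il
  cur : ∀ a b x, curv I F.e F.c A a b x * l x = f a b x • (il * l x)

/-- the dual line -/
theorem Li.neg (L : Li F l il A f) : Li F l (-il) A fun a b x => -f a b x :=
  ⟨L.sub, L.sym, L.idem, L.rk, by rw [neg_mul_neg, L.sq], fun v w => by simp [L.sk v w],
    fun x => by rw [neg_mul, mul_neg, L.ill], fun a x => by rw [neg_mul, mul_neg, L.ilA],
    fun a b x => by rw [L.cur, neg_mul, smul_neg, neg_smul, neg_neg]⟩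

theorem Li.sm_f (L : Li F l il A f) (a b : ι) : An.Sm I (f a b) := by
  rw [show f a b = fun x => -(1 / 2) * trL (il * (curv I F.e F.c A a b x * l x)) from
    _root_.funext fun x => by
      rw [L.cur, mul_smul_comm, ← mul_assoc, L.sq, neg_one_mul, map_smul, map_neg, L.rk, smul_eq_mul]; ring]
  exact fun x => SA.mul contMDiffAt_const (sa_trL (SA.mul contMDiffAt_const
    (SA.mul ((frm F).sCurv (L.sub.con.sm · x) a b) (L.sub.sm x))))

variable [T2Space M] [BorelSpace M] [SecondCountableTopology M] [I.Boundaryless]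

namespace Cm
variable (D : Cm F p ρ W J)
include D

theorem dm (h : OK F o) : Ind95.Dm F F.Gam p ρ W :=
  ⟨h.h4, h.isv, riem_of_vol h.isv, lc_gam F, D.cc, D.sk, D.ρsk⟩

theorem sb : Sub F p W := ⟨D.cc.toCon, D.sk, D.cc.sp, D.cc.par⟩

theorem idem (h : OK F o) (x : M) : p x * p x = p x := p_p (h.vo x) (D.cc.cl x)

theorem sym (h : OK F o) (x : M) (v w : X) : ⟪p x v, w⟫_ℝ = ⟪v, p x w⟫_ℝ :=
  p_sym (fun x => ori_of (h.vo x)) (D.dm h) x v w

/-- submodules -/
theorem sub (h : OK F o) (S : Sub F s W) (hs : Prj s) (hp : ∀ x, p x * s x = s x)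
    (hρ : ∀ a x, s x * ρ a x = ρ a x * s x) (hJ : ∀ x, J * s x = s x * J) :
    Cm F s (fun a x => ρ a x * s x) W J :=
  have k := (D.dm h).sub S.sm hs.symm (fun x => ContinuousLinearMap.ext (hs.idem x)) hp hρ S.par
  ⟨k.cc, D.sk, k.skρ, D.Jsq, D.Jsk, hJ,
    fun a x => by rw [← mul_assoc, D.Jρ, mul_assoc, hJ, mul_assoc], D.JW⟩

theorem on (h : OK F o) (hO : IsClopen O) :
    Cm F (O.indicator p) (fun a x => ρ a x * O.indicator p x) W J :=
  D.sub h (D.sb.ind hO) (prj_on O ⟨fun x => DFunLike.congr_fun (D.idem h x), D.sym h⟩)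
    (fun x => by by_cases hx : x ∈ O <;> simp [hx, D.idem h])
    (fun a x => by by_cases hx : x ∈ O <;> simp [hx, (D.cc.cl x).pl, (D.cc.cl x).pr])
    fun x => by by_cases hx : x ∈ O <;> simp [hx, D.Jp]

theorem even_K {q : M → X →L[ℝ] X} (hq : ∀ x, J * q x = q x * J)
    [FiniteDimensional ℝ (K F ρ W q)] : Even (finrank ℝ (K F ρ W q)) := by
  have c : ∀ {T : X →L[ℝ] X}, J * T = T * J → ∀ v, T (J v) = J (T v) := fun h v =>
    (DFunLike.congr_fun h v).symm
  refine even_of_sq (((J : X →ₗ[ℝ] X).compLeft M).restrict fun u hu =>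
    ⟨fun x => SA.clm J (hu.1 x), fun x => (c (hq x) _).trans (congrArg J (hu.2.1 x)),
      _root_.funext fun x => ?_⟩) fun u => Subtype.ext (_root_.funext fun x =>
        DFunLike.congr_fun D.Jsq (u.1 x))
  have := congrArg J (congrFun hu.2.2 x)
  rw [Pi.zero_apply, map_zero] at this
  rw [Pi.zero_apply, ← this]
  simp only [dir, Wz78.nab, map_sum, ← c (D.Jρ _ x), map_add, ← c (D.JW _ x)]
  exact sum_congr rfl fun a _ => by rw [← dv_clm J (SA.md (hu.1 x))]; rfl

/-- **the index of a complex module is even** -/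
theorem even [CompactSpace M] (h : OK F o) : ∃ n : ℤ, ∫ x, dn F o p W x ∂F.μ = 2 * (n : ℝ) := by
  obtain ⟨h1, h2, h3⟩ := index_main (fun x => ori_of (h.vo x)) (D.dm h) h.sm
  have c : ∀ x, J * omF o ρ x = omF o ρ x * J := fun x => om_comm (D.Jρ · x)
  obtain ⟨a, ha⟩ := D.even_K (q := fun x => (1 / 2 : ℝ) • (p x - omF o ρ x)) fun x => by
    rw [mul_smul_comm, smul_mul_assoc, mul_sub, sub_mul, D.Jp, c]
  obtain ⟨b, hb⟩ := D.even_K (q := fun x => (1 / 2 : ℝ) • (p x + omF o ρ x)) fun x => by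
    rw [mul_smul_comm, smul_mul_assoc, mul_add, add_mul, D.Jp, c]
  refine ⟨a - b, h3.symm.trans ?_⟩
  rw [ha, hb]; push_cast; ring

theorem even_on [CompactSpace M] (h : OK F o) (hO : IsClopen O) :
    ∃ n : ℤ, ∫ x in O, dn F o p W x ∂F.μ = 2 * (n : ℝ) := by
  simpa only [dn_ind, integral_indicator hO.2.measurableSet] using (D.on h hO).even h

variable (p J l il) in
omit D in
/-- the projector of the complex tensor product with a line -/
def tp (x : M) : CL (Fm (Fin (finrank ℝ Y)) X) (Fm (Fin (finrank ℝ Y)) X) :=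
  (1 / 2 : ℝ) • (ix (mt (l x)) (p x) - ix (mt (il * l x)) (J * p x))

theorem big (S : Sub F l A) : Cm F (fun x => ix 1 (p x)) (fun a x => ix 1 (ρ a x))
    (tA (fun a y => mt (A a y)) W) (ix 1 J) := by
  have n : ∀ {q : M → X →L[ℝ] X} a x, SA I q x → nabE I F.e (tA (fun a y => mt (A a y)) W) a
      (fun y => ix 1 (q y)) x = ix 1 (nabE I F.e W a q x) := fun a x hq => by
    rw [nabE_tA (SM.const 1) hq]; simp [nm, Dm_const]
  have sk : ∀ {T : X →L[ℝ] X}, Skew T →
      Skew (ix (1 : Matrix (Fin (finrank ℝ Y)) (Fin (finrank ℝ Y)) ℝ) T) := fun {T} h u w => by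
    rw [inner_ix _ (T' := -T) fun v w => by rw [h, neg_apply, inner_neg_right]]
    simp
  have ml : ∀ S T : X →L[ℝ] X, ix (1 : Matrix (Fin (finrank ℝ Y)) (Fin (finrank ℝ Y)) ℝ) S * ix 1 T
      = ix 1 (S * T) := fun S T => by rw [ix_mul, mul_one]
  exact ⟨⟨con_tA (fun a x => sm_mt (S.con.sm a x))
      (fun a x => by simp only [← map_smul, ← map_sum, S.con.proj]) D.cc.toCon,
      fun x => (SM.const 1).ix (D.cc.sp x), fun a x => (SM.const 1).ix (D.cc.sρ a x),
      fun x => ⟨fun a b => by rw [ml, ml, ← map_add, (D.cc.cl x).rel, map_smul],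
        fun a => by rw [ml, (D.cc.cl x).pl], fun a => by rw [ml, (D.cc.cl x).pr],
        fun a => by simp only [← map_smul, ← map_sum, (D.cc.cl x).proj]⟩,
      fun a x => (n a x (D.cc.sp x)).trans (by rw [D.sb.par, map_zero]),
      fun a b x => (n a x (D.cc.sρ b x)).trans (by
        rw [show nabE I F.e W a (ρ b) x = _ from D.cc.comp a b x]; simp only [map_sum, map_smul])⟩,
    fun a x => skew_tA ((mt_t (T := -A a x) fun v w => by
      rw [S.sk, neg_apply, inner_neg_right]).trans (map_neg _ _)) (D.sk a x),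
    fun a x => sk (D.ρsk a x), by rw [ml, D.Jsq, map_neg, ix_one], sk D.Jsk,
    fun x => by rw [ml, ml, D.Jp], fun a x => by rw [ml, ml, D.Jρ],
    fun a x => by simp only [tA, mul_add, add_mul, ix_mul, mul_one, one_mul, D.JW]⟩

variable (L : Li F l il A f) (h : OK F o)
include L h

/-- **twisting by a line** -/
theorem tw : Cm F (tp p J l il) (fun a x => ix 1 (ρ a x) * tp p J l il x)
    (tA (fun a y => mt (A a y)) W) (ix 1 J) := by
  have B := D.big L.sub
  have S1 := (L.sub.const L.ilA).mul L.sub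
  have S2 := (D.sb.const D.JW).mul D.sb
  have s1 := fun x => (sm_mt (L.sub.sm x)).ix (D.cc.sp x)
  have s2 := fun x => (sm_mt (S1.sm x)).ix (S2.sm x)
  have e1 : ∀ x, l x * (il * l x) = il * l x := fun x => by
    rw [← mul_assoc, ← L.ill, mul_assoc, L.idem]
  have e2 : ∀ x, p x * (J * p x) = J * p x := fun x => by
    rw [← mul_assoc, ← D.Jp, mul_assoc, D.idem h]
  refine B.sub h ⟨B.cc.toCon, B.sk, fun x => SA.smul contMDiffAt_const ((s1 x).sub (s2 x)),
    fun a x => ?_⟩ ⟨fun x => DFunLike.congr_fun (?_ : tp p J l il x * tp p J l il x = _),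
      fun x v w => ?_⟩ (fun x => ?_) (fun a x => ?_) fun x => ?_
  · unfold tp
    rw [nabE_smul a contMDiffAt_const ((s1 x).sub (s2 x)), nabE_sub a (s1 x) (s2 x),
      nabE_tA (sm_mt (L.sub.sm x)) (D.cc.sp x), nabE_tA (sm_mt (S1.sm x)) (S2.sm x),
      nm_mt (L.sub.sm x), nm_mt (S1.sm x), L.sub.par, S1.par, D.sb.par, S2.par]
    simp
  · simp only [tp, smul_mul_smul_comm, mul_sub, sub_mul, ix_mul, ← mt_mul, mul_assoc, L.idem,
      D.idem h, e1, e2]
    simp only [← mul_assoc, L.sq, D.Jsq, neg_mul, one_mul, map_neg, LinearMap.neg_apply]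
    module
  · have k1 := inner_ix (mt (l x)) (D.sym h x) v w
    have k2 := inner_ix (mt (il * l x)) (T := J * p x) (T' := -(J * p x)) (fun v w => by
      rw [mul_apply_eq_comp, D.Jsk, neg_apply, inner_neg_right, D.sym h, D.Jp]; rfl) v w
    rw [mt_t (L.sym x)] at k1
    rw [mt_t (T := -(il * l x)) fun v w => by
      rw [mul_apply_eq_comp, L.sk, neg_apply, inner_neg_right, L.sym, L.ill]; rfl] at k2
    simp only [map_neg, LinearMap.neg_apply, neg_neg] at k2
    simp only [tp, smul_apply, sub_apply, real_inner_smul_left, real_inner_smul_right,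
      inner_sub_left, inner_sub_right, k1, k2]
  · simp only [tp, mul_smul_comm, mul_sub, ix_mul, one_mul, D.idem h, e2]
  · simp only [tp, mul_smul_comm, smul_mul_assoc, mul_sub, sub_mul, ix_mul, one_mul, mul_one,
      mul_assoc, (D.cc.cl x).pl, (D.cc.cl x).pr]
    rw [← mul_assoc (ρ a x), ← D.Jρ, mul_assoc J, (D.cc.cl x).pr]
  · simp only [tp, mul_smul_comm, smul_mul_assoc, mul_sub, sub_mul, ix_mul, one_mul, mul_one,
      mul_assoc, ← D.Jp]

/-- the density of the twisted module -/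
theorem dn_tp (x : M) : dn F o (tp p J l il) (tA (fun a y => mt (A a y)) W) x = dn F o p W x
    + (trL (p x) * wf o f f x - 2 * wf o f
      (fun a b x => trL (J * p x * curv I F.e F.c W a b x)) x) / (128 * Real.pi ^ 2) := by
  have c1 := fun a b => (frm F).curv_par (L.sub.con.sm · x) (L.sub.sm x)
    (fun a => Eventually.of_forall (L.sub.par a)) a b
  have t0 : trL (il * l x) = 0 := by
    rw [← mt_tr, mt_mul, Matrix.trace_mul_comm]
    exact trace_sym_skew (mt_t (L.sym x)) ((mt_t (T := -il) fun v w => by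
      rw [L.sk, neg_apply, inner_neg_right]).trans (map_neg _ _))
  have e1 : ∀ a b, l x * curv I F.e F.c A a b x = f a b x • (il * l x) := fun a b => by
    rw [← c1, L.cur]
  have e2 : ∀ a b, il * l x * curv I F.e F.c A a b x = -f a b x • l x := fun a b => by
    rw [mul_assoc, e1, mul_smul_comm, ← mul_assoc, L.sq, neg_one_mul, smul_neg, neg_smul]
  simp only [dn, tp, dens_smul, dens_sub, curv_tA (fun a => sm_mt (L.sub.con.sm a x))
    (D.cc.sm · x), cm_mt (L.sub.con.sm · x)]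
  simp only [Ind95.dens, cw_ix (h.vo x).swap, cwm, trL_ix, ← mt_mul, mt_tr]
  simp only [e1, e2, smul_mul_assoc, map_smul, t0, L.rk, smul_eq_mul, mul_zero, wf]
  simp only [c4, mul_zero, zero_mul, sum_const_zero, neg_mul, mul_neg, sum_neg_distrib, ← mul_assoc,
    ← sum_mul, mul_right_comm _ (2 : ℝ)]
  ring

variable [CompactSpace M]

/-- **characteristic elements**, general form -/
theorem char0 (hO : IsClopen O) : ∃ n : ℤ, ∫ x in O, (trL (p x) * wf o f f x - 2 * wf o f
    (fun a b x => trL (J * p x * curv I F.e F.c W a b x)) x) / (128 * Real.pi ^ 2) ∂F.μ = 2 * (n : ℝ) := by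
  have c : ∀ f : M → ℝ, HasCompactSupport f := HasCompactSupport.of_compactSpace
  have T := D.tw L h
  obtain ⟨a, ha⟩ := T.even_on h hO
  obtain ⟨b, hb⟩ := D.even_on h hO
  refine ⟨a - b, ?_⟩
  rw [Int.cast_sub, mul_sub, ← ha, ← hb, ← integral_sub
    (integ (sm_dn h T.cc.sp T.cc.sm) (c _)).integrableOn
    (integ (sm_dn h D.cc.sp D.cc.sm) (c _)).integrableOn]
  simp only [D.dn_tp L h, add_sub_cancel_left]

end Cm

variable (F p W J) in
/-- the curvature form of the determinant line of a module of real rank eight -/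
def kf (a b : ι) (x : M) : ℝ := -trL (J * p x * curv I F.e F.c W a b x) / 4

theorem wf_congr {g g' : ι → ι → M → ℝ} (h : ∀ a b, g a b x = g' a b x) :
    wf o f g x = wf o f g' x := by simp only [wf, h]

theorem wf_smul (r : ℝ) : wf o f (fun a b x => r * k a b x) x = r * wf o f k x := by
  simp only [wf, mul_left_comm _ r, c4_mul]

theorem wf_neg : wf o (fun a b x => -f a b x) k x = -wf o f k x := by
  simp only [wf, neg_mul, c4_neg]

theorem wf_add {g : ι → ι → M → ℝ} :
    wf o f (fun a b x => k a b x + g a b x) x = wf o f k x + wf o f g x := by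
  simp only [wf, mul_add, c4_add]

theorem wf_comm (h : OK F o) : wf o f k x = wf o k f x := by
  rw [wf, ← c4_swap (h.vo x).swap]; simp only [wf, mul_comm]

namespace Cm
variable (D : Cm F p ρ W J) (h : OK F o)
include D

theorem sm_kf (a b : ι) : An.Sm I (kf F p W J a b) := fun x =>
  (sa_trL (SA.mul (SA.mul contMDiffAt_const (D.cc.sp x))
    ((frm F).sCurv (D.cc.sm · x) a b))).neg.div_const _

theorem tr_tw (a b : ι) (x : M) :
    trL (J * Wz78.tw I F.e F.c F.Gam p ρ W a b x) = -4 * kf F p W J a b x := by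
  rw [Wz78.tw, mul_sub, map_sub, trL_comm J (spin _ _), tr_spin trL_comm (D.Jρ · x)
    ((lc_gam F).Rm_s34 (frm F) a b · · x), D.cc.curv_p (frm F), ← mul_assoc, kf]
  ring

theorem kf_eq {a b : ι} (h8 : trL (p x) = 8) {r : ℝ}
    (hk : Wz78.tw I F.e F.c F.Gam p ρ W a b x = (r / 2) • (J * p x)) : kf F p W J a b x = r := by
  have := D.tr_tw a b x
  rw [hk, mul_smul_comm, ← mul_assoc, D.Jsq, neg_one_mul, map_smul, map_neg, h8,
    smul_eq_mul] at this
  linarith

include h

/-- the twisting curvature of a spin^c module -/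
theorem tw8 (h8 : trL (p x) = 8) (a b : ι) :
    Wz78.tw I F.e F.c F.Gam p ρ W a b x = (kf F p W J a b x / 2) • (J * p x) := by
  have v := h.vo x
  have hR := ((lc_gam F).Rm_s34 (frm F) a b · · x)
  have hp := D.cc.curv_p (frm F) a b x
  have hJ : curv I F.e F.c W a b x * J = J * curv I F.e F.c W a b x :=
    (frm F).curv_par (D.cc.sm · x) contMDiffAt_const
      (fun a => Eventually.of_forall ((D.sb.const D.JW).par a)) a b
  have c1 : J * Wz78.tw I F.e F.c F.Gam p ρ W a b x = Wz78.tw I F.e F.c F.Gam p ρ W a b x * J := by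
    rw [Wz78.tw, mul_sub, sub_mul, spin_comm (D.Jρ · x), ← mul_assoc, ← hJ, mul_assoc, D.Jp,
      mul_assoc]
  have c2 : Skew (Wz78.tw I F.e F.c F.Gam p ρ W a b x) := fun v w => by
    have h1 : Skew (spin (fun a => ρ a x) fun k l => Rm I F.e F.c F.Gam a b k l x) := fun v w => by
      simp only [spin, smul_apply, _root_.sum_apply, mul_apply_eq_comp, real_inner_smul_left,
        real_inner_smul_right, sum_inner, inner_sum, D.ρsk _ x _, neg_neg]
      rw [← mul_neg, sum_comm]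
      simp only [← sum_neg_distrib, ← neg_mul, ← hR]
    rw [Wz78.tw, sub_apply, sub_apply, inner_sub_left, inner_sub_right, h1, mul_apply_eq_comp,
      Ind95.skew_curv D.cc.sm D.sk, D.sym h, hp, mul_apply_eq_comp]
    ring
  have e := schur8 (S := J * Wz78.tw I F.e F.c F.Gam p ρ W a b x)
    ⟨⟨v.pr, Wz78.exists_on v.pr v.tr v.a1 v.a2 v.a3 v.po v.nm, D.cc.cl x, D.sym h x, (D.ρsk · x),
      D.Jsk, (D.Jρ · x), D.Jp x, by rw [D.Jsq, neg_one_mul]⟩, h8⟩
    (fun v w => by rw [mul_apply_eq_comp, D.Jsk, c2, neg_neg, c1, mul_apply_eq_comp])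
    (fun m => by rw [mul_assoc, D.cc.tw_comm (lc_gam F) (frm F), ← mul_assoc, D.Jρ, mul_assoc])
    (by rw [mul_assoc, Wz78.tw, sub_mul, (D.cc.cl x).spin_p, mul_assoc, D.idem h])
  have e2 := congrArg (J * ·) e
  simp only [← mul_assoc, D.Jsq, neg_one_mul, mul_smul_comm, D.tr_tw] at e2
  rw [neg_eq_iff_eq_neg.1 e2, ← neg_smul]
  congr 1; ring

theorem dn8 (h8 : trL (p x) = 8) : dn F o p W x
    = wf o (kf F p W J) (kf F p W J) x / (64 * Real.pi ^ 2) - sgd F o x / 4 := by
  rw [dn_ab D.cc (fun a => ((D.cc.cl x).pl a).trans ((D.cc.cl x).pr a).symm) (D.idem h x) D.Jsq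
    (k := kf F p W J) fun a b => by
      rw [D.tw8 h h8, mul_smul_comm, ← mul_assoc, ← D.Jp, mul_assoc, D.idem h], h8]
  ring

variable [CompactSpace M] (hO : IsClopen O) (h8 : ∀ x ∈ O, trL (p x) = 8)
include hO h8

/-- **`K² ≡ σ mod 8`** -/
theorem num8 : ∃ n : ℤ, ∫ x in O, (wf o (kf F p W J) (kf F p W J) x / (64 * Real.pi ^ 2)
    - sgd F o x / 4) ∂F.μ = 2 * (n : ℝ) := by
  rw [← setIntegral_congr_fun hO.2.measurableSet fun x hx => D.dn8 h (h8 x hx)]
  exact D.even_on h hO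

variable (L : Li F l il A f)
include L

/-- **`K` is characteristic** -/
theorem char : ∃ n : ℤ,
    ∫ x in O, (wf o f f x + wf o f (kf F p W J) x) / (16 * Real.pi ^ 2) ∂F.μ = 2 * (n : ℝ) := by
  refine (D.char0 L h hO).imp fun n hn => (setIntegral_congr_fun hO.2.measurableSet
    fun x hx => ?_).trans hn
  have : wf o f (fun a b x => trL (J * p x * curv I F.e F.c W a b x)) x = _ :=
    (wf_congr (g' := fun a b x => -4 * kf F p W J a b x) fun a b => by rw [kf]; ring).trans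
      (wf_smul _)
  simp only [h8 x hx, this]
  ring

/-- squares of lines are integers -/
theorem sq_int : ∃ n : ℤ, ∫ x in O, wf o f f x / (16 * Real.pi ^ 2) ∂F.μ = (n : ℝ) := by
  obtain ⟨a, ha⟩ := D.char h hO h8 L
  obtain ⟨b, hb⟩ := D.char h hO h8 L.neg
  have c : ∀ f : M → ℝ, HasCompactSupport f := HasCompactSupport.of_compactSpace
  have s := fun {l il A f} (L : Li F (Y := Y) l il A f) => (integ (F := F) (fun x =>
    ((sm_wf h L.sm_f L.sm_f x).add (sm_wf h L.sm_f D.sm_kf x)).div_const (16 * Real.pi ^ 2))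
      (c _)).integrableOn (s := O)
  refine ⟨a + b, mul_left_cancel₀ two_ne_zero ?_⟩
  rw [Int.cast_add, mul_add, ← ha, ← hb, ← integral_const_mul]
  refine (congrArg _ (_root_.funext fun x => ?_)).trans (integral_add (s L) (s L.neg))
  simp only [Pi.add_apply, wf_neg, wf_comm h (f := f) (k := fun a b x => -f a b x)]
  ring

end Cm

variable {lam : Type} [Fintype lam] {m m' : Md M ι lam} {B : Base M ι lam} {G : Geo I M ι lam}
  {V : m.Cn} {V' : m'.Cn} (hB : B.OK I) (hG : G.OK B) (H : m.OK I B) (C : m.IsConn B G V)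

include hB hG in
/-- the line of a background -/
theorem li_of : Li G.F B.l B.il G.a (fl B G) :=
  ⟨⟨hG.P ▸ hG.con, hG.sk, hB.sl, hG.par⟩, hB.lsym, hB.lidem, hB.lrk, hB.ilsq, hB.ilsk, hB.ill,
    hG.il, curvL_eq hB hG⟩

include hG H C

theorem cm_md : Cm G.F m.p m.ρ V m.J :=
  ⟨hG.P ▸ C.cc, C.sk, H.ρsk, H.Jsq, H.Jsk, H.Jp, H.Jρ, C.J⟩

include hB

section
variable (h4 : finrank ℝ E = 4) {ξ : M → m.A} (R : Red G.F m V ξ)
include h4 R

theorem cm_hf : Cm G.F (fun x => hf m x (ξ x)) (fun a x => m.ρ a x * hf m x (ξ x)) V m.J :=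
  (cm_md hG H C).sub (OK.of_base h4 hB hG) (sub_hf hG H C R)
    ⟨fun x => DFunLike.congr_fun (Abel74.hf_hf H (R.mem x) (R.sq x)),
      fun x => Abel74.hf_sym H (R.mem x)⟩ (fun x => Abel74.p_hf H (R.mem x))
    (fun a x => (Abel74.rho_hf H (R.mem x) a).symm) fun x => Abel74.J_hf H (R.mem x)

omit hG C h4 in
theorem trL_hf (x : M) : trL (hf m x (ξ x)) = 8 := (trE_eq _).symm.trans (R.tr_hf H hB x)

theorem kf_hf : kf G.F (fun x => hf m x (ξ x)) V m.J
    = fun a b x => fl B G a b x + 2 * fF G.F m V ξ a b x := by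
  funext a b x
  exact (cm_hf hB hG H C h4 R).kf_eq (trL_hf hB H R x) (R.tw_half hB hG H C a b x)

end

variable [CompactSpace M] (h4 : finrank ℝ E = 4) (hO : IsClopen O)
include h4 hO

/-- **`κ ∈ (Λ² - σ) / 4 + ℤ`** -/
theorem kap_even : ∃ n : ℤ,
    ∫ x in O, (lad B G x / 2 - 2 * m.kd B G.F V x - sgd G.F B.o x / 2) ∂G.F.μ = 2 * (n : ℝ) := by
  simpa only [dn_p hB hG H C] using (cm_md hG H C).even_on (OK.of_base h4 hB hG) hO

theorem kap_eq : ∃ n : ℤ, ∫ x in O, m.kd B G.F V x ∂G.F.μ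
    = (∫ x in O, lad B G x ∂G.F.μ - ∫ x in O, sgd G.F B.o x ∂G.F.μ) / 4 + n := by
  obtain ⟨n, hn⟩ := kap_even hB hG H C h4 hO
  have s : ∀ {f : M → ℝ}, An.Sm I f → IntegrableOn f O G.F.μ := fun hf =>
    (integ hf (HasCompactSupport.of_compactSpace _)).integrableOn
  have s1 := s (sm_lad hB hG h4)
  have s2 := s (sm_kd hB hG H C h4)
  have s3 := s (sm_sgd (OK.of_base h4 hB hG))
  rw [integral_sub (f := fun x => lad B G x / 2 - 2 * m.kd B G.F V x)
    ((s1.div_const 2).sub (s2.const_mul 2)) (s3.div_const 2),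
    integral_sub (s1.div_const 2) (s2.const_mul 2), integral_div, integral_div,
    integral_const_mul] at hn
  exact ⟨-n, by push_cast; linarith⟩

theorem kap_sub_on (H' : m'.OK I B) (C' : m'.IsConn B G V') : ∃ n : ℤ,
    ∫ x in O, m.kd B G.F V x ∂G.F.μ - ∫ x in O, m'.kd B G.F V' x ∂G.F.μ = (n : ℝ) := by
  obtain ⟨a, ha⟩ := kap_eq hB hG H C h4 hO
  obtain ⟨b, hb⟩ := kap_eq hB hG H' C' h4 hO
  exact ⟨a - b, by push_cast; linarith⟩

omit hO in
/-- the levels of two modules differ by an integer -/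
theorem kap_sub (H' : m'.OK I B) (C' : m'.IsConn B G V') :
    ∃ n : ℤ, m.kap B G.F V - m'.kap B G.F V' = n := by
  simpa only [Measure.restrict_univ, Md.kap] using kap_sub_on hB hG H C h4 isClopen_univ H' C'

variable {ξ : M → m.A} (R : Red G.F m V ξ)
include R

theorem num_hf : ∃ n : ℤ, ∫ x in O, (wf B.o (fun a b x => fl B G a b x + 2 * fF G.F m V ξ a b x)
    (fun a b x => fl B G a b x + 2 * fF G.F m V ξ a b x) x / (64 * Real.pi ^ 2)
      - sgd G.F B.o x / 4) ∂G.F.μ = 2 * (n : ℝ) :=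
  kf_hf hB hG H C h4 R ▸ (cm_hf hB hG H C h4 R).num8 (OK.of_base h4 hB hG) hO
    fun x _ => trL_hf hB H R x

variable (L : Li G.F l il A f)
include L

theorem char_hf : ∃ n : ℤ, ∫ x in O, (wf B.o f f x + wf B.o f
    (fun a b x => fl B G a b x + 2 * fF G.F m V ξ a b x) x) / (16 * Real.pi ^ 2) ∂G.F.μ = 2 * (n : ℝ) :=
  kf_hf hB hG H C h4 R ▸ (cm_hf hB hG H C h4 R).char (OK.of_base h4 hB hG) hO
    (fun x _ => trL_hf hB H R x) L

/-- **labels are integral** -/
theorem lab_int : ∃ n : ℤ, ∫ x in O, wf B.o f (fF G.F m V ξ) x / (8 * Real.pi ^ 2) ∂G.F.μ = (n : ℝ) := by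
  obtain ⟨a, ha⟩ := char_hf hB hG H C h4 hO R L
  obtain ⟨b, hb⟩ := char_hf hB hG H C h4 hO R.neg L
  have k := OK.of_base h4 hB hG
  have s := fun {ξ} (R : Red G.F m V ξ) => (integ (F := G.F) (fun x =>
    ((sm_wf k L.sm_f L.sm_f x).add (sm_wf k L.sm_f (g := fun a b x => fl B G a b x
      + 2 * fF G.F m V ξ a b x) (fun a b x => (sm_fL hB hG (a, b) x).add (SA.mul contMDiffAt_const
        (R.sm_fF hB hG H C a b x))) x)).div_const (16 * Real.pi ^ 2))
      (HasCompactSupport.of_compactSpace _)).integrableOn (s := O)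
  refine ⟨a - b, mul_left_cancel₀ two_ne_zero ?_⟩
  rw [Int.cast_sub, mul_sub, ← ha, ← hb, ← integral_const_mul]
  refine (congrArg _ (_root_.funext fun x => ?_)).trans (integral_sub (s R) (s R.neg))
  simp only [Pi.add_apply, Abel74.fF_neg, mul_neg, ← neg_mul, wf_add, wf_smul]
  ring

end Crest.Agent.X212.Idg99
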