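import Crest.Agent.X212.Idg99.Chr
import Crest.Agent.X212.Num57.Hod
import Crest.Agent.X212.Abel74.Form
import Crest.Agent.X212.Line51.An

/-! The signature theorem, Gauss-Bonnet, and indices as topological numbers. -/

set_option autoImplicit false
set_option linter.unusedSectionVars false
open scoped Manifold ContDiff Topology InnerProductSpace
open Finset Filter MeasureTheory Module

noncomputable section
namespace Crest.Agent.X212.Idg99
open An Wz78 Sob92 Ind95 Map77
open Num57 (OK hop bb bp bm k2)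
open Abel74 (Red hf fF)
open Line51 (Ln iL)
open Crest.Agent.R208.F (Ext)

variable {E : Type} [NormedAddCommGroup E] [NormedSpace ℝ E] [FiniteDimensional ℝ E]
  [MeasurableSpace E] [BorelSpace E]
  {HM : Type} [TopologicalSpace HM] {I : ModelWithCorners ℝ E HM} [I.Boundaryless]
  {M : Type} [TopologicalSpace M] [ChartedSpace HM M] [IsManifold I ∞ M]
  [MeasurableSpace M] [BorelSpace M] [SecondCountableTopology M] [T2Space M] {ι : Type} [Fintype ι]
  {Y : Type} [NormedAddCommGroup Y] [InnerProductSpace ℝ Y] [FiniteDimensional ℝ Y]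
  {F : Fr I M ι} {o : ι → ι → ι → ι → M → ℝ} {l : M → Y →L[ℝ] Y} {il : Y →L[ℝ] Y}
  {A : ι → M → Y →L[ℝ] Y} {f k : ι → ι → M → ℝ} {κ : Type} [Fintype κ] [DecidableEq κ]
  {L : Ln E M κ}

theorem sgd_neg (x : M) : sgd F (fun a b c d x => -o a b c d x) x = -sgd F o x := by
  simp only [sgd, cwT, neg_mul, sum_neg_distrib, neg_div]

theorem eud_neg (x : M) : eud F (fun a b c d x => -o a b c d x) x = eud F o x := by
  have : (stM fun a b c d => -o a b c d x) = -stM fun a b c d => o a b c d x := by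
    ext s t; simp [stM, neg_div]
  simp only [eud, cwS, cwm, this, Matrix.neg_mul, Matrix.trace_neg, c4, neg_mul_neg]

theorem Li.uniq (h : Li F l il A f) (h' : Li F l il A k) : f = k := by
  funext a b x
  have := congrArg (fun T => trL (il * T)) ((h.cur a b x).symm.trans (h'.cur a b x))
  simp only [mul_smul_comm, ← mul_assoc, h.sq, neg_one_mul, map_smul, map_neg, h.rk,
    smul_eq_mul] at this
  linarith

theorem lb_ok (h : OK F o) (hL : L.On I Set.univ) : (L.base F.P o).OK I :=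
  hL.base_ok F.P_sm h.sm (fun x => (h.vo x).pr) (fun x => (h.vo x).tr)
    (fun a b c d x => (h.vo x).a1 a b c d) (fun a b c d x => (h.vo x).a2 a b c d)
    (fun a b c d x => (h.vo x).a3 a b c d) (fun a b c d x => (h.vo x).po a b c d)
    fun x => (h.vo x).nm

/-- the lines `Ln` -/
theorem li_ln (h : OK F o) (hL : L.On I Set.univ) :
    Li F L.l (iL κ) (L.A I F.e) (k2 F (L.F I)) :=
  { li_of (lb_ok h hL) (hL.geo_ok h.isv o) with
    cur := fun a b _ => hL.curv_geo isOpen_univ F trivial a b }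

theorem fl_ln {P : ι → ι → M → ℝ} (h : OK F o) (hL : L.On I Set.univ) (hP : F.P = P) :
    fl (L.base P o) (L.geo F) = k2 F (L.F I) := by
  subst hP
  exact (li_of (lb_ok h hL) (hL.geo_ok h.isv o)).uniq (li_ln h hL)

variable [CompactSpace M]

theorem intg {g : M → ℝ} (h : An.Sm I g) : Integrable g F.μ :=
  integ h (HasCompactSupport.of_compactSpace _)

theorem int_es (h : OK F o) : ∫ x, (eud F o x + sgd F o x) / 2 ∂F.μ
    = (bb I M 0 : ℝ) - bb I M 1 + bp h.ori := by
  have := ind_hop h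
  rw [ind, h.finrank_ker, h.finrank_ker_adj] at this
  push_cast at this
  linarith

theorem int_both (h : OK F o) : ∫ x, sgd F o x ∂F.μ = (bp h.ori : ℝ) - bm h.ori ∧
    ∫ x, eud F o x ∂F.μ = 2 * (bb I M 0 : ℝ) - 2 * bb I M 1 + bb I M 2 := by
  have h1 := int_es h
  have h2 := int_es h.neg
  simp only [sgd_neg, eud_neg, h.neg.bpm.1.trans h.bpm.2.symm, ← sub_eq_add_neg] at h2
  rw [integral_div, integral_add (intg (sm_eud h)) (intg (sm_sgd h))] at h1
  rw [integral_div, integral_sub (intg (sm_eud h)) (intg (sm_sgd h))] at h2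
  rw [← h.bp_add_bm]
  push_cast
  constructor <;> linarith

/-- **the signature theorem** -/
theorem int_sgd (h : OK F o) : ∫ x, sgd F o x ∂F.μ = (bp h.ori : ℝ) - bm h.ori := (int_both h).1

/-- **Gauss-Bonnet** -/
theorem int_eud (h : OK F o) :
    ∫ x, eud F o x ∂F.μ = 2 * (bb I M 0 : ℝ) - 2 * bb I M 1 + bb I M 2 := (int_both h).2

theorem Q_wf (h : OK F o) {a b : M → Ext E} (ha : Dr59.Cl I 2 Set.univ a)
    (hb : Dr59.Cl I 2 Set.univ b) :
    Num57.Q h.ori ha.cls hb.cls = 1 / 4 * ∫ x, wf o (k2 F a) (k2 F b) x ∂F.μ :=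
  Abel74.integ_mul h ha.dg b

variable {lam : Type} [Fintype lam] {m : Md M ι lam} {B : Base M ι lam} {G : Geo I M ι lam}
  {W : m.Cn} {u : M → Cf ι (Fin m.N)} (hB : B.OK I) (hG : G.OK B) (H : m.OK I B)
  (C : m.IsConn B G W) (h4 : finrank ℝ E = 4)

variable (B m) in
/-- the bundles of a module -/
abbrev bdU : Bd M ι (Fin m.N) := ⟨B.P, B.o, m.ρ, m.pg, m.p1 B, m.p2 B, m.pp B, m.pm B⟩

variable (B m) in
/-- the bundles of the abelian theory -/
abbrev bdT (ξ : M → m.A) : Bd M ι (Fin m.N) :=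
  ⟨B.P, B.o, m.ρ, fun x => ln (ξ x), fun x => idx (fun a b => B.P a b x) (ln (ξ x)),
    fun x => idx (B.sd x) (ln (ξ x)), fun x => hf m x (ξ x) * m.pp B x,
    fun x => hf m x (ξ x) * m.pm B x⟩

include hB H

theorem bdU_eq : bdU m B = sbd m B (Set.univ.indicator m.pg) (Set.univ.indicator m.p) := by
  simp only [sbd, Set.indicator_univ, pp_p H, pm_p H]
  rfl

theorem ok_bdU : (bdU m B).OK := bdU_eq hB H ▸ ok_on hB H ⟨pg_pg, inner_pg⟩
  ⟨fun x => DFunLike.congr_fun (H.pidem x), H.psym⟩ (fun _ => rfl)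
  (fun a x => ((H.cl x).pl a).trans ((H.cl x).pr a).symm) _ _

theorem bdT_eq {ξ : M → m.A} (R : Red F m W ξ) : bdT m B ξ = sbd m B
    (Set.univ.indicator fun x => ln (ξ x)) (Set.univ.indicator fun x => hf m x (ξ x)) := by
  have h1 := fun x => (Abel74.hf_comm H (R.mem x) rfl (H.Jp x).symm
    (by rw [g_p (R.mem x), g_p' H (R.mem x)])).symm
  have h2 := fun x a => (Abel74.rho_hf H (R.mem x) a).symm
  simp only [sbd, Set.indicator_univ, ← pp_comm (B := B) (h1 _) (h2 _),
    ← pm_comm (B := B) (h1 _) (h2 _)]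

theorem ok_bdT {ξ : M → m.A} (R : Red F m W ξ) : (bdT m B ξ).OK :=
  bdT_eq hB H R ▸ ok_hf hB H R (prj_ln H R) _ _

include hG C

theorem bdp_bdU : BdP (bdU m B) G.F (m.adW W) W := bdU_eq hB H ▸ bdp_sbd hB hG H C
  ((sub_pg hB hG H C).ind isClopen_univ) ((sub_p hG H C).ind isClopen_univ)

theorem bdp_bdT {ξ : M → m.A} (R : Red G.F m W ξ) : BdP (bdT m B ξ) G.F (m.adW W) W :=
  bdT_eq hB H R ▸ bdp_sbd hB hG H C ((sub_ln hB hG H C R).ind isClopen_univ)
    ((sub_hf hG H C R).ind isClopen_univ)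

include h4

theorem fr_bdU (hu : An.Sm I u) (k : ℕ) :
    Fred93.Fr (((bdU m B).full G.F u).H G.F k) (ind G.F ((bdU m B).full G.F u)) :=
  fr_full (ok_bdU hB H) (OK.of_base h4 hB hG) (bdp_bdU hB hG H C) hu k

theorem fr_bdT {ξ : M → m.A} (R : Red G.F m W ξ) (hu : An.Sm I u) (k : ℕ) :
    Fred93.Fr (((bdT m B ξ).full G.F u).H G.F k) (ind G.F ((bdT m B ξ).full G.F u)) :=
  fr_full (ok_bdT hB H R) (OK.of_base h4 hB hG) (bdp_bdT hB hG H C R) hu k

/-- **the dimension formula** -/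
theorem ind_bdU (hu : An.Sm I u) : (ind G.F ((bdU m B).full G.F u) : ℝ) = 6 * m.kap B G.F W
    + (∫ x, lad B G x ∂G.F.μ - ((bp (OK.of_base h4 hB hG).ori : ℝ) - bm (OK.of_base h4 hB hG).ori)) / 2
    - 3 * ((bb I M 0 : ℝ) - bb I M 1 + bp (OK.of_base h4 hB hG).ori) := by
  have k := OK.of_base h4 hB hG
  have s1 := intg (F := G.F) (sm_lad hB hG h4)
  have s2 := intg (F := G.F) (sm_kd hB hG H C h4)
  have s3 := intg (F := G.F) (sm_sgd k)
  have s4 : Integrable (fun x => (eud G.F B.o x + sgd G.F B.o x) / 2) G.F.μ :=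
    ((intg (sm_eud k)).add s3).div_const 2
  rw [ind_md hB hG H C h4 isClopen_univ isClopen_univ (ok_bdU hB H)
    (by simp only [Set.indicator_univ]; rfl) hu, Measure.restrict_univ, ← int_es k, ← int_sgd k]
  simp only [mul_div_assoc]
  rw [integral_sub (s2.const_mul 8) (s4.const_mul 3),
    integral_sub (f := fun x => lad B G x / 2 - 2 * m.kd B G.F W x)
      ((s1.div_const 2).sub (s2.const_mul 2)) (s3.div_const 2),
    integral_sub (s1.div_const 2) (s2.const_mul 2), integral_div _ (lad B G),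
    integral_div _ (sgd _ _), integral_const_mul, integral_const_mul, integral_const_mul, Md.kap]
  ring

variable {ξ : M → m.A} (R : Red G.F m W ξ)
include R

/-- the dimension formula of the abelian theory -/
theorem ind_bdT (hu : An.Sm I u) : (ind G.F ((bdT m B ξ).full G.F u) : ℝ)
    = ∫ x, (wf B.o (fun a b x => fl B G a b x + 2 * fF G.F m W ξ a b x)
        (fun a b x => fl B G a b x + 2 * fF G.F m W ξ a b x) x / (64 * Real.pi ^ 2)
        - sgd G.F B.o x / 4) ∂G.F.μ
      - ((bb I M 0 : ℝ) - bb I M 1 + bp (OK.of_base h4 hB hG).ori) := by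
  rw [bdT_eq hB H R, ind_tan hB hG H C h4 R isClopen_univ isClopen_univ hu, Measure.restrict_univ,
    int_es (OK.of_base h4 hB hG)]
  ring

/-- the two indices have the same parity -/
theorem ind_par {v : M → Cf ι (Fin m.N)} (hu : An.Sm I u) (hv : An.Sm I v) :
    ∃ j : ℤ, ind G.F ((bdU m B).full G.F u) = ind G.F ((bdT m B ξ).full G.F v) + 2 * j := by
  obtain ⟨a, ha⟩ := num_hf hB hG H C h4 isClopen_univ R
  obtain ⟨b, hb⟩ := kap_eq hB hG H C h4 isClopen_univ
  obtain ⟨c, hc⟩ := (cm_hf hB hG H C h4 R).sq_int (OK.of_base h4 hB hG) isClopen_univ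
    (fun x _ => trL_hf hB H R x) (li_of hB hG)
  rw [Measure.restrict_univ] at ha hb hc
  have h1 := ind_bdU hB hG H C h4 hu
  have h2 := ind_bdT hB hG H C h4 R hv
  rw [ha] at h2
  rw [int_sgd (OK.of_base h4 hB hG), show ∫ x, lad B G x ∂G.F.μ = c from hc] at hb
  rw [Md.kap, hb, show ∫ x, lad B G x ∂G.F.μ = c from hc] at h1
  refine ⟨c - (bp (OK.of_base h4 hB hG).ori - bm (OK.of_base h4 hB hG).ori) + 3 * b - a
    - (bb I M 0 - bb I M 1 + bp (OK.of_base h4 hB hG).ori), Int.cast_injective (α := ℝ) ?_⟩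
  push_cast
  linarith

end Crest.Agent.X212.Idg99
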