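import Crest.Agent.X212.Idg99.Sig
import Crest.Agent.X212.Abel74.Lab
import Crest.Agent.X212.Top68.Defs

/-! The numbers of `Eq82`: the index is `6 κ + d0`, parity, the leaf `IntL`. -/

set_option autoImplicit false
set_option linter.unusedSectionVars false
open scoped Manifold ContDiff Topology InnerProductSpace
open Finset Filter MeasureTheory Module

noncomputable section
namespace Crest.Agent.X212.Idg99
open An Wz78 Map77
open Eq82 (Bk lcl lab Lat IntL cl2)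
open Num57 (OK k2)
open Abel74 (Red fF B_ok G_ok okF Q_eq cl2_eq lab_eq)
open Line51 (Ln)
open Crest.Agent.R208.F (Ext)

variable {E : Type} [NormedAddCommGroup E] [NormedSpace ℝ E] [FiniteDimensional ℝ E]
  [MeasurableSpace E] [BorelSpace E]
  {HM : Type} [TopologicalSpace HM] {I : ModelWithCorners ℝ E HM} [I.Boundaryless]
  {M : Type} [TopologicalSpace M] [ChartedSpace HM M] [IsManifold I ∞ M]
  [MeasurableSpace M] [BorelSpace M] [SecondCountableTopology M] [T2Space M] [CompactSpace M]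
  {ι : Type} [Fintype ι] [DecidableEq ι] {κ κ' : Type} [Fintype κ] [DecidableEq κ] [Fintype κ']
  [DecidableEq κ'] {r : ℕ} {X : Bk I M ι} {L : Ln E M κ} {L' : Ln E M κ'} {F : Fr I M ι}

theorem sm_base {W : ι → M → En κ} {Φ : M → Eu κ} (hW : ∀ a x, SA I (W a) x) (hΦ : An.Sm I Φ) :
    An.Sm I (base W Φ) := fun x => by
  have h := SA.toLp (f := fun a y => hsL (W a y)) fun a => (hW a x).clm hsL
  have h1 := h.clm (i1 (Fm ι (HS κ)) (Eu κ))
  have h2 := SA.clm (i2 (Fm ι (HS κ)) (Eu κ)) (hΦ x)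
  exact h1.add h2

theorem lcl_eq (hL : L.On I Set.univ) :
    lcl I L = (2 * Real.pi)⁻¹ • (hL.cl_F isOpen_univ).cls := by rw [lcl, cl2_eq]

variable (hL : L.On I Set.univ) (hF : X.Pos F)
include hL hF

theorem Q_lcl (hL' : L'.On I Set.univ) : X.Q (lcl I L) (lcl I L')
    = ∫ x, wf X.o (k2 F (L.F I)) (k2 F (L'.F I)) x / (16 * Real.pi ^ 2) ∂F.μ := by
  simp only [lcl_eq hL, lcl_eq hL', Q_eq hF, map_smul, LinearMap.smul_apply, Q_wf (okF hF),
    smul_eq_mul, integral_div]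
  field_simp
  ring

theorem int_lad : ∫ x, lad (X.B L) (L.geo F) x ∂F.μ = X.Q (lcl I L) (lcl I L) := by
  simp only [Q_lcl hL hF hL, lad, fl_ln (okF hF) hL hF.P]
  rfl

variable {m : Md M ι (κ ⊕ κ)} {W : m.Cn} {u : M → Cf ι (Fin m.N)}

/-- **the index is `6 κ + d0`** -/
theorem ind_d0 (H : m.OK I (X.B L)) (C : m.IsConn (X.B L) (L.geo F) W) (hu : An.Sm I u) :
    (ind F ((bdU m (X.B L)).full F u) : ℝ) = 6 * m.kap (X.B L) F W + X.d0 L := by
  refine (ind_bdU (B_ok X hL) (G_ok hL hF) H C X.ok.h4 hu).trans ?_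
  rw [Bk.d0, ← int_lad hL hF, ← Num57.bp_ori (okF hF).ori _ hF.ori,
    ← Num57.bm_ori (okF hF).ori _ hF.ori, add_sub_assoc]
  rfl

theorem ix_md (H : m.OK I (X.B L)) (C : m.IsConn (X.B L) (L.geo F) W) (hu : An.Sm I u) {i : ℤ}
    (hi : (i : ℝ) = 6 * m.kap (X.B L) F W + X.d0 L) : Top68.Ix (Top68.bdm (X.B L) m) F u i := by
  rw [Int.cast_injective (hi.trans (ind_d0 hL hF H C hu).symm)]
  exact fun k => fr_bdU (G := L.geo F) (B_ok X hL) (G_ok hL hF) H C X.ok.h4 hu k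

variable {c : Cfg M ι (κ ⊕ κ) r} {ξ : M → c.m.A}

theorem ix_cfg (A : c.Adm (X.B L) (L.geo F)) {i : ℤ}
    (hi : (i : ℝ) = 6 * c.kap (X.B L) (L.geo F) + X.d0 L) :
    Top68.Ix (Top68.bdm (X.B L) c.m) F (base c.W c.Φ) i :=
  ix_md hL hF A.ok A.conn (sm_base A.conn.cc.sm A.sm) hi

theorem d0_int (A : c.Adm (X.B L) (L.geo F)) :
    ∃ i : ℤ, 6 * c.kap (X.B L) (L.geo F) + X.d0 L = i :=
  ⟨_, (ind_d0 hL hF A.ok A.conn (sm_base A.conn.cc.sm A.sm)).symm⟩

/-- **parity** -/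
theorem even_of_tan (A : c.Adm (X.B L) (L.geo F)) (R : Red F c.m c.W ξ) {i : ℤ}
    (h : Top68.Ix (Top68.bdt (X.B L) c.m ξ) F (base c.W c.Φ) i) :
    ∃ j : ℤ, 6 * c.kap (X.B L) (L.geo F) + X.d0 L = i + 2 * j := by
  have hu := sm_base A.conn.cc.sm A.sm
  obtain ⟨j, hj⟩ := ind_par (B_ok X hL) (G_ok hL hF) A.ok A.conn X.ok.h4 R hu hu
  rw [(fr_bdT (B_ok X hL) (G_ok hL hF) A.ok A.conn X.ok.h4 R hu 0).unique (h 0)] at hj
  exact ⟨j, (ind_d0 hL hF A.ok A.conn hu).symm.trans (by exact_mod_cast hj)⟩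

theorem Q_lab_lcl (C : c.m.IsConn (X.B L) (L.geo F) c.W) (R : Red F c.m c.W ξ)
    (hL' : L'.On I Set.univ) : X.Q (lab F c ξ) (lcl I L')
    = ∫ x, wf X.o (k2 F (L'.F I)) (fF F c.m c.W ξ) x / (8 * Real.pi ^ 2) ∂F.μ := by
  have e : k2 F (Abel74.fm F c.m c.W ξ) = fF F c.m c.W ξ := by
    funext a b x; exact Abel74.k2_fm (G_ok hL hF) C a b x
  rw [Q_eq hF, Num57.Q_symm, lab_eq hL hF C R, lcl_eq hL']
  simp only [map_smul, LinearMap.smul_apply, smul_eq_mul, integral_div]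
  refine (congrArg _ (congrArg _ (Q_wf (okF hF) _ _))).trans ?_
  rw [show k2 F (Abel74.fm (L.geo F).F c.m c.W ξ) = _ from e]
  field_simp
  ring

omit hF in
variable (X) in
/-- **the leaf `IntL`** -/
theorem intL : IntL X L := by
  intro F hF c ξ A S b hb
  induction hb using AddSubgroup.closure_induction with
  | mem b hb =>
    obtain ⟨κ', _, _, L', hL', rfl⟩ := hb
    obtain ⟨n, hn⟩ := lab_int (B_ok X hL) (G_ok hL hF) A.ok A.conn X.ok.h4 isClopen_univ S.toRed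
      (li_ln (okF hF) hL')
    rw [Measure.restrict_univ] at hn
    exact ⟨n, (Q_lab_lcl hL hF A.conn S.toRed hL').trans hn⟩
  | zero => exact ⟨0, by simp⟩
  | add a b _ _ ha hb =>
    obtain ⟨s, hs⟩ := ha
    obtain ⟨t, ht⟩ := hb
    exact ⟨s + t, by rw [map_add, hs, ht, Int.cast_add]⟩
  | neg a _ ha =>
    obtain ⟨s, hs⟩ := ha
    exact ⟨-s, by rw [map_neg, hs, Int.cast_neg]⟩

end Crest.Agent.X212.Idg99
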