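import Crest.Agent.X212.Idg99.Pair
import Crest.Agent.X212.Idg99.Lc
import Crest.Agent.X212.Map77.Mono

/-! The index of `d* + d⁺` with coefficients and of the linearised monopole operator. -/

set_option autoImplicit false
set_option linter.unusedSectionVars false
open scoped Manifold ContDiff Topology InnerProductSpace Kronecker Matrix
open Finset Filter MeasureTheory Module

noncomputable section
namespace Crest.Agent.X212.Idg99
open An Wz78 Sob92 Ind95 Map77
open Ell97 (inner_tr tr_inner kerS)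
open Num57 (OK hop)

section pt
variable {ι : Type} [Fintype ι] {P : ι → ι → ℝ} {o : ι → ι → ι → ι → ℝ}
  {X V W : Type} [NormedAddCommGroup X] [InnerProductSpace ℝ X]
  [NormedAddCommGroup V] [InnerProductSpace ℝ V] [FiniteDimensional ℝ V]
  [NormedAddCommGroup W] [InnerProductSpace ℝ W] [FiniteDimensional ℝ W]

theorem om_gen (ho : Ori P o) {p : V →L[ℝ] V} {ρ : ι → V →L[ℝ] V} (C : Cl P p ρ) {u : V}
    (h : ∀ a, ∑ b, ∑ c, ∑ d, o a b c d • ρ b (ρ c (ρ d u)) = (6 : ℝ) • ρ a u) (k : ι) :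
    omC o ρ (ρ k u) = ρ k u := by
  have h1 : ∀ a, ρ a (ρ a u) = -P a a • p u := fun a => by
    have := DFunLike.congr_fun (C.rel a a) u
    simp only [add_apply, mul_apply_eq_comp, smul_apply] at this
    linear_combination (norm := module) (1 / 2 : ℝ) • this
  have h2 : omC o ρ u = -p u := by
    have h4 : ∀ a, ∑ b, ∑ c, ∑ d, o a b c d • ρ a (ρ b (ρ c (ρ d u))) = (-6 * P a a) • p u :=
      fun a => by
        simp only [← map_smul (ρ a), ← map_sum (ρ a), h]
        simp only [map_smul, h1, smul_smul, neg_mul_comm]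
    simp only [omC, smul_apply, _root_.sum_apply, mul_apply_eq_comp, h4, ← sum_smul, ← mul_sum,
      ho.rk]
    module
  have h3 := DFunLike.congr_fun (ho.om_rho C k) u
  rw [neg_apply, mul_apply_eq_comp, mul_apply_eq_comp, h2, map_neg, neg_neg] at h3
  exact h3.trans (DFunLike.congr_fun (C.pr k) u)

theorem cubic (h : Vol P o) (a m : ι) : ∑ b, ∑ c, ∑ d, o a b c d *
    (P m b * P c d + (P b c * P m d - P m c * P b d + o b m c d)) = -6 * P m a := by
  have z3 : ∀ a b c, o a b c c = 0 := fun a b c => by have := h.a3 a b c c; linarith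
  have z2 : ∀ a b c, o a b b c = 0 := fun a b c => by have := h.a2 a b b c; linarith
  have e1 : ∀ b c, ∑ d, o a b c d * (P m b * P c d) = 0 := fun b c => by
    rw [← mul_zero (P m b), ← z3 a b c, ← h.po4, mul_sum]
    exact sum_congr rfl fun d _ => by ring
  have e2 : ∀ b, ∑ c, ∑ d, o a b c d * (P b c * P m d) = 0 := fun b => by
    rw [sum_comm]
    refine sum_eq_zero fun d _ => ?_
    rw [← mul_zero (P m d), ← z2 a b d, ← h.po3, mul_sum]
    exact sum_congr rfl fun d _ => by ring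
  have e3 : ∀ b c, ∑ d, o a b c d * (P m c * P b d) = 0 := fun b c => by
    rw [← mul_zero (P m c), ← neg_zero, ← z2 a b c, ← h.a3, ← h.po4, mul_sum]
    exact sum_congr rfl fun d _ => by ring
  simp only [mul_add, mul_sub, sum_add_distrib, sum_sub_distrib, e1, e2, e3, h.i2, ← mul_sum,
    h.pr.idem, h.tr, sum_const_zero]
  rw [h.pr.symm m]; ring

/-- the volume element of a symbol -/
def omP (o : ι → ι → ι → ι → ℝ) (σ : ι → V →L[ℝ] W) : CL (P2 V W) (P2 V W) :=
  omC o fun a => clf (σ a)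

theorem omP_apply (σ : ι → V →L[ℝ] W) (u : P2 V W) : omP o σ u = (1 / 24 : ℝ) • ∑ a, ∑ b, ∑ c, ∑ d,
    o a b c d • clf (σ a) (clf (σ b) (clf (σ c) (clf (σ d) u))) := by
  simp only [omP, omC, smul_apply, _root_.sum_apply, mul_apply_eq_comp]

/-- the chirality of one-forms -/
theorem om_one (h : Vol P o) {p : P2 V W →L[ℝ] P2 V W} {σ : ι → V →L[ℝ] W}
    (C : Cl P p fun a => clf (σ a)) {g : X →L[ℝ] X} (hg : ∀ ξ, g (g ξ) = g ξ)
    (j : Fm ι X →L[ℝ] V) (i : X →L[ℝ] W)
    (h1 : ∀ d ξ, Op.tr (σ d) (i ξ) = j (ea X P d (g ξ)))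
    (h2 : ∀ b c α, idx P g α = α → Op.tr (σ b) (σ c (j α)) = j (ea X P b (α c)
      + WithLp.toLp 2 fun m => (2 : ℝ) • idx (sdm P o) g (wd2 X P c α) (b, m)))
    (α : Fm ι X) :
    omP o σ (i1 V W (j (idx P g α))) = i1 V W (j (idx P g α)) := by
  have e : idx P g α = ∑ k, ea X P k (g (α k)) := fm_ext fun m => by
    simp [Map77.idx_apply, ea_apply]
  have k : ∀ k ξ, omC o (fun a => clf (σ a)) (clf (σ k) (i2 V W (i ξ)))
      = clf (σ k) (i2 V W (i ξ)) := fun k ξ => by
    refine om_gen (ori_of h) C (fun a => ?_) k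
    have f1 : ∀ d m, ∑ k, P m k • ea X P d (g ξ) k = ea X P d (g ξ) m := fun d m => by
      simp only [ea_apply, smul_smul, ← sum_smul, h.pr.idem]
    have f2 : ∀ d m, g (ea X P d (g ξ) m) = ea X P d (g ξ) m := fun d m => by
      simp only [ea_apply, map_smul, hg]
    have f3 : ∀ d, idx P g (ea X P d (g ξ)) = ea X P d (g ξ) := fun d => fm_ext fun m => by
      simp only [Map77.idx_apply, f2, f1]
    simp only [clf_i2, clf_i1, map_neg, neg_neg, h1, h2 _ _ _ (f3 _)]
    simp only [← map_smul j, ← map_sum j, ← map_neg j, ← map_smul (i1 V W), ← map_sum (i1 V W),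
      ← map_neg (i1 V W)]
    congr 2
    refine fm_ext fun m => ?_
    simp only [WithLp.ofLp_sum, Finset.sum_apply, PiLp.smul_apply, PiLp.add_apply,
      PiLp.neg_apply, h.sd_wd2 (f2 _) (f1 _), ea_apply, smul_smul, ← sum_smul, ← sub_smul,
      ← add_smul, ← neg_smul]
    congr 1
    rw [mul_neg, ← neg_mul, ← cubic h]
    refine sum_congr rfl fun b _ => sum_congr rfl fun c _ => sum_congr rfl fun d _ => ?_
    rw [← h.po4 b m c d]
    simp only [h.pr.symm d, mul_comm (o b m c _)]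
  simp only [clf_i2, h1, map_neg, neg_inj] at k
  simp only [omP, e, map_sum, k]

end pt

section gen
variable {E H : Type*} [NormedAddCommGroup E] [NormedSpace ℝ E] [TopologicalSpace H]
  {I : ModelWithCorners ℝ E H} {M : Type*} [TopologicalSpace M] [ChartedSpace H M]
  {ι : Type} [Fintype ι] [DecidableEq ι] [IsManifold I 1 M]
  {X Y : Type} [NormedAddCommGroup X] [InnerProductSpace ℝ X]
  [NormedAddCommGroup Y] [InnerProductSpace ℝ Y]
  {e : ι → (x : M) → TangentSpace I x} {P : ι → ι → M → ℝ} {c Γ : ι → ι → ι → M → ℝ}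

theorem ParS.congr {σ τ : ι → M → X →L[ℝ] Y} {A : ι → M → X →L[ℝ] X} {B : ι → M → Y →L[ℝ] Y}
    (h : ParS I e Γ σ A B) (e' : ∀ a x v, τ a x v = σ a x v) : ParS I e Γ τ A B := by
  rwa [show τ = σ from _root_.funext fun a => _root_.funext fun x => ContinuousLinearMap.ext (e' a x)]

theorem tA_kr (Ω Θ : ι → M → Matrix ι ι ℝ) (B : ι → M → X →L[ℝ] X) (a : ι) (y : M)
    (v : Fm (ι × ι) X) (s : ι × ι) : tA (kr Ω Θ) B a y v s
      = ∑ t, Ω a y s.1 t • v (t, s.2) + ∑ t, Θ a y s.2 t • v (s.1, t) + B a y (v s) := by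
  simp [tA_apply, kr, Matrix.one_apply, Fintype.sum_prod_type, add_smul, sum_add_distrib, ite_smul]

variable (L : LC I e P c Γ) (F : Frm I e P c) (B : ι → M → X →L[ℝ] X)
include L F

/-- contraction with the frame is parallel -/
theorem par_pj : ParS I e Γ (fun a x => ∑ b, P a b x • pj X b) (tA (Om P Γ) B) B := by
  have s := fun a b x => (F.sP a b x).smul (contMDiffAt_const (c := pj X b))
  refine ⟨fun a x => SA.sum _ fun b _ => s a b x, fun a b x => ?_⟩
  rw [dv_sum' _ (s b · x)]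
  ext1 α
  have h1 : ∑ k, P b k x • ∑ t, Om P Γ a x k t • α t = ∑ t, Γ a t b x • α t := by
    simp only [smul_sum, smul_smul]
    rw [sum_comm]
    simp only [← sum_smul]
    exact sum_congr rfl fun t _ => congrArg (· • _) (congrFun (congrFun (Pm_Om L F a x) b) t)
  have h2 : ∑ k, Γ a b k x • ∑ t, P k t x • α t = ∑ t, Γ a b t x • α t := by
    simp only [smul_sum, smul_smul]
    rw [sum_comm]
    simp only [← sum_smul, L.proj]
  simp only [dv_smul (F.sP b _ x).md mdifferentiableAt_const, dv_const, L.met, add_apply, sub_apply,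
    _root_.sum_apply, smul_apply, ContinuousLinearMap.comp_apply, pj_apply, tA_apply, map_sum,
    map_smul, smul_add, add_smul, sum_add_distrib, h1, h2, Pi.zero_apply, smul_zero,
    sum_const_zero, zero_apply]
  abel

/-- the wedge product with the frame is parallel -/
theorem par_wd : ParS I e Γ (fun a x => wd2 X (fun a b => P a b x) a) (tA (Om P Γ) B)
    (tA (Om2 P Γ) B) := by
  have s := fun (a : ι) (t : ι × ι) x => ((F.sP t.1 a x).smul (contMDiffAt_const (c := pj X t.2))).sub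
    ((F.sP t.2 a x).smul (contMDiffAt_const (c := pj X t.1)))
  have s' := fun (a : ι) (t : ι × ι) x => sa_comp (contMDiffAt_const (c := ij X t)) (s a t x)
  simp only [wd2, tp_eq]
  refine ⟨fun a x => SA.sum _ fun t _ => s' a t x, fun a b x => ?_⟩
  rw [dv_sum' _ (s' b · x)]
  simp only [fun t => dv_compL (v := e a) (contMDiffAt_const (c := ij X t)) (s b t x), dv_const,
    Pi.zero_apply, ContinuousLinearMap.zero_comp, zero_add, ← tp_eq]
  ext1 α
  refine fm_ext fun t => ?_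
  have h1 : ∀ m, ∑ k, Om P Γ a x m k * P k b x = -Γ a m b x :=
    fun m => congrFun (congrFun (Om_Pm L F a x) m) b
  have h2 : ∀ m, ∑ k, Γ a b k x * P m k x = Γ a b m x := fun m => by
    simp only [(F.pr x).symm m, L.proj]
  simp only [dv_sub' ((F.sP _ b x).smul contMDiffAt_const) ((F.sP _ b x).smul contMDiffAt_const),
    dv_smul (F.sP _ b x).md mdifferentiableAt_const, dv_const, L.met, add_apply, sub_apply,
    _root_.sum_apply, smul_apply, ContinuousLinearMap.comp_apply, pj_apply, Om2, tA_kr, map_sub,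
    map_smul, Pi.zero_apply, smul_zero, add_zero, PiLp.add_apply, PiLp.sub_apply, tp_apply,
    WithLp.ofLp_sum, Finset.sum_apply, PiLp.smul_apply]
  simp only [tA_apply, add_smul, smul_sub, smul_smul, sum_sub_distrib,
    ← sum_smul, h1, h2, smul_add, smul_sum, mul_comm (P _ b x), neg_smul]
  abel

end gen

variable {E : Type} [NormedAddCommGroup E] [NormedSpace ℝ E] [FiniteDimensional ℝ E]
  [MeasurableSpace E] [BorelSpace E]
  {HM : Type} [TopologicalSpace HM] {I : ModelWithCorners ℝ E HM}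
  {M : Type} [TopologicalSpace M] [ChartedSpace HM M] [IsManifold I ∞ M]
  [MeasurableSpace M] {ι : Type} [Fintype ι]
  {X : Type} [NormedAddCommGroup X] [InnerProductSpace ℝ X] [FiniteDimensional ℝ X]

section
variable (F : Fr I M ι) (o : ι → ι → ι → ι → M → ℝ)

/-- the signature density `p₁ / 3` -/
def sgd (x : M) : ℝ := -cwT (fun a b c d => o a b c d x) (RR F x) / (96 * Real.pi ^ 2)

open Classical in
/-- the Euler density -/
def eud (x : M) : ℝ := -cwS I F.e F.P F.c F.Gam (fun a b c d => o a b c d x) x / (128 * Real.pi ^ 2)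

/-- the Chern-Weil density of the connection `A` with the weight `T` -/
def cwd (T : M → X →L[ℝ] X) (A : ι → M → X →L[ℝ] X) (x : M) : ℝ :=
  cw (fun a b c d => o a b c d x) (T x) fun a b => curv I F.e F.c A a b x

theorem dn_eq [T2Space M] [BorelSpace M] [SecondCountableTopology M] (T : M → X →L[ℝ] X)
    (A : ι → M → X →L[ℝ] X) (x : M) :
    dn F o T A x = -cwd F o T A x / (128 * Real.pi ^ 2) - trL (T x) / 8 * sgd F o x := by
  rw [dn, Ind95.dens, cwd, sgd]; field_simp; ring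

end

variable {F : Fr I M ι} {o : ι → ι → ι → ι → M → ℝ}

/-- a parallel subbundle -/
structure Sub (F : Fr I M ι) (g : M → X →L[ℝ] X) (B : ι → M → X →L[ℝ] X) : Prop where
  con : Con I F.P B
  sk : ∀ a x, Skew (B a x)
  sm : An.Sm I g
  par : ∀ a x, nabE I F.e B a g x = 0

section
variable [DecidableEq ι] {g : M → X →L[ℝ] X} {B : ι → M → X →L[ℝ] X}

theorem Sub.one (S : Sub F g B) :
    Sub F (fun x => idx (fun a b => F.P a b x) (g x)) (tA (Om F.P F.Gam) B) :=
  ⟨con_tA (sm_Om (lc_gam F) (frm F)) (Om_proj (lc_gam F) (frm F) (sep F)) S.con,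
    fun a x => skew_tA (Om_skew (lc_gam F) (frm F) a x) (S.sk a x),
    fun x => (sm_Pm (frm F) x).ix (S.sm x), fun a x =>
      (nabE_tA (sm_Pm (frm F) x) (S.sm x) a).trans (by rw [nm_Pm (lc_gam F) (frm F), S.par]; simp)⟩

theorem Sub.two (S : Sub F g B) (h : OK F o) :
    Sub F (fun x => idx (sdm (fun a b => F.P a b x) fun a b c d => o a b c d x) (g x))
      (tA (Om2 F.P F.Gam) B) :=
  ⟨con_tA (sm_Om2 (lc_gam F) (frm F)) (Om2_proj (lc_gam F) (frm F) (sep F)) S.con,
    fun a x => skew_tA (Om2_skew (lc_gam F) (frm F) a x) (S.sk a x),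
    fun x => (sm_sd (frm F) h.sm x).ix (S.sm x), fun a x =>
      (nabE_tA (sm_sd (frm F) h.sm x) (S.sm x) a).trans
        (by rw [nm_sd (lc_gam F) (frm F) h.sm h.vo, S.par]; simp)⟩

theorem Sub.ps {Y : Type} [NormedAddCommGroup Y] [InnerProductSpace ℝ Y] [FiniteDimensional ℝ Y]
    {q : M → Y →L[ℝ] Y} {A : ι → M → Y →L[ℝ] Y} (S : Sub F g B) (T : Sub F q A) :
    Sub F (ps g q) (sA B A) :=
  ⟨con_sA S.con T.con, fun a x => skew_sm2 (S.sk a x) (T.sk a x), fun x => sa_sm2 (S.sm x) (T.sm x),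
    fun a x => par_sA (S.sm x) (T.sm x) (S.par a x) (T.par a x)⟩

variable [T2Space M] [BorelSpace M] [SecondCountableTopology M]

theorem dn_sm2 {Y : Type} [NormedAddCommGroup Y] [InnerProductSpace ℝ Y] [FiniteDimensional ℝ Y]
    {A : ι → M → Y →L[ℝ] Y} (hB : Con I F.P B) (hA : Con I F.P A) (S : M → X →L[ℝ] X)
    (T : M → Y →L[ℝ] Y) (x : M) :
    dn F o (fun x => sm2 (S x) (T x)) (sA B A) x = dn F o S B x + dn F o T A x := by
  simp only [dn, curv_sA (fun a => hB.sm a x) fun a => hA.sm a x, dens_sm2]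

theorem dn_neg (S : M → X →L[ℝ] X) (x : M) : dn F o (fun x => -S x) B x = -dn F o S B x :=
  dens_neg _ _ _ _

theorem dn_asd (hB : Con I F.P B) (h : OK F o) (x : M) :
    dn F o (fun x => idx (fun a b => F.P a b x) (g x)) (tA (Om F.P F.Gam) B) x + dn F o g B x
      + dn F o (fun x => idx (sdm (fun a b => F.P a b x) fun a b c d => o a b c d x) (g x))
        (tA (Om2 F.P F.Gam) B) x
      = trL (g x) * (eud F o x + sgd F o x) / 2 - cwd F o g B x / (16 * Real.pi ^ 2) := by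
  have L := lc_gam F
  have h1 := cw_ix_sym (h.vo x).swap (Pm_symm (frm F) x) (g x) (cm_Om_skew L (frm F) · · x)
    fun a b => curv I F.e F.c B a b x
  have h2 := cw_ix_sym (h.vo x).swap (sdM_symm (h.vo x)) (g x) (cm_Om2_skew L (frm F) · · x)
    fun a b => curv I F.e F.c B a b x
  have h4 : (Pm F.P x).trace = 4 := (h.vo x).tr
  rw [cwm_Pm L (frm F), h4] at h1
  rw [cwm_sd L (frm F) _ _ (h.vo x).tr, trace_sdM (h.vo x)] at h2
  have h3 := trL_ix (Pm F.P x) (g x)
  have h5 := trL_ix (sdM (fun a b => F.P a b x) fun a b c d => o a b c d x) (g x)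
  rw [h4] at h3
  rw [trace_sdM (h.vo x)] at h5
  simp only [dn, Ind95.dens, curv_tA (fun a => sm_Om L (frm F) a x) fun a => hB.sm a x,
    curv_tA (fun a => sm_Om2 L (frm F) a x) fun a => hB.sm a x]
  erw [h1, h2, h3, h5]
  rw [eud, sgd, cwd, Subsingleton.elim (fun a b => Classical.propDecidable (a = b)) ‹DecidableEq ι›]
  field_simp
  ring

end

variable [T2Space M] [BorelSpace M] [SecondCountableTopology M] [CompactSpace M] [I.Boundaryless]

theorem Pa.index' {Y : Type} [NormedAddCommGroup Y] [InnerProductSpace ℝ Y] [FiniteDimensional ℝ Y]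
    {A : Op M ι X Y} {A₁ : ι → M → X →L[ℝ] X} {A₂ : ι → M → Y →L[ℝ] Y} (D : Pa F A A₁ A₂)
    (h : OK F o) (T₀ : M → X →L[ℝ] X) (T₁ : M → Y →L[ℝ] Y)
    (h0 : ∀ x v, omP (fun a b c d => o a b c d x) (fun a => A.σ a x) (i1 X Y (A.p x v))
      = -i1 X Y (T₀ x v))
    (hσ : ∀ x a v, A.σ a x (T₀ x v) = T₁ x (A.σ a x v)) (hq : ∀ x w, T₁ x (A.q x w) = T₁ x w) :
    (ind F A : ℝ) = ∫ x, (dn F o T₀ A₁ x + dn F o T₁ A₂ x) ∂F.μ := D.index h h0 hσ hq

/-- **The index of `(div, d⁺)`.** -/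
theorem ind_hop (h : OK F o) :
    (ind F (hop F o) : ℝ) = -∫ x, (eud F o x + sgd F o x) / 2 ∂F.μ := by
  classical
  obtain ⟨C, -, hC⟩ := h.good
  have S : Sub F (triv M ℝ) fun _ _ => 0 :=
    ⟨⟨fun _ _ => contMDiffAt_const, by simp⟩, fun _ _ _ _ => by simp, contMDiff_const,
      fun _ _ => by simp [nabE]⟩
  have T := S.ps (S.two h)
  have D : Pa F (hop F o) (tA (Om F.P F.Gam) fun _ _ => 0)
      (sA (fun _ _ => 0) (tA (Om2 F.P F.Gam) fun _ _ => 0)) :=
    ⟨⟨C, hC⟩, h.cliff, S.one.con, T.con, S.one.sk, T.sk, S.one.par,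
    T.par, ((par_pj (lc_gam F) (frm F) _).pr2 ((par_wd (lc_gam F) (frm F) _).comp (S := fun _ => 1)
      (fun _ => contMDiffAt_const) (S.two h).sm (fun _ _ => by simp [nabE]) (S.two h).par)).congr
        fun _ _ _ => rfl⟩
  rw [D.index' h (fun x => -(hop F o).p x) (fun x => -(hop F o).q x), ← integral_neg]
  · refine congrArg _ (_root_.funext fun x => ?_)
    have h1 := dn_asd (g := triv M ℝ) S.con h x
    have h2 : cwd F o (triv M ℝ) (fun _ _ => 0) x = 0 := by simp [cwd, cw, curv]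
    have h3 : trL (triv M ℝ x) = 1 := by simp [trL_apply]
    rw [h2, h3, add_assoc, ← dn_sm2 S.con (S.two h).con, zero_div, sub_zero, one_mul] at h1
    rw [dn_neg, dn_neg, ← neg_add]
    exact congrArg _ h1
  · intro x v
    rw [neg_apply, map_neg, neg_neg]
    refine om_one (h.vo x) (cl_clf D.alg D.cl x) (g := ContinuousLinearMap.id ℝ ℝ) (fun _ => rfl)
      (ContinuousLinearMap.id ℝ _) (i1 _ _) (fun d ξ => fm_ext fun m => ?_)
      (fun b c α hα => fm_ext fun m => ?_) v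
    · simp [hop, Num57.tr_hσ (h.vo x), ea_apply, F.P_symm m]
    · simp [hop, Num57.tr_hσ (h.vo x), ea_apply, F.P_symm m, Num57.f2_hσ, Num57.s2_hσ,
        Num57.sd_idem (h.vo x), show Num57.p1 _ α = α from hα]
      exact Map77.idx_apply _ _ _ _
  · intro x a v
    simp only [neg_apply, map_neg, D.alg.σp, D.alg.qσ]
  · intro x w
    simp only [neg_apply, D.alg.q.idem]

variable {κ : Type} [Fintype κ] [DecidableEq κ]

/-- connections for which the bundles of a sub-theory are parallel -/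
structure BdP (d : Bd M ι κ) (F : Fr I M ι) (B : ι → M → CL (HS κ) (HS κ)) (W : ι → M → En κ) :
    Prop where
  P : F.P = d.P
  g : Sub F d.g B
  sp : Sub F d.sp W
  sm : Sub F d.sm W
  ρ : ParS I F.e F.Gam d.ρ W W
  om : ∀ x v, omC (d.ox x) (fun a => d.ρ a x) (d.sp x v) = -d.sp x v

theorem BdP.e0 {d : Bd M ι κ} {B : ι → M → CL (HS κ) (HS κ)} {W : ι → M → En κ}
    (D : BdP d F B W) (x : M) : d.Px x = fun a b => F.P a b x := by rw [D.P]

theorem BdP.s1 [DecidableEq ι] {d : Bd M ι κ} {B : ι → M → CL (HS κ) (HS κ)} {W : ι → M → En κ}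
    (D : BdP d F B W) (h : d.OK) : Sub F d.p1 (tA (Om F.P F.Gam) B) := by
  rw [show d.p1 = _ from _root_.funext fun x => (h.p1 x).trans (by rw [D.e0])]; exact D.g.one

theorem BdP.s2 [DecidableEq ι] {d : Bd M ι κ} {B : ι → M → CL (HS κ) (HS κ)} {W : ι → M → En κ}
    (D : BdP d F B W) (h : d.OK) (ho : OK F d.o) : Sub F d.p2 (tA (Om2 F.P F.Gam) B) := by
  rw [show d.p2 = _ from _root_.funext fun x => (h.p2 x).trans (by rw [D.e0])]; exact D.g.two ho

theorem good_full {d : Bd M ι κ} {B : ι → M → CL (HS κ) (HS κ)} {W : ι → M → En κ} (h : d.OK)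
    (ho : OK F d.o) (D : BdP d F B W) {u₀ : M → Cf ι κ} (hu : An.Sm I u₀) :
    ∃ C, F.Tame C ∧ (d.full F u₀).Good F C := by
  classical
  obtain ⟨C, hC⟩ := Cht98.exists_tame F ho.h4.le
  let K := cb (fun _ : Unit => F.toPre) Set.univ
  have e : ∀ {N : Type} [NormedAddCommGroup N] [NormedSpace ℝ N] {f : M → N}, An.Sm I f →
      K.mem fun _ => f := fun hf _ _ => Cb_of_compact hf
  have h1 : d.In K := ⟨fun a b => e (D.P ▸ F.P_sm a b), fun a => e (D.ρ.sm a), e D.g.sm,
    e (D.s1 h).sm, e (D.s2 h ho).sm, e D.sp.sm, e D.sm.sm⟩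
  have h2 := h1.full (F := fun _ => F) (fun a b k => e (F.c_sm a b k)) (fun a => e (F.dv_sm a))
    (e hu)
  exact good_of hC (h2.p () trivial) (h2.q () trivial) (fun a => h2.σ a () trivial)
    (h2.B () trivial) (D.P ▸ h.alg_full u₀)

theorem pa_full [DecidableEq ι] {d : Bd M ι κ} {B : ι → M → CL (HS κ) (HS κ)} {W : ι → M → En κ}
    (h : d.OK) (ho : OK F d.o) (D : BdP d F B W) {u₀ : M → Cf ι κ} (hu : An.Sm I u₀) :
    Pa F (d.full F u₀) (sA (tA (Om F.P F.Gam) B) W) (sA B (sA W (tA (Om2 F.P F.Gam) B))) := by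
  obtain ⟨C, -, hC⟩ := good_full h ho D hu
  have S1 := D.s1 h
  have S2 := D.s2 h ho
  have S := S1.ps D.sp
  have T := D.g.ps (D.sm.ps S2)
  have z : ∀ {X : Type} [NormedAddCommGroup X] [InnerProductSpace ℝ X] (A : ι → M → X →L[ℝ] X) a x,
      nabE I F.e A a (fun _ => 1) x = 0 := fun A a x => by simp [nabE]
  exact ⟨⟨C, hC⟩, h.cliff_full D.P u₀, S.con, T.con, S.sk, T.sk, S.par, T.par,
    (((par_pj (lc_gam F) (frm F) B).comp S1.sm (fun _ => contMDiffAt_const) S1.par (z _)).fst.pr2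
      ((D.ρ.comp D.sp.sm (fun _ => contMDiffAt_const) D.sp.par (z _)).snd.pr2
        ((par_wd (lc_gam F) (frm F) B).comp S1.sm S2.sm S1.par S2.par).fst)).congr
      fun a x v => ext2 (by simp [h.full_σ1, D.P, h.P_p1])
        (ext2 (by simp [h.full_σ2]) (by simp [Bd.OK.full_σ3, D.e0]))⟩

theorem om_full {d : Bd M ι κ} (h : d.OK) (hP : F.P = d.P) (u₀ : M → Cf ι κ) (x : M)
    (hω : ∀ v, omC (d.ox x) (fun a => d.ρ a x) (d.sp x v) = -d.sp x v) (v : Cf ι κ) :
    omP (d.ox x) (fun a => (d.full F u₀).σ a x) (i1 _ _ (d.pC x v))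
      = -i1 _ _ (sm2 (-d.p1 x) (d.sp x) v) := by
  have C := cl_clf (hP ▸ h.alg_full u₀) (h.cliff_full hP u₀) x
  rw [hP] at C
  have h1 := om_one (h.vol x) C (h.g.idem x) (i1 _ (Eu κ)) (i1 _ _)
    (fun a ξ => by simp [h.tr_full]; rfl)
    (fun b c α hα => by
      rw [← h.p1] at hα
      simp [h.tr_full, h.full_σ1, h.full_σ2, Bd.OK.full_σ3, hα, h.prj2.idem, ← h.p2]
      rw [← hα, h.g_p1]) (fa v)
  have k1 : ∀ a φ, clf ((d.full F u₀).σ a x) (i1 _ _ (i2 _ _ (d.sp x φ)))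
      = i2 _ _ (i2 _ _ (i1 _ _ (d.sm x (d.ρ a x (d.sp x φ))))) := fun a φ => by
    rw [clf_i1, h.mp]
    exact congrArg _ (ext2 (by simp [h.full_σ1])
      (ext2 (by simp [h.full_σ2, h.sp.idem]) (by simp [Bd.OK.full_σ3])))
  have k2 : ∀ a φ, clf ((d.full F u₀).σ a x) (i2 _ _ (i2 _ _ (i1 _ _ (d.sm x φ))))
      = i1 _ _ (i2 _ _ (d.sp x (d.ρ a x (d.sm x φ)))) := fun a φ => by
    rw [clf_i2, h.pm, ← map_neg]
    simp [h.tr_full, h.sm.idem]
    rfl
  have k3 : ∀ a b c e φ, d.sp x (d.ρ a x (d.sm x (d.ρ b x (d.sp x (d.ρ c x (d.sm x (d.ρ e x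
      (d.sp x φ)))))))) = d.ρ a x (d.ρ b x (d.ρ c x (d.ρ e x (d.sp x φ)))) :=
    fun a b c e φ => by rw [h.pm, h.mp, h.pm, h.mp]
  have h2 := congrArg (fun φ => i1 _ (P2 (HS κ) (Ef ι κ)) (i2 (Fm ι (HS κ)) _ φ)) (hω (fp v))
  rw [← h.p1] at h1
  rw [show d.pC x v = i1 _ _ (d.p1 x (fa v)) + i2 _ _ (d.sp x (fp v)) from rfl,
    map_add, map_add, h1]
  simp only [omC, smul_apply, _root_.sum_apply, mul_apply_eq_comp, map_smul, map_sum] at h2
  simp only [omP_apply, k1, k2]
  simp only [k3]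
  rw [h2]
  exact ext2 (ext2 (by simp) (by simp)) (by simp)

theorem σT_full {d : Bd M ι κ} (h : d.OK) (u₀ : M → Cf ι κ) (x : M) (a : ι)
    (v : Cf ι κ) : (d.full F u₀).σ a x (sm2 (-d.p1 x) (d.sp x) v)
      = sm2 (-d.g x) (sm2 (d.sm x) (-d.p2 x)) ((d.full F u₀).σ a x v) := by
  refine ext2 ?_ (ext2 ?_ ?_)
  · simp only [f2_sm2, h.full_σ1, neg_apply, map_neg, h.prj1.idem, h.g_p1, PiLp.neg_apply]
  · simp only [f2_sm2, s2_sm2, h.full_σ2, h.sp.idem, h.mp]
  · simp only [f2_sm2, s2_sm2, Bd.OK.full_σ3, neg_apply, map_neg, h.prj1.idem, h.prj2.idem]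

/-- **The index of the linearised monopole operator.** -/
theorem ind_full {d : Bd M ι κ} {B : ι → M → CL (HS κ) (HS κ)} {W : ι → M → En κ} (h : d.OK)
    (ho : OK F d.o) (D : BdP d F B W) {u₀ : M → Cf ι κ} (hu : An.Sm I u₀) :
    (ind F (d.full F u₀) : ℝ) = ∫ x, (cwd F d.o d.g B x / (16 * Real.pi ^ 2)
      - trL (d.g x) * (eud F d.o x + sgd F d.o x) / 2
      + dn F d.o (fun x => d.sp x + d.sm x) W x) ∂F.μ := by
  classical
  have S1 := D.s1 h
  have S2 := D.s2 h ho
  have Q := pa_full h ho D hu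
  rw [Q.index' ho (fun x => sm2 (-d.p1 x) (d.sp x))
    (fun x => sm2 (-d.g x) (sm2 (d.sm x) (-d.p2 x)))
    (fun x => om_full h D.P u₀ x (D.om x)) (σT_full h u₀)]
  · refine congrArg _ (_root_.funext fun x => ?_)
    have h1 := dn_asd (g := d.g) D.g.con ho x
    simp only [← D.e0, ← h.p1, ← h.p2] at h1
    rw [dn_sm2 S1.con D.sp.con, dn_sm2 D.g.con (D.sm.ps S2).con, dn_sm2 D.sm.con S2.con, dn_neg,
      dn_neg, dn_neg, show dn F d.o (fun x => d.sp x + d.sm x) W x = _ from dens_add _ _ _ _ _]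
    simp only [dn] at h1 ⊢
    linarith
  · intro x w
    rw [show (d.full F u₀).q x w = ps d.g d.pE x w from rfl]
    refine ext2 ?_ (ext2 ?_ ?_) <;>
      simp only [f2_sm2, s2_sm2, f2_ps, s2_ps, neg_apply, h.g.idem, h.sm.idem, h.prj2.idem]

end Crest.Agent.X212.Idg99
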