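import Crest.Agent.X212.Map77.Vol
import Crest.Agent.X212.Ind95.Alg

/-! Pointwise algebra for index densities in a spanning frame. -/

set_option autoImplicit false
set_option linter.unusedSectionVars false
open Finset

noncomputable section
namespace Crest.Agent.X212.Idg99
open Wz78 Map77

variable {ι : Type*} [Fintype ι] {𝔸 : Type*} [Ring 𝔸] [Algebra ℝ 𝔸]

/-- contraction of two four-tensors -/
def c4 (o f : ι → ι → ι → ι → ℝ) : ℝ := ∑ a, ∑ b, ∑ c, ∑ d, o a b c d * f a b c d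

theorem c4_add (o f g : ι → ι → ι → ι → ℝ) :
    c4 o (fun a b c d => f a b c d + g a b c d) = c4 o f + c4 o g := by
  simp only [c4, mul_add, sum_add_distrib]

theorem c4_sub (o f g : ι → ι → ι → ι → ℝ) :
    c4 o (fun a b c d => f a b c d - g a b c d) = c4 o f - c4 o g := by
  simp only [c4, mul_sub, sum_sub_distrib]

theorem c4_mul (o f : ι → ι → ι → ι → ℝ) (r : ℝ) :
    c4 o (fun a b c d => r * f a b c d) = r * c4 o f := by
  simp only [c4, mul_sum, mul_left_comm r]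

theorem c4_neg (o f : ι → ι → ι → ι → ℝ) : c4 o (fun a b c d => -f a b c d) = -c4 o f := by
  simp only [c4, mul_neg, sum_neg_distrib]

theorem c4_swap {o : ι → ι → ι → ι → ℝ} (h : ∀ a b c d, o a b c d = o c d a b)
    (f : ι → ι → ι → ι → ℝ) : c4 o (fun a b c d => f c d a b) = c4 o f := by
  have e : ∀ g : ι → ι → ι → ι → ℝ, ∑ a, ∑ b, ∑ c, ∑ d, g a b c d
      = ∑ s : ι × ι, ∑ t : ι × ι, g s.1 s.2 t.1 t.2 := fun g => by
    simp only [Fintype.sum_prod_type]
  rw [c4, c4, e, e, sum_comm]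
  exact sum_congr rfl fun s _ => sum_congr rfl fun t _ => by rw [h t.1]

/-- the Clifford volume element -/
def omA (o : ι → ι → ι → ι → ℝ) (ρ : ι → 𝔸) : 𝔸 :=
  (1 / 24 : ℝ) • ∑ a, ∑ b, ∑ c, ∑ d, o a b c d • (ρ a * ρ b * ρ c * ρ d)

variable {P : ι → ι → ℝ} {o : ι → ι → ι → ι → ℝ} {p : 𝔸} {ρ : ι → 𝔸} {u : ι → Fin 4 → ℝ}

/-- Clifford generators in an orthonormal frame -/
def gam (u : ι → Fin 4 → ℝ) (ρ : ι → 𝔸) (i : Fin 4) : 𝔸 := ∑ a, u a i • ρ a

theorem rho_gam (h : Cl P p ρ) (hu : ON P u) (a : ι) : ρ a = ∑ i, u a i • gam u ρ i := by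
  simp only [gam, smul_sum, smul_smul]
  rw [sum_comm]
  simp only [← sum_smul, ← hu.pr, h.proj]

theorem gam_rel (h : Cl P p ρ) (hu : ON P u) (i j : Fin 4) :
    gam u ρ i * gam u ρ j + gam u ρ j * gam u ρ i = (-2 * if i = j then 1 else 0 : ℝ) • p := by
  have e1 : ∀ i j, gam u ρ i * gam u ρ j = ∑ a, ∑ b, (u a i * u b j) • (ρ a * ρ b) := fun i j => by
    simp only [gam, sum_mul_sum, smul_mul_smul_comm]
  have e2 : gam u ρ j * gam u ρ i = ∑ a, ∑ b, (u a i * u b j) • (ρ b * ρ a) := by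
    rw [e1, sum_comm]; simp only [mul_comm]
  have e3 : ∑ a, ∑ b, u a i * u b j * P a b = if i = j then 1 else 0 := by
    have : ∑ a, ∑ b, u a i * u b j * P a b
        = ∑ k, (∑ a, u a i * u a k) * ∑ b, u b k * u b j := by
      simp only [hu.pr, mul_sum, sum_mul]
      symm
      rw [sum_comm]
      conv_rhs => rw [sum_comm]
      refine sum_congr rfl fun b _ => ?_
      rw [sum_comm]
      exact sum_congr rfl fun a _ => sum_congr rfl fun k _ => by ring
    rw [this]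
    simp [hu.on]
  rw [e1, e2, ← e3]
  simp only [← sum_add_distrib, ← smul_add, h.rel, smul_smul, ← sum_smul, mul_sum]
  congr 1
  exact sum_congr rfl fun a _ => sum_congr rfl fun b _ => by ring

theorem frame_sq (h : Vol P o) (hu : ON P u) : ∃ s : ℝ, s * s = 1 ∧ ∀ a b c d,
    o a b c d = s * ∑ l, cof (u a) (u b) (u c) l * u d l := by
  obtain ⟨s, hs⟩ := h.frame hu
  refine ⟨s, ?_, hs⟩
  have k : ∀ a b c e f g, ∑ d, o a b c d * o e f g d = s ^ 2 * det3 P a b c e f g := by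
    intro a b c e f g
    have e1 : det3 P a b c e f g = ∑ l, cof (u a) (u b) (u c) l * cof (u e) (u f) (u g) l := by
      rw [cof_dot]; simp only [det3, hu.pr]
    have e2 : ∑ l, cof (u a) (u b) (u c) l * cof (u e) (u f) (u g) l = ∑ l, ∑ m,
        cof (u a) (u b) (u c) l * cof (u e) (u f) (u g) m * ∑ d, u d l * u d m := by
      simp only [hu.on, mul_ite, mul_one, mul_zero, sum_ite_eq, mem_univ, if_true]
    rw [e1, e2]
    simp only [hs, Fin.sum_univ_four, mul_sum, ← sum_add_distrib, mul_add]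
    exact sum_congr rfl fun d _ => by ring
  have h1 := h.nm
  simp only [sq (o _ _ _ _), k, ← mul_sum, h.sum_det, sum_sub_distrib, h.tr,
    h.pr.idem, ← sum_mul] at h1
  linarith

theorem det_eps (x y z w : Fin 4 → ℝ) : ∑ l, cof x y z l * w l
    = ∑ i, ∑ j, ∑ k, ∑ l, (Ind95.eps i j k l : ℝ) * (x i * y j * z k * w l) := by
  have := Ind95.E4_eq (S := ℝ) fun i j k l => x i * y j * z k * w l
  rw [Ind95.E4] at this
  rw [this]
  simp only [cof, Fin.sum_univ_four, Matrix.cons_val_zero, Matrix.cons_val_one, Matrix.cons_val]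
  ring

theorem eps_sum {γ : Fin 4 → 𝔸} (h : ∀ i j, i ≠ j → γ i * γ j = -(γ j * γ i)) :
    ∑ i, ∑ j, ∑ k, ∑ l, (Ind95.eps i j k l : ℝ) • (γ i * γ j * γ k * γ l)
      = (24 : ℝ) • (γ 0 * γ 1 * γ 2 * γ 3) := by
  have s : ∀ i j, i ≠ j → ∀ x, γ i * (γ j * x) = -(γ j * (γ i * x)) := fun i j hij x => by
    rw [← mul_assoc, h i j hij, neg_mul, mul_assoc]
  have s10 := s 1 0 (by decide)
  have s20 := s 2 0 (by decide)
  have s30 := s 3 0 (by decide)
  have s21 := s 2 1 (by decide)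
  have s31 := s 3 1 (by decide)
  have s32 := s 3 2 (by decide)
  simp only [Fin.sum_univ_four]
  simp (decide := true) only [Ind95.eps, Ind95.sg, if_true, if_false, mul_zero, zero_mul, mul_one,
    mul_neg, neg_neg, Int.cast_zero, Int.cast_one, Int.cast_neg, zero_smul, one_smul, neg_smul,
    add_zero, zero_add, one_mul, neg_mul]
  simp only [mul_assoc, s10, s20, s30, s21, s31, s32, h 1 0 (by decide), h 2 0 (by decide),
    h 3 0 (by decide), h 2 1 (by decide), h 3 1 (by decide), h 3 2 (by decide), mul_neg, neg_neg,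
    neg_mul]
  module

theorem gam_anti (h : Cl P p ρ) (hu : ON P u) (i j : Fin 4) (hij : i ≠ j) :
    gam u ρ i * gam u ρ j = -(gam u ρ j * gam u ρ i) := by
  have := gam_rel h hu i j
  rw [if_neg hij, mul_zero, zero_smul] at this
  exact eq_neg_of_add_eq_zero_left this

theorem gam_sq (h : Cl P p ρ) (hu : ON P u) (i : Fin 4) : gam u ρ i * gam u ρ i = -p := by
  have := gam_rel h hu i i
  rw [if_pos rfl, ← two_smul ℝ, mul_one, neg_smul, ← smul_neg] at this
  exact smul_right_injective 𝔸 two_ne_zero this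

theorem p_gam (h : Cl P p ρ) (i : Fin 4) : p * gam u ρ i = gam u ρ i := by
  simp only [gam, mul_sum, mul_smul_comm, h.pl]

theorem gam_p (h : Cl P p ρ) (i : Fin 4) : gam u ρ i * p = gam u ρ i := by
  simp only [gam, sum_mul, smul_mul_assoc, h.pr]

theorem om_frame (hv : Vol P o) (h : Cl P p ρ) (hu : ON P u) : ∃ s : ℝ, s * s = 1 ∧
    omA o ρ = s • (gam u ρ 0 * gam u ρ 1 * gam u ρ 2 * gam u ρ 3) := by
  obtain ⟨s, h1, hs⟩ := frame_sq hv hu
  refine ⟨s, h1, ?_⟩
  have e : ∀ i j k l, gam u ρ i * gam u ρ j * gam u ρ k * gam u ρ l = ∑ a, ∑ b, ∑ c, ∑ d,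
      (u a i * u b j * u c k * u d l) • (ρ a * ρ b * ρ c * ρ d) := fun i j k l => by
    simp only [gam, mul_assoc]
    simp only [sum_mul_sum]
    simp only [mul_sum, smul_mul_smul_comm]
  have c : ∀ {κ : Type} [Fintype κ] (g : ι → ι → ι → ι → κ → 𝔸),
      ∑ a, ∑ b, ∑ c, ∑ d, ∑ i, g a b c d i = ∑ i, ∑ a, ∑ b, ∑ c, ∑ d, g a b c d i := by
    intro κ _ g
    symm
    rw [sum_comm]
    refine sum_congr rfl fun a _ => ?_
    rw [sum_comm]
    refine sum_congr rfl fun b _ => ?_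
    rw [sum_comm]
    exact sum_congr rfl fun c _ => sum_comm
  have e2 : ∑ a, ∑ b, ∑ c, ∑ d, o a b c d • (ρ a * ρ b * ρ c * ρ d) = s • ∑ i, ∑ j, ∑ k, ∑ l,
      (Ind95.eps i j k l : ℝ) • (gam u ρ i * gam u ρ j * gam u ρ k * gam u ρ l) := by
    simp only [hs, det_eps, e, mul_smul s, ← smul_sum (r := s)]
    congr 1
    simp only [sum_smul, smul_sum, smul_smul]
    rw [c]
    refine sum_congr rfl fun i _ => ?_
    rw [c]
    refine sum_congr rfl fun j _ => ?_
    rw [c]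
    refine sum_congr rfl fun k _ => ?_
    rw [c]
  rw [omA, e2, eps_sum (gam_anti h hu), smul_smul, smul_smul]
  congr 1; ring

theorem om_anti (hv : Vol P o) (h : Cl P p ρ) (e : ι) : omA o ρ * ρ e = -(ρ e * omA o ρ) := by
  obtain ⟨u, hu⟩ := exists_on hv.pr hv.tr
  obtain ⟨r, -, hs⟩ := om_frame hv h hu
  have s : ∀ i j, i ≠ j → ∀ x, gam u ρ i * (gam u ρ j * x) = -(gam u ρ j * (gam u ρ i * x)) :=
    fun i j hij x => by rw [← mul_assoc, gam_anti h hu i j hij, neg_mul, mul_assoc]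
  have a := gam_anti h hu
  have k : ∀ i, gam u ρ 0 * gam u ρ 1 * gam u ρ 2 * gam u ρ 3 * gam u ρ i
      = -(gam u ρ i * (gam u ρ 0 * gam u ρ 1 * gam u ρ 2 * gam u ρ 3)) := fun i => by
    fin_cases i <;>
    simp (decide := true) only [mul_assoc, s 1 0, s 2 0, s 3 0, s 2 1, s 3 1, s 3 2, a 1 0, a 2 0,
      a 3 0, a 2 1, a 3 1, a 3 2, ne_eq, not_false_eq_true, mul_neg, neg_neg, Fin.zero_eta,
      Fin.mk_one, Fin.reduceFinMk]
  rw [hs, rho_gam h hu e]
  simp only [mul_sum, sum_mul, mul_smul_comm, smul_mul_assoc, k, smul_neg, sum_neg_distrib,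
    smul_sum, smul_comm r]

theorem om_sq (hv : Vol P o) (h : Cl P p ρ) : omA o ρ * omA o ρ = p := by
  obtain ⟨u, hu⟩ := exists_on hv.pr hv.tr
  obtain ⟨s, h1, hs⟩ := om_frame hv h hu
  have s : ∀ i j, i ≠ j → ∀ x, gam u ρ i * (gam u ρ j * x) = -(gam u ρ j * (gam u ρ i * x)) :=
    fun i j hij x => by rw [← mul_assoc, gam_anti h hu i j hij, neg_mul, mul_assoc]
  have q : ∀ i x, gam u ρ i * (gam u ρ i * x) = -(p * x) := fun i x => by
    rw [← mul_assoc, gam_sq h hu, neg_mul]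
  have pg : ∀ i x, p * (gam u ρ i * x) = gam u ρ i * x := fun i x => by rw [← mul_assoc, p_gam h]
  have pp : p * p = p := by
    have := gam_sq h hu 0
    rw [← neg_inj, ← mul_neg, ← this, pg]
  rw [hs, smul_mul_smul_comm, h1, one_smul]
  simp (decide := true) only [mul_assoc, s 1 0, s 2 0, s 3 0, s 2 1, s 3 1, s 3 2, ne_eq,
    not_false_eq_true, mul_neg, neg_neg, q, pg, gam_sq h hu, pp]

theorem p_om (h : Cl P p ρ) : p * omA o ρ = omA o ρ := by
  simp only [omA, mul_smul_comm, mul_sum, ← mul_assoc, h.pl]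

theorem om_p (h : Cl P p ρ) : omA o ρ * p = omA o ρ := by
  simp only [omA, smul_mul_assoc, sum_mul, mul_assoc, h.pr]

theorem p_p (hv : Vol P o) (h : Cl P p ρ) : p * p = p := by
  conv_lhs => rw [← om_sq hv h, ← mul_assoc, om_sq hv h, p_om h, om_sq hv h]

theorem om_comm {T : 𝔸} (hT : ∀ a, T * ρ a = ρ a * T) : T * omA o ρ = omA o ρ * T := by
  have h4 : ∀ a b c d, T * (ρ a * ρ b * ρ c * ρ d) = ρ a * ρ b * ρ c * ρ d * T := fun a b c d => by
    simp only [← mul_assoc, hT]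
    simp only [mul_assoc, hT]
  simp only [omA, mul_sum, sum_mul, mul_smul_comm, smul_mul_assoc, h4]

theorem om_mul {T : 𝔸} (hT : ∀ a, T * ρ a = ρ a * T) (hTT : T * T = T) :
    omA o (fun a => ρ a * T) = omA o ρ * T := by
  have h4 : ∀ a b c d, ρ a * T * (ρ b * T) * (ρ c * T) * (ρ d * T) = ρ a * ρ b * ρ c * ρ d * T :=
    fun a b c d => by
    have h : ∀ a x, T * (ρ a * x) = ρ a * (T * x) := fun a x => by
      rw [← mul_assoc, hT, mul_assoc]
    have h' : ∀ x, T * (T * x) = T * x := fun x => by rw [← mul_assoc, hTT]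
    simp only [mul_assoc, h, hTT]
  simp only [omA, sum_mul, smul_mul_assoc, h4]

theorem om_neg : omA (fun a b c d => -o a b c d) ρ = -omA o ρ := by
  simp only [omA, neg_smul, sum_neg_distrib, smul_neg]

theorem spin_comm {T : 𝔸} (hT : ∀ a, T * ρ a = ρ a * T) (ω : ι → ι → ℝ) :
    T * spin ρ ω = spin ρ ω * T := by
  have h2 : ∀ a b, T * (ρ a * ρ b) = ρ a * ρ b * T := fun a b => by
    rw [← mul_assoc, hT, mul_assoc, hT, mul_assoc]
  simp only [spin, mul_sum, sum_mul, mul_smul_comm, smul_mul_assoc, h2]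

section tr
variable {tr : 𝔸 →ₗ[ℝ] ℝ} (ht : ∀ x y, tr (x * y) = tr (y * x))
include ht

theorem tr2 (h : Cl P p ρ) {T : 𝔸} (hT : ∀ a, T * ρ a = ρ a * T) (a b : ι) :
    tr (ρ a * ρ b * T) = -P a b * tr (p * T) := by
  have h1 : tr (ρ b * ρ a * T) = tr (ρ a * ρ b * T) := by
    rw [mul_assoc, ht, mul_assoc, hT, mul_assoc]
  have h2 := congrArg (fun X => tr (X * T)) (h.rel a b)
  simp only [add_mul, map_add, h1, smul_mul_assoc, map_smul, smul_eq_mul] at h2
  linarith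

theorem tr_spin {T : 𝔸} (hT : ∀ a, T * ρ a = ρ a * T) {ω : ι → ι → ℝ}
    (hs : ∀ m l, ω m l = -ω l m) : tr (spin ρ ω * T) = 0 := by
  have h1 : ∀ a b, tr (ρ b * ρ a * T) = tr (ρ a * ρ b * T) := fun a b => by
    rw [mul_assoc, ht, mul_assoc, hT, mul_assoc]
  have h2 : ∑ a, ∑ b, ω a b * tr (ρ a * ρ b * T) = -∑ a, ∑ b, ω a b * tr (ρ a * ρ b * T) := by
    conv_lhs => rw [sum_comm]
    simp only [← sum_neg_distrib]
    exact sum_congr rfl fun a _ => sum_congr rfl fun b _ => by rw [hs b a, h1 a b]; ring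
  simp only [spin, smul_mul_assoc, sum_mul, map_smul, map_sum, smul_eq_mul]
  linarith

theorem tr_spin_spin (h : Cl P p ρ) {T : 𝔸} (hT : ∀ a, T * ρ a = ρ a * T) {ω η : ι → ι → ℝ}
    (hs : ∀ m l, ω m l = -ω l m) (hs' : ∀ m l, η m l = -η l m)
    (hp : ∀ m c, ∑ l, η m l * P l c = η m c) (hP : Pr P) :
    tr (spin ρ ω * spin ρ η * T) = -(tr (p * T) / 8) * ∑ m, ∑ l, ω m l * η m l := by
  set S := spin ρ η with hS
  have h1 : ∀ m l, tr (ρ m * ρ l * S * T) = tr (ρ l * ρ m * S * T) - η m l * tr (p * T) := by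
    intro m l
    have e : ρ l * S = S * ρ l - ∑ k, η l k • ρ k := by rw [← h.spin_comm hs' hp l]; abel
    have e1 : tr (ρ m * (S * ρ l) * T) = tr (ρ l * ρ m * S * T) := by
      rw [mul_assoc, mul_assoc, ← hT, ← mul_assoc, ← mul_assoc, ht]
      simp only [mul_assoc]
    rw [mul_assoc (ρ m), e, mul_sub, sub_mul, map_sub, e1]
    simp only [mul_sum, sum_mul, mul_smul_comm, smul_mul_assoc, map_sum, map_smul, tr2 ht h hT,
      smul_eq_mul]
    simp only [← mul_assoc, ← sum_mul, mul_neg, sum_neg_distrib, hP.symm m, hp]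
    rw [hs' l m, neg_neg]
  have h2 : ∑ m, ∑ l, ω m l * tr (ρ l * ρ m * S * T) = -∑ m, ∑ l, ω m l * tr (ρ m * ρ l * S * T) := by
    conv_lhs => rw [sum_comm]
    simp only [← sum_neg_distrib]
    exact sum_congr rfl fun a _ => sum_congr rfl fun b _ => by rw [hs b a]; ring
  have h3 : ∑ m, ∑ l, ω m l * tr (ρ m * ρ l * S * T) = ∑ m, ∑ l, ω m l * tr (ρ l * ρ m * S * T)
      - tr (p * T) * ∑ m, ∑ l, ω m l * η m l := by
    simp only [mul_sum, ← sum_sub_distrib]
    exact sum_congr rfl fun a _ => sum_congr rfl fun b _ => by rw [h1 a b]; ring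
  rw [spin]
  simp only [smul_mul_assoc, sum_mul, map_smul, map_sum, smul_eq_mul]
  linarith

/-- the trace of a product of two curvature components `spin R + X` -/
theorem tr_curv (h : Cl P p ρ) (hP : Pr P) {T X Y : 𝔸} (hT : ∀ a, T * ρ a = ρ a * T)
    (hX : ∀ a, X * ρ a = ρ a * X) (hY : ∀ a, Y * ρ a = ρ a * Y) {ω η : ι → ι → ℝ}
    (hs : ∀ m l, ω m l = -ω l m) (hs' : ∀ m l, η m l = -η l m)
    (hp : ∀ m c, ∑ l, η m l * P l c = η m c) :
    tr (T * ((spin ρ ω + X) * (spin ρ η + Y)))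
      = -(tr (p * T) / 8) * ∑ m, ∑ l, ω m l * η m l + tr (T * (X * Y)) := by
  have c : ∀ {S S' : 𝔸}, (∀ a, S * ρ a = ρ a * S) → (∀ a, S' * ρ a = ρ a * S') →
      ∀ a, S * S' * ρ a = ρ a * (S * S') := fun h h' a => by
    rw [mul_assoc, h', ← mul_assoc, h, mul_assoc]
  have h1 : tr (T * (spin ρ ω * Y)) = 0 := by
    rw [ht, mul_assoc]; exact tr_spin ht (c hY hT) hs
  have h2 : tr (T * (X * spin ρ η)) = 0 := by
    rw [← mul_assoc, ht]; exact tr_spin ht (c hT hX) hs'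
  rw [add_mul, mul_add, mul_add, mul_add, mul_add, mul_add, map_add, map_add, map_add, h1, h2,
    ht T (spin ρ ω * _), tr_spin_spin ht h hT hs hs' hp hP]
  ring

end tr

end Crest.Agent.X212.Idg99
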