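import Crest.Agent.X212.Wz78.Hs
import Crest.Agent.X212.Map77.Sym
import Crest.Agent.X212.Ind95.Dn
import Crest.Agent.X212.Idg99.Tr

/-! Twisted connections on `Fm α X`: tensor products of matrices and endomorphisms. -/

set_option autoImplicit false
set_option linter.unusedSectionVars false
open scoped Manifold ContDiff Topology InnerProductSpace Kronecker Matrix
open Finset Filter

noncomputable section
namespace Crest.Agent.X212.Idg99
open An Wz78 Sob92 Ind95
open Map77 (pj ij tp tp_apply pj_apply fm_ext inner_fm)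

section lin
variable {α X : Type} [Fintype α] [NormedAddCommGroup X] [InnerProductSpace ℝ X]

/-- the tensor product of a matrix and an endomorphism -/
def ix : Matrix α α ℝ →ₗ[ℝ] (X →L[ℝ] X) →ₗ[ℝ] CL (Fm α X) (Fm α X) :=
  LinearMap.mk₂ ℝ (fun S T => idx S T)
    (fun S S' T => by ext v a; simp [idx, Matrix.add_apply, add_smul, sum_add_distrib])
    (fun r S T => by ext v a; simp [idx, Matrix.smul_apply, mul_smul, smul_sum])
    (fun S T T' => by ext v a; simp [idx, sum_add_distrib])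
    fun r S T => by ext v a; simp [idx, smul_sum, smul_comm r]

theorem ix_def (S : Matrix α α ℝ) (T : X →L[ℝ] X) : ix S T = idx S T := rfl

theorem ix_apply (S : Matrix α α ℝ) (T : X →L[ℝ] X) (v : Fm α X) (a : α) :
    ix S T v a = ∑ b, S a b • T (v b) := idx_apply S T v a

theorem ix_mul (S S' : Matrix α α ℝ) (T T' : X →L[ℝ] X) :
    ix S T * ix S' T' = ix (S * S') (T * T') :=
  ContinuousLinearMap.ext fun v => idx_idx S S' T T' v

theorem ix_one [DecidableEq α] : ix (1 : Matrix α α ℝ) (1 : X →L[ℝ] X) = 1 := by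
  ext v a; simp [ix_apply, Matrix.one_apply]

theorem ix_one_apply [DecidableEq α] (T : X →L[ℝ] X) (v : Fm α X) (a : α) :
    ix (1 : Matrix α α ℝ) T v a = T (v a) := by
  simp [ix_apply, Matrix.one_apply]

theorem inner_ix (S : Matrix α α ℝ) {T T' : X →L[ℝ] X} (h : ∀ v w, ⟪T v, w⟫_ℝ = ⟪v, T' w⟫_ℝ)
    (u v : Fm α X) : ⟪ix S T u, v⟫_ℝ = ⟪u, ix Sᵀ T' v⟫_ℝ := by
  simp only [inner_fm, ix_apply, sum_inner, inner_sum, real_inner_smul_left,
    real_inner_smul_right, h, Matrix.transpose_apply]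
  exact sum_comm

variable (X) in
/-- elementary matrices -/
def est (s t : α) : CL (X →L[ℝ] X) (CL (Fm α X) (Fm α X)) :=
  ((ContinuousLinearMap.compL ℝ (Fm α X) X (Fm α X)) (ij X s)).comp
    ((ContinuousLinearMap.compL ℝ (Fm α X) X X).flip (pj X t))

theorem est_apply (s t : α) (T : X →L[ℝ] X) : est X s t T = (ij X s).comp (T.comp (pj X t)) := rfl

theorem ij_apply [DecidableEq α] (s a : α) (v : X) : ij X s v a = if a = s then v else 0 := by
  simp only [ij, tp_apply]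
  split_ifs <;> rfl

theorem ix_eq (S : Matrix α α ℝ) (T : X →L[ℝ] X) : ix S T = ∑ s, ∑ t, S s t • est X s t T := by
  classical
  ext v a
  simp only [ix_apply, est_apply, _root_.sum_apply, WithLp.ofLp_sum, Finset.sum_apply,
    smul_apply, ContinuousLinearMap.comp_apply, pj_apply, PiLp.smul_apply, ij_apply, smul_ite,
    smul_zero]
  rw [sum_comm]
  simp

theorem trL_ix [FiniteDimensional ℝ X] (S : Matrix α α ℝ) (T : X →L[ℝ] X) :
    trL (ix S T) = S.trace * trL T := by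
  classical
  have h : ∀ s t : α, trL (est X s t T) = if t = s then trL T else 0 := fun s t => by
    rw [trL_apply, show ((est X s t T : CL (Fm α X) (Fm α X)) : Fm α X →ₗ[ℝ] Fm α X)
      = (ij X s : X →ₗ[ℝ] Fm α X) ∘ₗ ((T : X →ₗ[ℝ] X) ∘ₗ (pj X t : Fm α X →ₗ[ℝ] X)) from rfl,
      LinearMap.trace_comp_comm']
    split_ifs with h
    · subst h
      rw [trL_apply]
      congr 1
      ext v
      simp [ij_apply]
    · rw [← map_zero (LinearMap.trace ℝ X)]
      congr 1
      ext v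
      simp [ij_apply, h]
  simp [ix_eq, h, Matrix.trace, sum_mul]

end lin

variable {E H : Type*} [NormedAddCommGroup E] [NormedSpace ℝ E] [TopologicalSpace H]
  {I : ModelWithCorners ℝ E H} {M : Type*} [TopologicalSpace M] [ChartedSpace H M]
  {ι : Type*} [Fintype ι] [IsManifold I 1 M]
  {α β X : Type} [Fintype α] [Fintype β] [NormedAddCommGroup X] [InnerProductSpace ℝ X]

variable (I) in
/-- smooth matrix fields -/
def SM (S : M → Matrix α β ℝ) (x : M) : Prop := ∀ s t, SA I (fun y => S y s t) x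

variable (I) in
/-- derivative of a matrix field -/
def Dm (v : (x : M) → TangentSpace I x) (S : M → Matrix α β ℝ) (x : M) : Matrix α β ℝ :=
  Matrix.of fun s t => dv I v (fun y => S y s t) x

section mat
variable {v : (x : M) → TangentSpace I x} {x : M} {S T : M → Matrix α α ℝ}
  {U : M → Matrix β β ℝ}

theorem SM.const (A : Matrix α β ℝ) : SM I (fun _ => A) x := fun _ _ => contMDiffAt_const
theorem SM.add (h : SM I S x) (h' : SM I T x) : SM I (fun y => S y + T y) x :=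
  fun s t => (h s t).add (h' s t)
theorem SM.sub (h : SM I S x) (h' : SM I T x) : SM I (fun y => S y - T y) x :=
  fun s t => (h s t).sub (h' s t)
theorem SM.mul (h : SM I S x) (h' : SM I T x) : SM I (fun y => S y * T y) x :=
  fun s t => SA.sum _ fun u _ => (h s u).mul (h' u t)
theorem SM.tr (h : SM I S x) : SM I (fun y => (S y)ᵀ) x := fun s t => h t s
theorem SM.smul (r : ℝ) (h : SM I S x) : SM I (fun y => r • S y) x :=
  fun s t => SA.mul contMDiffAt_const (h s t)
theorem SM.kron (h : SM I S x) (h' : SM I U x) : SM I (fun y => S y ⊗ₖ U y) x :=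
  fun s t => (h s.1 t.1).mul (h' s.2 t.2)

theorem Dm_const (A : Matrix α β ℝ) : Dm I v (fun _ => A) x = 0 := by
  ext s t; simp [Dm]
theorem Dm_add (h : SM I S x) (h' : SM I T x) :
    Dm I v (fun y => S y + T y) x = Dm I v S x + Dm I v T x := by
  ext s t; exact dv_add' (h s t) (h' s t)
theorem Dm_sub (h : SM I S x) (h' : SM I T x) :
    Dm I v (fun y => S y - T y) x = Dm I v S x - Dm I v T x := by
  ext s t; exact dv_sub' (h s t) (h' s t)
theorem Dm_tr : Dm I v (fun y => (S y)ᵀ) x = (Dm I v S x)ᵀ := rfl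
theorem Dm_smul (r : ℝ) (h : SM I S x) : Dm I v (fun y => r • S y) x = r • Dm I v S x := by
  ext s t; exact dv_const_smul r (h s t).md
theorem Dm_mul (h : SM I S x) (h' : SM I T x) :
    Dm I v (fun y => S y * T y) x = Dm I v S x * T x + S x * Dm I v T x := by
  ext s t
  simp only [Dm, Matrix.mul_apply, Matrix.of_apply, Matrix.add_apply, ← sum_add_distrib]
  rw [dv_sum' _ fun u => (h s u).mul (h' u t)]
  exact sum_congr rfl fun u _ => dv_mul (h s u) (h' u t)
theorem Dm_kron (h : SM I S x) (h' : SM I U x) :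
    Dm I v (fun y => S y ⊗ₖ U y) x = Dm I v S x ⊗ₖ U x + S x ⊗ₖ Dm I v U x := by
  ext s t; exact dv_mul (h s.1 t.1) (h' s.2 t.2)

theorem SM.ix {q : M → X →L[ℝ] X} (h : SM I S x) (hq : SA I q x) :
    SA I (fun y => ix (S y) (q y)) x := by
  simp only [ix_eq]
  exact SA.sum _ fun s _ => SA.sum _ fun t _ => (h s t).smul (hq.clm _)

theorem dv_ix {q : M → X →L[ℝ] X} (h : SM I S x) (hq : SA I q x) :
    dv I v (fun y => ix (S y) (q y)) x = ix (Dm I v S x) (q x) + ix (S x) (dv I v q x) := by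
  simp only [ix_eq, ← sum_add_distrib]
  rw [dv_sum' _ fun s => SA.sum _ fun t _ => (h s t).smul (hq.clm _)]
  refine sum_congr rfl fun s _ => ?_
  rw [dv_sum' _ fun t => (h s t).smul (hq.clm _)]
  refine sum_congr rfl fun t _ => ?_
  rw [dv_smul (h s t).md (hq.clm _).md, dv_clm _ hq.md]; rfl

end mat

variable [DecidableEq α] [DecidableEq β]

/-- the twisted connection -/
def tA (Ω : ι → M → Matrix α α ℝ) (B : ι → M → X →L[ℝ] X) (a : ι) (y : M) :
    CL (Fm α X) (Fm α X) := ix (Ω a y) 1 + ix 1 (B a y)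

variable (I) in
/-- covariant derivative of a matrix field -/
def nm (e : ι → (x : M) → TangentSpace I x) (Ω : ι → M → Matrix α α ℝ) (a : ι)
    (S : M → Matrix α α ℝ) (x : M) : Matrix α α ℝ :=
  Dm I (e a) S x + (Ω a x * S x - S x * Ω a x)

variable (I) in
/-- curvature of a matrix connection -/
def cm (e : ι → (x : M) → TangentSpace I x) (c : ι → ι → ι → M → ℝ) (Ω : ι → M → Matrix α α ℝ)
    (a b : ι) (x : M) : Matrix α α ℝ :=
  Dm I (e a) (Ω b) x - Dm I (e b) (Ω a) x + (Ω a x * Ω b x - Ω b x * Ω a x) - ∑ k, c a b k x • Ω k x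

variable {e : ι → (x : M) → TangentSpace I x} {P : ι → ι → M → ℝ} {c : ι → ι → ι → M → ℝ}
  {Ω : ι → M → Matrix α α ℝ} {Θ : ι → M → Matrix β β ℝ} {B : ι → M → X →L[ℝ] X} {x : M}

theorem tA_apply (a : ι) (y : M) (v : Fm α X) (s : α) :
    tA Ω B a y v s = ∑ t, Ω a y s t • v t + B a y (v s) := by
  simp [tA, ix_apply, Matrix.one_apply]

theorem sa_tA {a : ι} (hΩ : SM I (Ω a) x) (hB : SA I (B a) x) : SA I (tA Ω B a) x :=
  (hΩ.ix contMDiffAt_const).add ((SM.const _).ix hB)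

theorem dv_tA {v : (x : M) → TangentSpace I x} {a : ι} (hΩ : SM I (Ω a) x) (hB : SA I (B a) x) :
    dv I v (tA Ω B a) x = ix (Dm I v (Ω a) x) 1 + ix 1 (dv I v (B a) x) := by
  have := dv_add' (e := v) (hΩ.ix (q := fun _ => (1 : X →L[ℝ] X)) contMDiffAt_const)
    ((SM.const (1 : Matrix α α ℝ)).ix hB)
  rw [dv_ix hΩ contMDiffAt_const, dv_ix (SM.const _) hB] at this
  refine this.trans ?_
  simp [Dm_const]

theorem curv_tA (hΩ : ∀ a, SM I (Ω a) x) (hB : ∀ a, SA I (B a) x) (a b : ι) :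
    curv I e c (tA Ω B) a b x = ix (cm I e c Ω a b x) 1 + ix 1 (curv I e c B a b x) := by
  simp only [curv, cm, dv_tA (hΩ _) (hB _), tA, add_mul, mul_add, ix_mul, map_add, map_sub,
    map_sum, map_smul, LinearMap.add_apply, LinearMap.sub_apply, LinearMap.sum_apply,
    LinearMap.smul_apply, mul_one, one_mul, smul_add, sum_add_distrib]
  abel

theorem nabE_tA {S : M → Matrix α α ℝ} {q : M → X →L[ℝ] X} (hS : SM I S x) (hq : SA I q x)
    (a : ι) : nabE I e (tA Ω B) a (fun y => ix (S y) (q y)) x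
      = ix (nm I e Ω a S x) (q x) + ix (S x) (nabE I e B a q x) := by
  simp only [nabE, nm, dv_ix hS hq, tA, add_mul, mul_add, ix_mul, map_add, map_sub,
    LinearMap.add_apply, LinearMap.sub_apply, mul_one, one_mul]
  abel

theorem con_tA (hΩ : ∀ a x, SM I (Ω a) x) (hp : ∀ a x, ∑ b, P a b x • Ω b x = Ω a x)
    (hB : Con I P B) : Con I P (tA Ω B) :=
  ⟨fun a x => sa_tA (hΩ a x) (hB.sm a x), fun a x => by
    simp only [tA, smul_add, sum_add_distrib, ← hp a x, ← hB.proj a x, map_sum, map_smul,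
      LinearMap.sum_apply, LinearMap.smul_apply]⟩

theorem skew_tA {a : ι} (hΩ : (Ω a x)ᵀ = -Ω a x) (hB : Skew (B a x)) : Skew (tA Ω B a x) := by
  intro u w
  rw [tA, add_apply, add_apply, inner_add_left, inner_add_right,
    inner_ix _ (T' := 1) (fun _ _ => rfl), inner_ix _ (T' := -B a x) (fun v w => by
      rw [hB, neg_apply, inner_neg_right]), hΩ, Matrix.transpose_one]
  simp only [map_neg, LinearMap.neg_apply, neg_apply, inner_neg_right, neg_add]

theorem cm_skew (hΩ : ∀ a y, (Ω a y)ᵀ = -Ω a y) (a b : ι) :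
    (cm I e c Ω a b x)ᵀ = -cm I e c Ω a b x := by
  have h : ∀ v a, (Dm I v (Ω a) x)ᵀ = -Dm I v (Ω a) x := fun v a => by
    ext s t
    have : (fun y => Ω a y t s) = -fun y => Ω a y s t :=
      _root_.funext fun y => congrFun (congrFun (hΩ a y) s) t
    simp only [Dm, Matrix.transpose_apply, Matrix.of_apply, Matrix.neg_apply, this, dv_neg]
  simp only [cm, Matrix.transpose_sub, Matrix.transpose_add, Matrix.transpose_mul, h, hΩ,
    Matrix.transpose_sum, Matrix.transpose_smul, smul_neg, sum_neg_distrib]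
  noncomm_ring

theorem trace_sym_skew {S R : Matrix α α ℝ} (hS : Sᵀ = S) (hR : Rᵀ = -R) : (S * R).trace = 0 := by
  have := Matrix.trace_transpose (S * R)
  rw [Matrix.transpose_mul, hS, hR, neg_mul, Matrix.trace_neg, Matrix.trace_mul_comm] at this
  linarith

/-- the product connection -/
def kr (Ω : ι → M → Matrix α α ℝ) (Θ : ι → M → Matrix β β ℝ) (a : ι) (y : M) :
    Matrix (α × β) (α × β) ℝ := Ω a y ⊗ₖ (1 : Matrix β β ℝ) + (1 : Matrix α α ℝ) ⊗ₖ Θ a y

theorem sm_kr {a : ι} (hΩ : SM I (Ω a) x) (hΘ : SM I (Θ a) x) : SM I (kr Ω Θ a) x :=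
  (hΩ.kron (SM.const _)).add ((SM.const _).kron hΘ)

theorem kron_sub_l (A A' : Matrix α α ℝ) (C : Matrix β β ℝ) :
    (A - A') ⊗ₖ C = A ⊗ₖ C - A' ⊗ₖ C := by ext s t; simp [sub_mul]
theorem kron_sub_r (A : Matrix α α ℝ) (C C' : Matrix β β ℝ) :
    A ⊗ₖ (C - C') = A ⊗ₖ C - A ⊗ₖ C' := by ext s t; simp [mul_sub]

theorem Dm_kr {v : (x : M) → TangentSpace I x} {a : ι} (hΩ : SM I (Ω a) x) (hΘ : SM I (Θ a) x) :
    Dm I v (kr Ω Θ a) x = Dm I v (Ω a) x ⊗ₖ (1 : Matrix β β ℝ)
      + (1 : Matrix α α ℝ) ⊗ₖ Dm I v (Θ a) x := by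
  have := Dm_add (v := v) (hΩ.kron (SM.const (1 : Matrix β β ℝ)))
    ((SM.const (1 : Matrix α α ℝ)).kron hΘ)
  rw [Dm_kron hΩ (SM.const _), Dm_kron (SM.const _) hΘ] at this
  refine this.trans ?_
  simp [Dm_const]

theorem cm_kr (hΩ : ∀ a, SM I (Ω a) x) (hΘ : ∀ a, SM I (Θ a) x) (a b : ι) :
    cm I e c (kr Ω Θ) a b x = cm I e c Ω a b x ⊗ₖ (1 : Matrix β β ℝ)
      + (1 : Matrix α α ℝ) ⊗ₖ cm I e c Θ a b x := by
  have h1 : (∑ k, c a b k x • Ω k x) ⊗ₖ (1 : Matrix β β ℝ)
      = ∑ k, c a b k x • Ω k x ⊗ₖ (1 : Matrix β β ℝ) := by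
    ext s t; simp [Matrix.sum_apply, sum_mul, mul_assoc]
  have h2 : (1 : Matrix α α ℝ) ⊗ₖ (∑ k, c a b k x • Θ k x)
      = ∑ k, c a b k x • (1 : Matrix α α ℝ) ⊗ₖ Θ k x := by
    ext s t; simp [Matrix.sum_apply, mul_sum, mul_left_comm]
  simp only [cm, Dm_kr (hΩ _) (hΘ _), kr, add_mul, mul_add, ← Matrix.mul_kronecker_mul, mul_one,
    one_mul, kron_sub_l, kron_sub_r, Matrix.add_kronecker, Matrix.kronecker_add, h1, h2, smul_add,
    sum_add_distrib]
  abel

theorem nm_kr {S : M → Matrix α α ℝ} {U : M → Matrix β β ℝ} (hS : SM I S x) (hU : SM I U x)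
    (a : ι) : nm I e (kr Ω Θ) a (fun y => S y ⊗ₖ U y) x
      = nm I e Ω a S x ⊗ₖ U x + S x ⊗ₖ nm I e Θ a U x := by
  simp only [nm, Dm_kron hS hU, kr, add_mul, mul_add, ← Matrix.mul_kronecker_mul, mul_one,
    one_mul, kron_sub_l, kron_sub_r, Matrix.add_kronecker, Matrix.kronecker_add]
  abel

theorem kr_skew {a : ι} (hΩ : (Ω a x)ᵀ = -Ω a x) (hΘ : (Θ a x)ᵀ = -Θ a x) :
    (kr Ω Θ a x)ᵀ = -kr Ω Θ a x := by
  ext s t
  have h1 := congrFun (congrFun hΩ s.1) t.1
  have h2 := congrFun (congrFun hΘ s.2) t.2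
  simp only [Matrix.transpose_apply, Matrix.neg_apply] at h1 h2
  simp only [kr, Matrix.transpose_apply, Matrix.neg_apply, Matrix.add_apply, h1, h2,
    Matrix.kroneckerMap_apply, Matrix.one_apply, eq_comm (a := t.1), eq_comm (a := t.2)]
  ring

theorem kr_proj (hΩ : ∀ a, ∑ b, P a b x • Ω b x = Ω a x) (hΘ : ∀ a, ∑ b, P a b x • Θ b x = Θ a x)
    (a : ι) : ∑ b, P a b x • kr Ω Θ b x = kr Ω Θ a x := by
  ext s t
  rw [kr, ← hΩ a, ← hΘ a]
  simp [kr, Matrix.sum_apply, sum_mul, mul_sum, mul_add, sum_add_distrib, mul_assoc, mul_left_comm]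

theorem nm_mul {S T : M → Matrix α α ℝ} (hS : SM I S x) (hT : SM I T x) (a : ι) :
    nm I e Ω a (fun y => S y * T y) x = nm I e Ω a S x * T x + S x * nm I e Ω a T x := by
  simp only [nm, Dm_mul hS hT]; noncomm_ring

theorem nm_add {S T : M → Matrix α α ℝ} (hS : SM I S x) (hT : SM I T x) (a : ι) :
    nm I e Ω a (fun y => S y + T y) x = nm I e Ω a S x + nm I e Ω a T x := by
  simp only [nm, Dm_add hS hT]; noncomm_ring

theorem nm_sub {S T : M → Matrix α α ℝ} (hS : SM I S x) (hT : SM I T x) (a : ι) :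
    nm I e Ω a (fun y => S y - T y) x = nm I e Ω a S x - nm I e Ω a T x := by
  simp only [nm, Dm_sub hS hT]; noncomm_ring

theorem nm_smul {S : M → Matrix α α ℝ} (r : ℝ) (hS : SM I S x) (a : ι) :
    nm I e Ω a (fun y => r • S y) x = r • nm I e Ω a S x := by
  simp only [nm, Dm_smul r hS, smul_add, smul_sub, Matrix.mul_smul, Matrix.smul_mul]

/-- the Chern-Weil density of matrices -/
def cwm (o : ι → ι → ι → ι → ℝ) (S : Matrix α α ℝ) (R : ι → ι → Matrix α α ℝ) : ℝ :=
  c4 o fun a b c d => (S * R a b * R c d).trace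

variable [FiniteDimensional ℝ X]

theorem cw_eq (o : ι → ι → ι → ι → ℝ) (T : X →L[ℝ] X) (F : ι → ι → X →L[ℝ] X) :
    cw o T F = c4 o fun a b c d => trL (T * F a b * F c d) := rfl

/-- the density of a twisted connection -/
theorem cw_ix {o : ι → ι → ι → ι → ℝ} (ho : ∀ a b c d, o a b c d = o c d a b) (S : Matrix α α ℝ)
    (q : X →L[ℝ] X) (R : ι → ι → Matrix α α ℝ) (K : ι → ι → X →L[ℝ] X) :
    cw o (ix S q) (fun a b => ix (R a b) 1 + ix 1 (K a b)) = cwm o S R * trL q
      + S.trace * cw o q K + 2 * c4 o fun a b c d => (S * R a b).trace * trL (q * K c d) := by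
  rw [two_mul]
  nth_rewrite 2 [← c4_swap ho]
  simp only [cw_eq, cwm, mul_add, add_mul, ix_mul, mul_one, map_add, trL_ix, c4_add, c4_mul]
  simp only [mul_comm _ (trL q), c4_mul]
  ring

theorem cw_ix_sym {o : ι → ι → ι → ι → ℝ} (ho : ∀ a b c d, o a b c d = o c d a b)
    {S : Matrix α α ℝ} (hS : Sᵀ = S) (q : X →L[ℝ] X) {R : ι → ι → Matrix α α ℝ}
    (hR : ∀ a b, (R a b)ᵀ = -R a b) (K : ι → ι → X →L[ℝ] X) :
    cw o (ix S q) (fun a b => ix (R a b) 1 + ix 1 (K a b))
      = cwm o S R * trL q + S.trace * cw o q K := by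
  rw [cw_ix ho]
  simp [trace_sym_skew hS (hR _ _), c4]

end Crest.Agent.X212.Idg99
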