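import Crest.Agent.X212.Map77.Cls
import Crest.Agent.X212.Idg99.Mat
import Crest.Agent.X212.Ind95.Pt

/-! Block calculus: sums of connections, parallel symbols, the Clifford module of a symbol. -/

set_option autoImplicit false
set_option linter.unusedSectionVars false
open scoped Manifold ContDiff Topology InnerProductSpace
open Finset Filter

noncomputable section
namespace Crest.Agent.X212.Idg99
open An Wz78 Sob92 Ind95 Map77
open Ell97 (inner_tr tr_inner)

section lin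
variable {U V W : Type} [NormedAddCommGroup U] [InnerProductSpace ℝ U]
  [NormedAddCommGroup V] [InnerProductSpace ℝ V] [NormedAddCommGroup W] [InnerProductSpace ℝ W]

theorem cext {S T : U →L[ℝ] P2 V W} (h1 : ∀ u, f2 V W (S u) = f2 V W (T u))
    (h2 : ∀ u, s2 V W (S u) = s2 V W (T u)) : S = T :=
  ContinuousLinearMap.ext fun u => ext2 (h1 u) (h2 u)

theorem sm2_mul (A A' : V →L[ℝ] V) (B B' : W →L[ℝ] W) :
    sm2 A B * sm2 A' B' = sm2 (A * A') (B * B') := cext (by simp) (by simp)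

theorem skew_sm2 {A : V →L[ℝ] V} {B : W →L[ℝ] W} (hA : Skew A) (hB : Skew B) : Skew (sm2 A B) :=
  fun u v => by simp only [inner2, f2_sm2, s2_sm2, hA _ _, hB _ _, neg_add]

variable [FiniteDimensional ℝ V] [FiniteDimensional ℝ W]

theorem trL_sm2 (A : V →L[ℝ] V) (B : W →L[ℝ] W) : trL (sm2 A B) = trL A + trL B := by
  rw [sm2, pr2, map_add]
  congr 1
  · exact LinearMap.trace_comp_comm' ((A ∘L f2 V W : P2 V W →L[ℝ] V) : P2 V W →ₗ[ℝ] V)
      (i1 V W : V →ₗ[ℝ] P2 V W)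
  · exact LinearMap.trace_comp_comm' ((B ∘L s2 V W : P2 V W →L[ℝ] W) : P2 V W →ₗ[ℝ] W)
      (i2 V W : W →ₗ[ℝ] P2 V W)

variable {ι : Type*} [Fintype ι]

theorem cw_sm2 (o : ι → ι → ι → ι → ℝ) (S : V →L[ℝ] V) (T : W →L[ℝ] W) (K : ι → ι → V →L[ℝ] V)
    (L : ι → ι → W →L[ℝ] W) :
    cw o (sm2 S T) (fun a b => sm2 (K a b) (L a b)) = cw o S K + cw o T L := by
  simp only [cw_eq, sm2_mul, trL_sm2, c4_add]

theorem dens_sm2 (o R : ι → ι → ι → ι → ℝ) (S : V →L[ℝ] V) (T : W →L[ℝ] W)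
    (K : ι → ι → V →L[ℝ] V) (L : ι → ι → W →L[ℝ] W) :
    dens o (sm2 S T) (fun a b => sm2 (K a b) (L a b)) R = dens o S K R + dens o T L R := by
  simp only [Ind95.dens, cw_sm2, trL_sm2]; ring

theorem dens_neg (o R : ι → ι → ι → ι → ℝ) (S : V →L[ℝ] V) (K : ι → ι → V →L[ℝ] V) :
    dens o (-S) K R = -dens o S K R := by
  simp only [Ind95.dens, cw_eq, neg_mul, map_neg, c4_neg]; ring

theorem dens_sub (o R : ι → ι → ι → ι → ℝ) (S T : V →L[ℝ] V) (K : ι → ι → V →L[ℝ] V) :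
    dens o (S - T) K R = dens o S K R - dens o T K R := by
  simp only [Ind95.dens, cw_eq, sub_mul, map_sub, c4_sub]; ring

theorem dens_add (o R : ι → ι → ι → ι → ℝ) (S T : V →L[ℝ] V) (K : ι → ι → V →L[ℝ] V) :
    dens o (S + T) K R = dens o S K R + dens o T K R := by
  simp only [Ind95.dens, cw_eq, add_mul, map_add, c4_add]; ring

theorem dens_smul (o R : ι → ι → ι → ι → ℝ) (r : ℝ) (S : V →L[ℝ] V) (K : ι → ι → V →L[ℝ] V) :
    dens o (r • S) K R = r * dens o S K R := by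
  simp only [Ind95.dens, cw_eq, smul_mul_assoc, map_smul, smul_eq_mul, c4_mul]; ring

/-- a symbol as a skew endomorphism of the sum -/
def clf : (V →L[ℝ] W) →L[ℝ] P2 V W →L[ℝ] P2 V W :=
  (ContinuousLinearMap.compL ℝ (P2 V W) V (P2 V W) (-i1 V W)).comp
      (((ContinuousLinearMap.compL ℝ (P2 V W) W V).flip (s2 V W)).comp (Ell97.trL V W))
    + (ContinuousLinearMap.compL ℝ (P2 V W) W (P2 V W) (i2 V W)).comp
      ((ContinuousLinearMap.compL ℝ (P2 V W) V W).flip (f2 V W))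

@[simp] theorem f2_clf (σ : V →L[ℝ] W) (u : P2 V W) :
    f2 V W (clf σ u) = -Op.tr σ (s2 V W u) := by simp [clf, Ell97.trL_apply]

@[simp] theorem s2_clf (σ : V →L[ℝ] W) (u : P2 V W) : s2 V W (clf σ u) = σ (f2 V W u) := by
  simp [clf]

theorem clf_i1 (σ : V →L[ℝ] W) (v : V) : clf σ (i1 V W v) = i2 V W (σ v) := ext2 (by simp) (by simp)

theorem clf_i2 (σ : V →L[ℝ] W) (w : W) : clf σ (i2 V W w) = -i1 V W (Op.tr σ w) :=
  ext2 (by simp) (by simp)

theorem skew_clf (σ : V →L[ℝ] W) : Skew (clf σ) := fun u v => by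
  simp only [inner2, f2_clf, s2_clf, inner_neg_left, inner_neg_right, inner_tr, tr_inner]; ring

theorem tr_skew {A : V →L[ℝ] V} {B : W →L[ℝ] W} (hA : Skew A) (hB : Skew B) (σ : V →L[ℝ] W) :
    clf (B ∘L σ - σ ∘L A) = sm2 A B * clf σ - clf σ * sm2 A B := by
  refine cext (fun u => ext_inner_left ℝ fun v => ?_) (by simp)
  have h := hA v (Op.tr σ (s2 V W u))
  simp only [f2_clf, sub_apply, mul_apply_eq_comp, map_sub, f2_sm2, s2_sm2, inner_neg_right,
    inner_sub_right, inner_sub_left, inner_tr, ContinuousLinearMap.comp_apply, map_neg,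
    hB (σ v)] at h ⊢
  linarith

end lin

variable {E H : Type*} [NormedAddCommGroup E] [NormedSpace ℝ E] [TopologicalSpace H]
  {I : ModelWithCorners ℝ E H} {M : Type*} [TopologicalSpace M] [ChartedSpace H M]
  {ι : Type*} [Fintype ι] [IsManifold I 1 M]
  {U V W : Type} [NormedAddCommGroup U] [InnerProductSpace ℝ U]
  [NormedAddCommGroup V] [InnerProductSpace ℝ V] [NormedAddCommGroup W] [InnerProductSpace ℝ W]
  {e : ι → (x : M) → TangentSpace I x} {P : ι → ι → M → ℝ} {c Γ : ι → ι → ι → M → ℝ} {x : M}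

section dv
variable {v : (x : M) → TangentSpace I x}

theorem sa_comp {S : M → V →L[ℝ] W} {T : M → U →L[ℝ] V} (hS : SA I S x) (hT : SA I T x) :
    SA I (fun y => S y ∘L T y) x := hS.clm_comp hT

theorem dv_compL {S : M → V →L[ℝ] W} {T : M → U →L[ℝ] V} (hS : SA I S x) (hT : SA I T x) :
    dv I v (fun y => S y ∘L T y) x = dv I v S x ∘L T x + S x ∘L dv I v T x :=
  dv_bil (ContinuousLinearMap.compL ℝ U V W) hS.md hT.md

theorem dv_compR {S : M → V →L[ℝ] W} (T : U →L[ℝ] V) (hS : SA I S x) :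
    dv I v (fun y => S y ∘L T) x = dv I v S x ∘L T :=
  dv_clm ((ContinuousLinearMap.compL ℝ U V W).flip T) hS.md

theorem sa_pr2 {S : M → U →L[ℝ] V} {T : M → U →L[ℝ] W} (hS : SA I S x) (hT : SA I T x) :
    SA I (fun y => pr2 (S y) (T y)) x :=
  (sa_comp contMDiffAt_const hS).add (sa_comp contMDiffAt_const hT)

theorem dv_pr2 {S : M → U →L[ℝ] V} {T : M → U →L[ℝ] W} (hS : SA I S x) (hT : SA I T x) :
    dv I v (fun y => pr2 (S y) (T y)) x = pr2 (dv I v S x) (dv I v T x) := by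
  refine (dv_add' (sa_comp contMDiffAt_const hS) (sa_comp contMDiffAt_const hT)).trans ?_
  rw [dv_compL contMDiffAt_const hS, dv_compL contMDiffAt_const hT]
  simp [pr2]

theorem sa_sm2 {S : M → V →L[ℝ] V} {T : M → W →L[ℝ] W} (hS : SA I S x) (hT : SA I T x) :
    SA I (fun y => sm2 (S y) (T y)) x :=
  sa_pr2 (sa_comp hS contMDiffAt_const) (sa_comp hT contMDiffAt_const)

theorem dv_sm2 {S : M → V →L[ℝ] V} {T : M → W →L[ℝ] W} (hS : SA I S x) (hT : SA I T x) :
    dv I v (fun y => sm2 (S y) (T y)) x = sm2 (dv I v S x) (dv I v T x) := by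
  refine (dv_pr2 (sa_comp hS contMDiffAt_const) (sa_comp hT contMDiffAt_const)).trans ?_
  rw [dv_compR _ hS, dv_compR _ hT]; rfl

end dv

/-- the sum of two connections -/
def sA (A : ι → M → V →L[ℝ] V) (B : ι → M → W →L[ℝ] W) (a : ι) (y : M) : P2 V W →L[ℝ] P2 V W :=
  sm2 (A a y) (B a y)

variable {A : ι → M → V →L[ℝ] V} {B : ι → M → W →L[ℝ] W} {C : ι → M → U →L[ℝ] U}

theorem con_sA (hA : Con I P A) (hB : Con I P B) : Con I P (sA A B) :=
  ⟨fun a x => sa_sm2 (hA.sm a x) (hB.sm a x), fun a x =>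
    cext (by simp [sA, ← hA.proj a x]) (by simp [sA, ← hB.proj a x])⟩

theorem curv_sA (hA : ∀ a, SA I (A a) x) (hB : ∀ a, SA I (B a) x) (a b : ι) :
    curv I e c (sA A B) a b x = sm2 (curv I e c A a b x) (curv I e c B a b x) := by
  have h : ∀ a b, dv I (e a) (sA A B b) x = _ := fun a b => dv_sm2 (hA b) (hB b)
  refine cext ?_ ?_ <;> simp [curv, h, sA]

theorem nabE_sA {S : M → V →L[ℝ] V} {T : M → W →L[ℝ] W} (hS : SA I S x) (hT : SA I T x) (a : ι) :
    nabE I e (sA A B) a (fun y => sm2 (S y) (T y)) x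
      = sm2 (nabE I e A a S x) (nabE I e B a T x) := by
  refine cext ?_ ?_ <;> simp [nabE, dv_sm2 hS hT, sA]

theorem par_sA {S : M → V →L[ℝ] V} {T : M → W →L[ℝ] W} (hS : SA I S x) (hT : SA I T x) {a : ι}
    (h1 : nabE I e A a S x = 0) (h2 : nabE I e B a T x = 0) :
    nabE I e (sA A B) a (fun y => sm2 (S y) (T y)) x = 0 := by
  rw [nabE_sA hS hT, h1, h2]; exact cext (by simp) (by simp)

variable (I e Γ) in
/-- a smooth parallel symbol -/
structure ParS (σ : ι → M → V →L[ℝ] W) (A : ι → M → V →L[ℝ] V) (B : ι → M → W →L[ℝ] W) : Prop where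
  sm : ∀ a x, SA I (σ a) x
  par : ∀ a b x, dv I (e a) (σ b) x + (B a x ∘L σ b x - σ b x ∘L A a x) = ∑ k, Γ a b k x • σ k x

variable {σ : ι → M → V →L[ℝ] W}

theorem ParS.pr2 {τ : ι → M → V →L[ℝ] U} (h : ParS I e Γ σ A B) (h' : ParS I e Γ τ A C) :
    ParS I e Γ (fun a x => pr2 (σ a x) (τ a x)) A (sA B C) :=
  ⟨fun a x => sa_pr2 (h.sm a x) (h'.sm a x), fun a b x => by
    rw [dv_pr2 (h.sm b x) (h'.sm b x)]
    refine cext (fun u => ?_) fun u => ?_
    · simpa [sA] using DFunLike.congr_fun (h.par a b x) u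
    · simpa [sA] using DFunLike.congr_fun (h'.par a b x) u⟩

theorem ParS.fst (h : ParS I e Γ σ A B) :
    ParS I e Γ (fun a x => σ a x ∘L f2 V U) (sA A C) B :=
  ⟨fun a x => sa_comp (h.sm a x) contMDiffAt_const, fun a b x => by
    rw [dv_compR _ (h.sm b x)]
    ext1 u
    simpa [sA] using DFunLike.congr_fun (h.par a b x) (f2 V U u)⟩

theorem ParS.snd (h : ParS I e Γ σ A B) :
    ParS I e Γ (fun a x => σ a x ∘L s2 U V) (sA C A) B :=
  ⟨fun a x => sa_comp (h.sm a x) contMDiffAt_const, fun a b x => by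
    rw [dv_compR _ (h.sm b x)]
    ext1 u
    simpa [sA] using DFunLike.congr_fun (h.par a b x) (s2 U V u)⟩

/-- composition with parallel endomorphisms -/
theorem ParS.comp (h : ParS I e Γ σ A B) {S : M → V →L[ℝ] V} {T : M → W →L[ℝ] W}
    (hS : ∀ x, SA I S x) (hT : ∀ x, SA I T x) (h1 : ∀ a x, nabE I e A a S x = 0)
    (h2 : ∀ a x, nabE I e B a T x = 0) : ParS I e Γ (fun a x => T x ∘L σ a x ∘L S x) A B :=
  ⟨fun a x => sa_comp (hT x) (sa_comp (h.sm a x) (hS x)), fun a b x => by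
    rw [dv_compL (hT x) (sa_comp (h.sm b x) (hS x)), dv_compL (h.sm b x) (hS x),
      eq_neg_of_add_eq_zero_left (h1 a x), eq_neg_of_add_eq_zero_left (h2 a x),
      eq_sub_of_add_eq (h.par a b x)]
    ext1 u
    simp
    abel⟩

theorem ParS.clf [FiniteDimensional ℝ V] [FiniteDimensional ℝ W] (h : ParS I e Γ σ A B)
    (hA : ∀ a x, Skew (A a x)) (hB : ∀ a x, Skew (B a x)) (a b : ι) (x : M) :
    nabE I e (sA A B) a (fun y => clf (σ b y)) x = ∑ k, Γ a b k x • clf (σ k x) := by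
  rw [nabE, dv_clm _ (h.sm b x).md, sA, ← tr_skew (hA a x) (hB a x), ← map_add, h.par, map_sum]
  simp only [map_smul]

end Crest.Agent.X212.Idg99
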