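import Crest.Agent.X212.Idg99.Chr
import Crest.Agent.X212.Abel74.Iso

/-! Integrality for reductions over a clopen set. -/

set_option autoImplicit false
set_option linter.unusedSectionVars false
open scoped Manifold ContDiff Topology InnerProductSpace
open Finset Filter MeasureTheory Module

noncomputable section
namespace Crest.Agent.X212.Idg99
open An Wz78 Sob92 Ind95 Map77
open Num57 (OK)
open Abel74 (RedOn hf fF hf_hf hf_sym p_hf rho_hf J_hf)

variable {E : Type} [NormedAddCommGroup E] [NormedSpace ℝ E] [FiniteDimensional ℝ E]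
  [MeasurableSpace E] [BorelSpace E]
  {HM : Type} [TopologicalSpace HM] {I : ModelWithCorners ℝ E HM}
  {M : Type} [TopologicalSpace M] [ChartedSpace HM M] [IsManifold I ∞ M]
  [MeasurableSpace M] {ι : Type} [Fintype ι]
  {Y : Type} [NormedAddCommGroup Y] [InnerProductSpace ℝ Y] [FiniteDimensional ℝ Y]
  {O : Set M} {x : M} {l : M → Y →L[ℝ] Y} {il : Y →L[ℝ] Y} {A : ι → M → Y →L[ℝ] Y}
  {f : ι → ι → M → ℝ} {lam : Type} [Fintype lam] {m : Md M ι lam} {B : Base M ι lam}
  {G : Geo I M ι lam} {V : m.Cn} {ξ : M → m.A}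

theorem Sub.of_on {F : Fr I M ι} {T : M → Y →L[ℝ] Y} (hc : Con I F.P A) (hk : ∀ a x, Skew (A a x))
    (hO : IsClopen O) (hs : ∀ x ∈ O, SA I T x) (hp : ∀ x ∈ O, ∀ a, nabE I F.e A a T x = 0) :
    Sub F (O.indicator T) A := by
  have k1 : ∀ x ∈ O, O.indicator T =ᶠ[𝓝 x] T := fun x hx =>
    mem_of_superset (hO.2.mem_nhds hx) fun _ hy => Set.indicator_of_mem hy T
  have k2 : ∀ x ∉ O, O.indicator T =ᶠ[𝓝 x] fun _ => 0 := fun x hx =>
    mem_of_superset (hO.1.isOpen_compl.mem_nhds hx) fun _ hy => Set.indicator_of_notMem hy T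
  refine ⟨hc, hk, fun x => ?_, fun a x => ?_⟩ <;> by_cases hx : x ∈ O
  · exact (hs x hx).congr_of_eventuallyEq (k1 x hx)
  · exact contMDiffAt_const.congr_of_eventuallyEq (k2 x hx)
  · rw [nabE_congr a (k1 x hx), hp x hx]
  · rw [nabE_congr a (k2 x hx)]; simp [nabE]

variable (hB : B.OK I) (hG : G.OK B) (H : m.OK I B) (C : m.IsConn B G V)
include hB H

theorem tr_Jg {η : m.A} (k : η ∈ m.gS x) : trE (m.J * opL η) = 0 := by
  have := congrArg (fun ζ => ⟪η, ζ⟫_ℝ) (pg_Jp (x := x) hB H)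
  simp only [inner_zero_right, ← inner_pg, pg_of_mem k, inner_skw (g_skw k), ← mul_assoc,
    neg_eq_zero] at this
  rwa [trE_comm, ← mul_assoc, g_p k, trE_comm] at this

theorem trL_hf' {η : m.A} (k : η ∈ m.gS x) : trL (hf m x η) = 8 := by
  rw [trL_apply, ← trE_eq, hf, map_smul, map_sub, tr_Jg hB H k, Abel74.tr_p H]; norm_num

variable [T2Space M] [BorelSpace M] [SecondCountableTopology M] [I.Boundaryless]
include hG C

theorem kf_pt (k : ξ x ∈ m.gS x) {s : M → En (Fin m.N)} (hs : s x = hf m x (ξ x)) (a b : ι) :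
    kf G.F s V m.J a b x = fl B G a b x + 2 * fF G.F m V ξ a b x := by
  have t : ∀ T : En (Fin m.N), trL T = trE T := fun T => (trE_eq T).symm
  have k' := Fg_mem (W := V) (x := x) G.F (a, b)
  have hp : hf m x (ξ x) * m.p x = hf m x (ξ x) := by
    rw [← Abel74.hf_comm H k rfl (H.Jp x).symm (by rw [g_p k, g_p' H k]), p_hf H k]
  have h1 := tr_spin trL_comm (T := m.J * hf m x (ξ x)) (ρ := fun a => m.ρ a x) (fun a => by
    rw [mul_assoc, ← rho_hf H k, ← mul_assoc, H.Jρ, mul_assoc])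
    ((lc_gam G.F).Rm_s34 (frm G.F) a b · · x)
  have h2 := congrArg (fun T => trL (m.J * hf m x (ξ x) * T)) (tw_eq hB hG H C a b x)
  have h3 : m.J * hf m x (ξ x) * (m.J * m.p x) = -hf m x (ξ x) := by
    rw [mul_assoc, ← mul_assoc _ m.J, ← J_hf H k, ← mul_assoc, ← mul_assoc, H.Jsq, neg_one_mul,
      neg_mul, hp]
  have h4 : trL (m.J * hf m x (ξ x) * opL (m.Fg G.F V x (a, b)))
      = -8 * fF G.F m V ξ a b x := by
    rw [fF, real_inner_comm, ← hsL_opL (m.Fg G.F V x (a, b)), inner_skw (g_skw k), opL_hsL]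
    simp only [hf, mul_smul_comm, smul_mul_assoc, mul_sub, sub_mul, ← mul_assoc, H.Jsq, t, map_smul,
      map_sub, neg_mul, one_mul, map_neg, smul_eq_mul]
    rw [mul_assoc, g_p k', tr_Jg hB H k']
    ring
  simp only [tw, mul_sub, mul_add, mul_smul_comm, map_sub, map_add, map_smul, h3, h4, map_neg,
    trL_hf' hB H k, trL_comm _ (spin _ _), h1, C.cc.curv_p (gfrm hG), smul_eq_mul] at h2
  rw [← mul_assoc, mul_assoc m.J, hp] at h2
  rw [kf, hs]
  linarith

variable (h4 : finrank ℝ E = 4) (hO : IsClopen O) (R : RedOn G.F m V O ξ)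
include h4 hO R

theorem cm_on : Cm G.F (O.indicator fun x => hf m x (ξ x))
    (fun a x => m.ρ a x * O.indicator (fun x => hf m x (ξ x)) x) V m.J := by
  have s := fun x hx => SA.clm opL (R.sm x hx)
  have s1 := fun x hx => SA.mul (contMDiffAt_const (c := m.J)) (s x hx)
  refine (cm_md hG H C).sub (OK.of_base h4 hB hG) (Sub.of_on (hG.P ▸ C.cc.toCon) C.sk hO
    (fun x hx => SA.smul contMDiffAt_const ((H.sp x).sub (s1 x hx))) fun x hx a => ?_)
    ⟨fun x v => ?_, fun x v w => ?_⟩ (fun x => ?_) (fun a x => ?_) fun x => ?_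
  · simp only [hf]
    rw [nabE_smul a contMDiffAt_const ((H.sp x).sub (s1 x hx)), nabE_sub a (H.sp x) (s1 x hx),
      nabE_mul a contMDiffAt_const (s x hx), nabE_J C, opL_nab a (R.sm x hx), R.par x hx,
      show nabE I G.F.e V a m.p x = 0 from C.cc.par a x]
    simp
  all_goals by_cases hx : x ∈ O
  all_goals simp only [hx, Set.indicator_of_mem, Set.indicator_of_notMem, not_false_eq_true,
    zero_apply, inner_zero_left, inner_zero_right, mul_zero, zero_mul]
  exacts [DFunLike.congr_fun (hf_hf H (R.mem x hx) (R.sq x hx)) v, hf_sym H (R.mem x hx) v w,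
    p_hf H (R.mem x hx), (rho_hf H (R.mem x hx) a).symm, J_hf H (R.mem x hx)]

variable [CompactSpace M]

theorem num_on : ∃ n : ℤ, ∫ x in O, (wf B.o (fun a b x => fl B G a b x + 2 * fF G.F m V ξ a b x)
    (fun a b x => fl B G a b x + 2 * fF G.F m V ξ a b x) x / (64 * Real.pi ^ 2)
      - sgd G.F B.o x / 4) ∂G.F.μ = 2 * (n : ℝ) := by
  refine ((cm_on hB hG H C h4 hO R).num8 (OK.of_base h4 hB hG) hO fun x hx => by
    rw [Set.indicator_of_mem hx, trL_hf' hB H (R.mem x hx)]).imp fun n hn =>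
      (setIntegral_congr_fun hO.2.measurableSet fun x hx => ?_).trans hn
  simp only [wf, kf_pt hB hG H C (R.mem x hx) (Set.indicator_of_mem hx fun x => hf m x (ξ x))]

variable (L : Li G.F l il A f)
include L

/-- **`Λ + 2 ξ` is characteristic** -/
theorem char_on : ∃ n : ℤ, ∫ x in O, (wf B.o f f x + wf B.o f
    (fun a b x => fl B G a b x + 2 * fF G.F m V ξ a b x) x) / (16 * Real.pi ^ 2) ∂G.F.μ
      = 2 * (n : ℝ) := by
  refine ((cm_on hB hG H C h4 hO R).char (OK.of_base h4 hB hG) hO (fun x hx => by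
    rw [Set.indicator_of_mem hx, trL_hf' hB H (R.mem x hx)]) L).imp fun n hn =>
      (setIntegral_congr_fun hO.2.measurableSet fun x hx => ?_).trans hn
  simp only [wf, kf_pt hB hG H C (R.mem x hx) (Set.indicator_of_mem hx fun x => hf m x (ξ x))]

theorem sq_on : ∃ n : ℤ, ∫ x in O, wf B.o f f x / (16 * Real.pi ^ 2) ∂G.F.μ = (n : ℝ) :=
  (cm_on hB hG H C h4 hO R).sq_int (OK.of_base h4 hB hG) hO (fun x hx => by
    rw [Set.indicator_of_mem hx, trL_hf' hB H (R.mem x hx)]) L

end Crest.Agent.X212.Idg99
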