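import Crest.Agent.X212.Idg99.Blk
import Crest.Agent.X212.Ind95.Main
import Crest.Agent.X212.Ell97.Main
import Crest.Agent.X212.Num57.Hop
import Crest.Agent.X212.Wz78.Kos

/-! The index theorem for operators of Dirac type between two bundles. -/

set_option autoImplicit false
set_option linter.unusedSectionVars false
open scoped Manifold ContDiff Topology InnerProductSpace
open Finset Filter MeasureTheory Module

noncomputable section
namespace Crest.Agent.X212.Idg99
open An Wz78 Sob92 Ind95 Map77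
open Ell97 (inner_tr tr_inner kerS)
open Num57 (OK)

variable {E : Type} [NormedAddCommGroup E] [NormedSpace ℝ E] [FiniteDimensional ℝ E]
  [MeasurableSpace E] [BorelSpace E]
  {HM : Type} [TopologicalSpace HM] {I : ModelWithCorners ℝ E HM}
  {M : Type} [TopologicalSpace M] [ChartedSpace HM M] [IsManifold I ∞ M]
  [MeasurableSpace M] {ι : Type} [Fintype ι]
  {V W : Type} [NormedAddCommGroup V] [InnerProductSpace ℝ V] [FiniteDimensional ℝ V]
  [NormedAddCommGroup W] [InnerProductSpace ℝ W] [FiniteDimensional ℝ W]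
  [T2Space M] [BorelSpace M] [SecondCountableTopology M]

theorem ori_of {P : ι → ι → ℝ} {o : ι → ι → ι → ι → ℝ} (h : Vol P o) : Ori P o :=
  ⟨h.pr, h.tr, h.a1, h.a2, h.a3, h.po, h.nm⟩

/-- the difference of the dimensions of the smooth kernels -/
def ind (F : Fr I M ι) (A : Op M ι V W) : ℤ :=
  (finrank ℝ (kerS F A) : ℤ) - finrank ℝ (kerS F (A.adj F))

/-- the curvature tensor of the frame -/
abbrev RR (F : Fr I M ι) (x : M) : ι → ι → ι → ι → ℝ := fun a b k l => Rm I F.e F.c F.Gam a b k l x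

/-- the index density with the weight `T` -/
def dn (F : Fr I M ι) (o : ι → ι → ι → ι → M → ℝ) (T : M → V →L[ℝ] V) (A : ι → M → V →L[ℝ] V)
    (x : M) : ℝ :=
  Ind95.dens (fun a b c d => o a b c d x) (T x) (fun a b => curv I F.e F.c A a b x) (RR F x)

/-- an operator of Dirac type whose symbol is parallel for the connections `A₁`, `A₂` -/
structure Pa (F : Fr I M ι) (A : Op M ι V W) (A₁ : ι → M → V →L[ℝ] V) (A₂ : ι → M → W →L[ℝ] W) :
    Prop where
  good : ∃ C, A.Good F C
  cl : A.Cliff F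
  c1 : Con I F.P A₁
  c2 : Con I F.P A₂
  k1 : ∀ a x, Skew (A₁ a x)
  k2 : ∀ a x, Skew (A₂ a x)
  pp : ∀ a x, nabE I F.e A₁ a A.p x = 0
  pq : ∀ a x, nabE I F.e A₂ a A.q x = 0
  par : ParS I F.e F.Gam A.σ A₁ A₂

variable {F : Fr I M ι} {A : Op M ι V W} {A₁ : ι → M → V →L[ℝ] V} {A₂ : ι → M → W →L[ℝ] W}
  {o : ι → ι → ι → ι → M → ℝ}

theorem p_tr (h : Alg F.P A) (a : ι) (x : M) (w : W) :
    A.p x (Op.tr (A.σ a x) w) = Op.tr (A.σ a x) w := by
  simpa [Op.adj] using (h.adj F).qσ a x w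

theorem tr_q (h : Alg F.P A) (a : ι) (x : M) (w : W) :
    Op.tr (A.σ a x) (A.q x w) = Op.tr (A.σ a x) w := by
  simpa [Op.adj] using (h.adj F).σp a x w

theorem cl_clf (h : Alg F.P A) (hc : A.Cliff F) (x : M) :
    Cl (fun a b => F.P a b x) (ps A.p A.q x) fun a => clf (A.σ a x) where
  rel a b := cext (fun u => ext_inner_left ℝ fun v => by
      have := hc.1 a b x v (f2 V W u)
      simp only [add_apply, mul_apply_eq_comp, map_add, f2_clf, s2_clf, smul_apply, map_smul,
        f2_ps, inner_add_right, inner_neg_right, inner_tr, real_inner_smul_right, ← h.p.symm]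
      linarith)
    fun u => ext_inner_left ℝ fun w => by
      have := hc.2 a b x w (s2 V W u)
      simp only [Op.adj, neg_apply, inner_neg_neg, tr_inner] at this
      simp only [add_apply, mul_apply_eq_comp, map_add, f2_clf, s2_clf, smul_apply, map_smul,
        s2_ps, inner_add_right, inner_neg_right, map_neg, real_inner_smul_right, ← h.q.symm]
      linarith
  pl a := cext (by simp [p_tr h]) (by simp [h.qσ])
  pr a := cext (by simp [tr_q h]) (by simp [h.σp])
  proj a := by simp only [← map_smul, ← map_sum, h.Pσ]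

namespace Pa
variable (D : Pa F A A₁ A₂)
include D

theorem alg : Alg F.P A := Alg.of_good D.good.choose_spec
theorem sp : An.Sm I A.p := D.good.choose_spec.p.cb.1
theorem sq : An.Sm I A.q := D.good.choose_spec.q.cb.1

theorem dm [I.Boundaryless] (h : OK F o) :
    Ind95.Dm F F.Gam (ps A.p A.q) (fun a x => clf (A.σ a x)) (sA A₁ A₂) where
  dim := h.h4
  vol := h.isv
  riem := riem_of_vol h.isv
  lc := lc_gam F
  cc :=
    { toCon := con_sA D.c1 D.c2
      sp := fun x => sa_sm2 (D.sp x) (D.sq x)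
      sρ := fun a x => (D.par.sm a x).clm _
      cl := cl_clf D.alg D.cl
      par := fun a x => par_sA (D.sp x) (D.sq x) (D.pp a x) (D.pq a x)
      comp := D.par.clf D.k1 D.k2 }
  skA a x := skew_sm2 (D.k1 a x) (D.k2 a x)
  skρ _ _ := skew_clf _

theorem gr : Gr F (ps A.p A.q) (fun a x => clf (A.σ a x)) (sA A₁ A₂) (ps A.p 0) (ps 0 A.q) where
  s0 x := sa_sm2 (D.sp x) contMDiffAt_const
  sym0 x v w := by simp only [inner2, f2_ps, s2_ps, D.alg.p.symm]; simp
  sym1 x v w := by simp only [inner2, f2_ps, s2_ps, D.alg.q.symm]; simp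
  id0 x := cext (by simp [D.alg.p.idem]) (by simp)
  id1 x := cext (by simp) (by simp [D.alg.q.idem])
  add x := cext (by simp) (by simp)
  o01 x := cext (by simp) (by simp)
  sw a x := cext (by simp) (by simp [D.alg.σp, D.alg.qσ])
  par0 a x := par_sA (T := fun _ => 0) (D.sp x) contMDiffAt_const (D.pp a x) (by simp [nabE])

omit D in
variable (A A₁) in
/-- the operator `∑ σ_a ∇_a` -/
def op0 : Op M ι V W := ⟨A.p, A.q, A.σ, fun x => ∑ a, A.σ a x ∘L A₁ a x⟩

theorem good0 [CompactSpace M] {C : ℕ → ℝ} (hF : F.Tame C) : ∃ C', (op0 A A₁).Good F C' :=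
  let ⟨C', _, h⟩ := good_of (A := op0 A A₁) hF (Cb_of_compact D.sp) (Cb_of_compact D.sq)
    (fun a => Cb_of_compact (D.par.sm a))
    (Cb_of_compact fun x => SA.sum _ fun a _ => sa_comp (D.par.sm a x) (D.c1.sm a x))
    ⟨D.alg.p, D.alg.q, D.alg.σp, D.alg.qσ, fun x v => by simp [op0, D.alg.qσ], D.alg.Pσ⟩
  ⟨C', h⟩

omit D in
theorem dir_i1 {u : M → V} (hu : An.Sm I u) (x : M) :
    dir I F.e (fun a x => clf (A.σ a x)) (sA A₁ A₂) (fun y => i1 V W (u y)) x
      = i2 V W ((op0 A A₁).app F u x) := by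
  refine ext2 ?_ ?_ <;>
    simp [dir, nab, dv_clm _ (SA.md (hu x)), sA, op0, Op.app, Pre.op, Pre.D_def, sum_add_distrib]

theorem dir_i2 [I.Boundaryless] (h : F.IsVol) {w : M → W} (hw : An.Sm I w) (x : M) :
    dir I F.e (fun a x => clf (A.σ a x)) (sA A₁ A₂) (fun y => i2 V W (w y)) x
      = i1 V W (((op0 A A₁).adj F).app F w x) := by
  refine ext2 (ext_inner_left ℝ fun v => ?_) (by simp [dir, nab, dv_clm _ (SA.md (hw x)), sA])
  have h1 := (lc_gam F).div_sum (frm F) (dv_gam h x) (T := fun k => A.σ k x)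
    fun k => D.alg.Pσ k x
  simp only [← D.par.par] at h1
  have h2 := congrArg (fun T : V →L[ℝ] W => ⟪T (A.p x v), w x⟫_ℝ) h1
  have h3 : ∀ a, dv I (F.e a) (fun y => Op.tr (A.σ a y)) x = Op.tr (dv I (F.e a) (A.σ a) x) :=
    fun a => dv_clm (Ell97.trL V W) (D.par.sm a x).md
  simp only [_root_.sum_apply, add_apply, sub_apply, neg_apply, smul_apply, sum_inner,
    ContinuousLinearMap.comp_apply, inner_add_left, inner_sub_left, inner_neg_left, D.alg.σp,
    real_inner_smul_left, D.k2 _ x _ (w x), sum_add_distrib, sum_sub_distrib,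
    sum_neg_distrib] at h2
  simp only [dir, nab, dv_clm _ (SA.md (hw x)), sA, op0, Op.app, Op.adj, Pre.op, map_sum, map_add,
    f2_clf, s2_i2, s2_sm2, f2_i1, h3, inner_add_right, inner_sum, inner_neg_right, inner_tr,
    ContinuousLinearMap.comp_apply, ← D.alg.p.symm, _root_.sum_apply, add_apply, sub_apply,
    neg_apply, smul_apply, inner_sub_right, real_inner_smul_right, sum_inner, D.alg.σp,
    sum_add_distrib, sum_neg_distrib, Pre.D_def]
  linarith

omit D in
variable (F A A₁ A₂) in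
/-- the kernel -/
def ker0 [CompactSpace M] :
    kerS F (op0 A A₁) ≃ₗ[ℝ] K F (fun a x => clf (A.σ a x)) (sA A₁ A₂) (ps A.p 0) where
  toFun u := ⟨fun x => i1 V W (u.1.1 x), fun x => SA.clm _ (u.1.2.1 x),
    fun x => ext2 ((f2_ps _ _).trans (u.1.2.2.2 x)) (by simp), _root_.funext fun x => by
      rw [dir_i1 u.1.2.1, show (op0 A A₁).app F u.1.1 = 0 from u.2]; simp⟩
  invFun u := ⟨⟨fun x => f2 V W (u.1 x), fun x => SA.clm _ (u.2.1 x),
    HasCompactSupport.of_compactSpace _, fun x =>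
      (f2_ps _ _).symm.trans (congrArg (f2 V W) (u.2.2.1 x))⟩, _root_.funext fun x => by
    have h : u.1 = fun y => i1 V W (f2 V W (u.1 y)) := _root_.funext fun y =>
      ext2 rfl (by simpa using (congrArg (s2 V W) (u.2.2.1 y)).symm)
    have h2 := congrFun u.2.2.2 x
    rw [h, dir_i1 fun x => SA.clm _ (u.2.1 x)] at h2
    exact congrArg (s2 V W) h2⟩
  map_add' u v := Subtype.ext (_root_.funext fun x => map_add _ _ _)
  map_smul' r u := Subtype.ext (_root_.funext fun x => map_smul _ _ _)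
  left_inv u := rfl
  right_inv u := Subtype.ext (_root_.funext fun y =>
    ext2 rfl (by simpa using congrArg (s2 V W) (u.2.2.1 y)))

omit D in
/-- the cokernel -/
def ker1 [CompactSpace M] [I.Boundaryless] (D : Pa F A A₁ A₂) (h : F.IsVol) :
    kerS F ((op0 A A₁).adj F) ≃ₗ[ℝ] K F (fun a x => clf (A.σ a x)) (sA A₁ A₂) (ps 0 A.q) where
  toFun u := ⟨fun x => i2 V W (u.1.1 x), fun x => SA.clm _ (u.1.2.1 x),
    fun x => ext2 (by simp) ((s2_ps _ _).trans (u.1.2.2.2 x)), _root_.funext fun x => by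
      rw [D.dir_i2 h u.1.2.1, show ((op0 A A₁).adj F).app F u.1.1 = 0 from u.2]; simp⟩
  invFun u := ⟨⟨fun x => s2 V W (u.1 x), fun x => SA.clm _ (u.2.1 x),
    HasCompactSupport.of_compactSpace _, fun x =>
      (s2_ps _ _).symm.trans (congrArg (s2 V W) (u.2.2.1 x))⟩, _root_.funext fun x => by
    have h1 : u.1 = fun y => i2 V W (s2 V W (u.1 y)) := _root_.funext fun y =>
      ext2 (by simpa using (congrArg (f2 V W) (u.2.2.1 y)).symm) rfl
    have h2 := congrFun u.2.2.2 x
    rw [h1, D.dir_i2 h fun x => SA.clm _ (u.2.1 x)] at h2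
    exact congrArg (f2 V W) h2⟩
  map_add' u v := Subtype.ext (_root_.funext fun x => map_add _ _ _)
  map_smul' r u := Subtype.ext (_root_.funext fun x => map_smul _ _ _)
  left_inv u := rfl
  right_inv u := Subtype.ext (_root_.funext fun y =>
    ext2 (by simpa using congrArg (f2 V W) (u.2.2.1 y)) rfl)

end Pa

variable [CompactSpace M] [I.Boundaryless]

theorem fr_ind {C C' : ℕ → ℝ} (hF : F.Tame C) (hA : A.Good F C') (hc : A.Cliff F) (k : ℕ) :
    Fred93.Fr (A.H F k) (ind F A) := Ell97.fr hF hA hc k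

/-- the index depends on the symbol only -/
theorem ind_congr {C C' C'' : ℕ → ℝ} (hF : F.Tame C) (hA : A.Good F C') (hc : A.Cliff F)
    {B : M → V →L[ℝ] W} (hB : (⟨A.p, A.q, A.σ, B⟩ : Op M ι V W).Good F C'') :
    ind F ⟨A.p, A.q, A.σ, B⟩ = ind F A :=
  (fr_ind hF hB hc 0).unique (Ell97.fr_congr hA hB (fr_ind hF hA hc 0))

/-- the chirality on the second bundle -/
theorem om_sm2 {P : ι → ι → ℝ} {o : ι → ι → ι → ι → ℝ} (ho : Ori P o) {p T₀ : V →L[ℝ] V}
    {q T₁ : W →L[ℝ] W} {σ : ι → V →L[ℝ] W} (C : Cl P (sm2 p q) fun a => clf (σ a))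
    (h0 : ∀ v, omC o (fun a => clf (σ a)) (i1 V W (p v)) = -i1 V W (T₀ v))
    (hσ : ∀ a v, σ a (T₀ v) = T₁ (σ a v)) (hq : ∀ w, T₁ (q w) = T₁ w) :
    -(omC o (fun a => clf (σ a)) * (sm2 p 0 - sm2 0 q)) = sm2 T₀ T₁ := by
  have hp : ∀ a w, p (Op.tr (σ a) w) = Op.tr (σ a) w := fun a w => by
    simpa using congrArg (fun T => f2 V W (T (i2 V W w))) (C.pl a)
  have h4 : ∀ w, ∑ a, σ a (Op.tr (σ a) w) = (4 : ℝ) • q w := fun w => by
    have h : ∀ a, σ a (Op.tr (σ a) w) = P a a • q w := fun a => by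
      have := congrArg (fun T => s2 V W (T (i2 V W w))) (C.rel a a)
      simp only [add_apply, mul_apply_eq_comp, map_add, s2_clf, f2_clf, s2_i2, map_neg, smul_apply,
        map_smul, s2_sm2] at this
      linear_combination (norm := module) (-1 / 2 : ℝ) • this
    simp only [h, ← sum_smul, ho.rk]
  have h1 : ∀ w, omC o (fun a => clf (σ a)) (i2 V W (q w)) = i2 V W (T₁ w) := fun w => by
    have h2 : ∀ a, omC o (fun a => clf (σ a)) (i2 V W (σ a (Op.tr (σ a) w)))
        = i2 V W (T₁ (σ a (Op.tr (σ a) w))) := fun a => by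
      have := DFunLike.congr_fun (ho.om_rho C a) (i1 V W (p (Op.tr (σ a) w)))
      rw [neg_apply, mul_apply_eq_comp, mul_apply_eq_comp, h0, clf_i1, map_neg, clf_i1, hσ, hp,
        neg_neg] at this
      exact this
    have h3 := sum_congr (rfl : univ = univ) fun a _ => h2 a
    simp only [← map_sum, h4, map_smul, hq] at h3
    exact smul_right_injective _ four_ne_zero h3
  ext1 u
  have e : (sm2 p (0 : W →L[ℝ] W) - sm2 (0 : V →L[ℝ] V) q) u = i1 V W (p (f2 V W u)) - i2 V W (q (s2 V W u)) :=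
    ext2 (by simp) (by simp)
  rw [neg_apply, mul_apply_eq_comp, e, map_sub, h0, h1]
  exact ext2 (by simp) (by simp)

/-- **The index theorem for a pair of bundles.** -/
theorem Pa.index (D : Pa F A A₁ A₂) (h : OK F o) {T₀ : M → V →L[ℝ] V} {T₁ : M → W →L[ℝ] W}
    (h0 : ∀ x v, omC (fun a b c d => o a b c d x) (fun a => clf (A.σ a x)) (i1 V W (A.p x v))
      = -i1 V W (T₀ x v))
    (hσ : ∀ x a v, A.σ a x (T₀ x v) = T₁ x (A.σ a x v)) (hq : ∀ x w, T₁ x (A.q x w) = T₁ x w) :
    (ind F A : ℝ) = ∫ x, (dn F o T₀ A₁ x + dn F o T₁ A₂ x) ∂F.μ := by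
  obtain ⟨C, hC⟩ := Cht98.exists_tame F h.h4.le
  obtain ⟨C', hA⟩ := D.good
  obtain ⟨C'', h1⟩ := D.good0 hC
  have h2 := (index_gr (D.dm h) D.gr fun x => ori_of (h.vo x)).2.2
  rw [← (Pa.ker0 F A A₁ A₂).finrank_eq, ← (D.ker1 h.isv).finrank_eq] at h2
  rw [← ind_congr hC hA D.cl h1, ind, Int.cast_sub, Int.cast_natCast, Int.cast_natCast]
  refine h2.trans (congrArg _ (_root_.funext fun x => ?_))
  simp only [curv_sA (fun a => D.c1.sm a x) fun a => D.c2.sm a x]
  rw [dn, dn, ← dens_sm2]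
  congr 1
  exact om_sm2 (ori_of (h.vo x)) (cl_clf D.alg D.cl x) (h0 x) (hσ x) (hq x)

end Crest.Agent.X212.Idg99
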