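import Crest.Agent.X212.Idg99.Sig
import Crest.Agent.X212.Abel74.Lab
import Crest.Agent.X212.Taub88.Gau
import Crest.Agent.X212.Spn45.Conn

/-! The square of the canonical class of an almost Kaehler structure. -/

set_option autoImplicit false
set_option linter.unusedSectionVars false
open scoped Manifold ContDiff Topology InnerProductSpace
open Finset Filter MeasureTheory Module

noncomputable section
namespace Crest.Agent.X212.Idg99
open An Wz78 Sob92 Ind95
open Taub88 (TM Qf ppf un dT sp)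
open Num57 (OK)

section gen
variable {E H : Type*} [NormedAddCommGroup E] [NormedSpace ℝ E] [TopologicalSpace H]
  {I : ModelWithCorners ℝ E H} {M : Type*} [TopologicalSpace M] [ChartedSpace H M]
  {V : Type} [NormedAddCommGroup V] [InnerProductSpace ℝ V] [FiniteDimensional ℝ V]
  {ι : Type} [Fintype ι] [IsManifold I 1 M]
  {e : ι → (x : M) → TangentSpace I x} {P θ : ι → ι → M → ℝ} {c Γ : ι → ι → ι → M → ℝ}
  {o : ι → ι → ι → ι → M → ℝ} {A ρ : ι → M → V →L[ℝ] V} {p : M → V →L[ℝ] V} {J : V →L[ℝ] V}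

variable (I e A) in
/-- the correction which makes the projector `Q` parallel -/
def cor (Q : M → V →L[ℝ] V) (a : ι) (x : M) : V →L[ℝ] V :=
  Q x * nabE I e A a Q x - nabE I e A a Q x * Q x

theorem un_neg (a b : ι) (x : M) :
    un I e c Γ (fun a b x => -θ a b x) a b x = -un I e c Γ θ a b x := by
  have : ∀ a b m, dT I e Γ (fun a b x => -θ a b x) a b m x = -dT I e Γ θ a b m x := fun a b m => by
    simp only [dT, mul_neg, neg_mul, sum_neg_distrib, show dv I (e a) (fun x => -θ b m x) x = _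
      from dv_neg (θ b m) x]
    ring
  simp only [un, this, Taub88.dot, Taub88.lie, neg_mul_neg, mul_neg, sum_neg_distrib]
  ring_nf

theorem Qf_neg : Qf o p J ρ (fun a b x => -θ a b x) = fun x => ppf o p ρ x - Qf o p J ρ θ x := by
  funext x
  simp only [Qf, Taub88.Qt, ppf, spin, neg_smul, sum_neg_distrib, smul_neg, neg_mul]
  module

variable (h : TM I e P c Γ o θ p J ρ A)
include h

theorem tm_neg : TM I e P c Γ o (fun a b x => -θ a b x) p J ρ A :=
  { h with
    ak := ⟨fun a b x => (h.ak.sm a b x).neg, fun x => ⟨fun a b => by rw [(h.cx x).skew],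
      fun a b => by simp only [neg_mul, sum_neg_distrib, (h.cx x).proj],
      fun a b => by simp only [neg_mul_neg, (h.cx x).sq]⟩, fun a b m x => by
        have := h.ak.cl a b m x
        simp only [Taub88.d3, mul_neg, sum_neg_distrib, show ∀ a b m,
          dv I (e a) (fun x => -θ b m x) x = _ from fun a b m => dv_neg (θ b m) x] at this ⊢
        linarith⟩
    sd := fun x => by
      funext a b
      have := congrFun (congrFun (h.sd x) a) b
      simp only [Taub88.hs2, neg_mul, sum_neg_distrib, neg_div] at this ⊢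
      rw [this] }

theorem QQ (x : M) : Qf o p J ρ θ x * Qf o p J ρ θ x = Qf o p J ρ θ x :=
  (h.pc x).Q_Q (h.cx x) (h.sd x)

theorem QNQ (a : ι) (x : M) :
    Qf o p J ρ θ x * (nabE I e A a (Qf o p J ρ θ) x * Qf o p J ρ θ x) = 0 := by
  have := congrArg (Qf o p J ρ θ x * ·) (h.NQ a x)
  simp only [mul_add, ← mul_assoc (Qf o p J ρ θ x) (Qf o p J ρ θ x), QQ h] at this
  exact add_eq_right.1 this

theorem pQ (x : M) : ppf o p ρ x * Qf o p J ρ θ x = Qf o p J ρ θ x :=
  (h.pc x).pp_Q (h.cx x) (h.sd x)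

theorem Qp (x : M) : Qf o p J ρ θ x * ppf o p ρ x = Qf o p J ρ θ x := by
  simp only [Qf, ppf, Taub88.Qt, smul_mul_assoc, sub_mul, (h.pc x).pp_pp, mul_assoc, (h.pc x).J_pp]
  rw [← mul_assoc, (h.pc x).S_pp (h.cx x) (h.sd x)]

theorem pN (a : ι) (x : M) :
    ppf o p ρ x * nabE I e A a (Qf o p J ρ θ) x = nabE I e A a (Qf o p J ρ θ) x := by
  have := nabE_mul (e := e) (A := A) a (h.sm_pp x) (h.op.sm x)
  simp only [pQ h, h.par_pp, zero_mul, zero_add] at this
  exact this.symm

theorem Np (a : ι) (x : M) :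
    nabE I e A a (Qf o p J ρ θ) x * ppf o p ρ x = nabE I e A a (Qf o p J ρ θ) x := by
  have := nabE_mul (e := e) (A := A) a (h.op.sm x) (h.sm_pp x)
  simp only [Qp h, h.par_pp, mul_zero, add_zero] at this
  exact this.symm

theorem cor_neg : cor I e A (Qf o p J ρ fun a b x => -θ a b x) = cor I e A (Qf o p J ρ θ) := by
  funext a x
  simp only [cor, Qf_neg, nabE_sub a (h.sm_pp x) (h.op.sm x), h.par_pp, zero_sub, mul_neg, neg_mul,
    sub_mul, mul_sub, pN h, Np h]
  abel

theorem sm_N (a : ι) (x : M) : SA I (nabE I e A a (Qf o p J ρ θ)) x :=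
  h.F.sNE (h.C.sm · x) a (h.op.sm x)

theorem sm_cor (a : ι) (x : M) : SA I (cor I e A (Qf o p J ρ θ) a) x :=
  (SA.mul (h.op.sm x) (sm_N h a x)).sub (SA.mul (sm_N h a x) (h.op.sm x))

theorem con_cor : Con I P (A + cor I e A (Qf o p J ρ θ)) :=
  ⟨fun a x => (h.C.sm a x).add (sm_cor h a x), fun a x => by
    have e4 : ∑ b, P a b x • nabE I e A b (Qf o p J ρ θ) x = nabE I e A a (Qf o p J ρ θ) x :=
      h.F.projN (Taub88.con_ad h.C.toCon) a _ x
    simp only [Pi.add_apply, smul_add, sum_add_distrib, h.C.proj, cor, smul_sub, sum_sub_distrib,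
      ← mul_smul_comm, ← smul_mul_assoc _ (nabE ..), ← mul_sum, ← sum_mul, e4]⟩

theorem par_cor_Q (a : ι) (x : M) :
    nabE I e (A + cor I e A (Qf o p J ρ θ)) a (Qf o p J ρ θ) x = 0 := by
  have e1 := h.NQ a x
  have : nabE I e (A + cor I e A (Qf o p J ρ θ)) a (Qf o p J ρ θ) x
      = nabE I e A a (Qf o p J ρ θ) x + (cor I e A (Qf o p J ρ θ) a x * Qf o p J ρ θ x
        - Qf o p J ρ θ x * cor I e A (Qf o p J ρ θ) a x) := by
    simp only [nabE, Pi.add_apply]; noncomm_ring
  rw [this]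
  simp only [cor, sub_mul, mul_sub, mul_assoc, QQ h, QNQ h,
    ← mul_assoc (Qf o p J ρ θ x) (Qf o p J ρ θ x)]
  linear_combination (norm := abel) -e1

theorem par_cor_pp (a : ι) (x : M) :
    nabE I e (A + cor I e A (Qf o p J ρ θ)) a (ppf o p ρ) x = 0 := by
  have : nabE I e (A + cor I e A (Qf o p J ρ θ)) a (ppf o p ρ) x
      = nabE I e A a (ppf o p ρ) x + (cor I e A (Qf o p J ρ θ) a x * ppf o p ρ x
        - ppf o p ρ x * cor I e A (Qf o p J ρ θ) a x) := by
    simp only [nabE, Pi.add_apply]; noncomm_ring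
  rw [this, h.par_pp]
  simp only [cor, sub_mul, mul_sub, mul_assoc, Np h, Qp h, ← mul_assoc (ppf o p ρ x), pN h, pQ h]
  simp

theorem curv_cor (a b : ι) (x : M) :
    curv I e c (A + cor I e A (Qf o p J ρ θ)) a b x * Qf o p J ρ θ x
      = (tw I e c Γ p ρ A a b x + un I e c Γ θ a b x • J) * Qf o p J ρ θ x := by
  have hc := h.F.curv_par ((con_cor h).sm · x) (h.op.sm x)
    (fun a => Eventually.of_forall (par_cor_Q h a)) a b
  have g := h.G_eq a b x
  have q := QQ h x
  have q' : ∀ T, Qf o p J ρ θ x * (Qf o p J ρ θ x * T) = _ := fun T => by rw [← mul_assoc, q]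
  have z := (QNQ h · x)
  have z' : ∀ a T, Qf o p J ρ θ x * (nabE I e A a (Qf o p J ρ θ) x * (Qf o p J ρ θ x * T)) = 0 :=
    fun a T => by rw [← mul_assoc (nabE ..), ← mul_assoc, z, zero_mul]
  have n : ∀ a b, Qf o p J ρ θ x * (nabE I e A a (Qf o p J ρ θ) x * (nabE I e A b (Qf o p J ρ θ) x
      * Qf o p J ρ θ x)) = nabE I e A a (Qf o p J ρ θ) x * (nabE I e A b (Qf o p J ρ θ) x
      * Qf o p J ρ θ x) := fun a b => by
    conv_rhs => rw [← h.NQ a x, add_mul, mul_assoc, z, mul_zero, zero_add, mul_assoc]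
  have d : ∀ a b, nabE I e A a (cor I e A (Qf o p J ρ θ) b) x = _ := fun a b =>
    (nabE_sub a (SA.mul (h.op.sm x) (sm_N h b x)) (SA.mul (sm_N h b x) (h.op.sm x))).trans
      (by rw [nabE_mul a (h.op.sm x) (sm_N h b x), nabE_mul a (sm_N h b x) (h.op.sm x)])
  simp only at g
  rw [← g, ← q, ← mul_assoc, hc, curv_addA (h.C.sm · x) (sm_cor h · x), dA, d, d]
  simp only [cor, mul_add, add_mul, mul_sub, sub_mul, mul_sum, sum_mul, mul_smul_comm,
    smul_mul_assoc, mul_assoc, q, q', z, z', n, mul_zero, zero_mul, sub_self, smul_zero,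
    sum_const_zero]
  abel

/-- the Chern-Weil form of the positive spinors in terms of the canonical line -/
theorem tr_cor (hJ : J * J = -1) (a b a' b' : ι) (x : M) :
    trL (ppf o p ρ x * curv I e c (A + cor I e A (Qf o p J ρ θ)) a b x
      * curv I e c (A + cor I e A (Qf o p J ρ θ)) a' b' x)
    = 1 / 2 * trL (p x * tw I e c Γ p ρ A a b x * tw I e c Γ p ρ A a' b' x)
      - trL (p x) / 2 * (un I e c Γ θ a b x * un I e c Γ θ a' b' x) := by
  have k : ∀ {θ : ι → ι → M → ℝ} (h : TM I e P c Γ o θ p J ρ A), trL (Qf o p J ρ θ x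
      * curv I e c (A + cor I e A (Qf o p J ρ θ)) a b x
      * curv I e c (A + cor I e A (Qf o p J ρ θ)) a' b' x) = trL (Qf o p J ρ θ x *
        ((tw I e c Γ p ρ A a b x + un I e c Γ θ a b x • J)
          * (tw I e c Γ p ρ A a' b' x + un I e c Γ θ a' b' x • J))) := fun {θ} h => by
    have hc := h.F.curv_par ((con_cor h).sm · x) (h.op.sm x)
      (fun a => Eventually.of_forall (par_cor_Q h a)) a b
    have c : ∀ a b, (tw I e c Γ p ρ A a b x + un I e c Γ θ a b x • J) * Qf o p J ρ θ x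
        = Qf o p J ρ θ x * (tw I e c Γ p ρ A a b x + un I e c Γ θ a b x • J) := fun a b => by
      rw [add_mul, mul_add, h.tw_Q, smul_mul_assoc, mul_smul_comm]
      exact congrArg (_ + _ • ·) (h.pc x).J_Q
    rw [← hc, curv_cor h, ← QQ h x, ← mul_assoc, c, mul_assoc, mul_assoc, trL_comm, mul_assoc,
      mul_assoc, curv_cor h, c, ← mul_assoc (Qf o p J ρ θ x), QQ h, ← mul_assoc, c, mul_assoc]
  have h1 := k h
  have h2 := k (tm_neg h)
  have P := h.pc x
  have t := fun a b m => h.C.tw_comm h.L h.F a b m x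
  have s : ∀ a b, trL (sp ρ θ x * tw I e c Γ p ρ A a b x) = 0 := fun a b =>
    tr_spin trL_comm (t a b) (h.cx x).skew
  have w : ∀ T : V →L[ℝ] V, (∀ m, T * ρ m x = ρ m x * T) → T * p x = p x * T →
      trL (ppf o p ρ x * T) = 1 / 2 * trL (p x * T) := fun T h1 h2 => by
    have := P.tr_anti (X := Wz78.omA (fun a b c d => o a b c d x) (fun a => ρ a x) * T)
      (fun m => by rw [mul_assoc, h1, ← mul_assoc, P.om_ρ, neg_mul, mul_assoc])
      (by rw [mul_assoc, h2, ← mul_assoc, P.om_p])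
    rw [ppf, Taub88.pp, smul_mul_assoc, map_smul, sub_mul, map_sub, show trL (_ * T) = 0 from this,
      sub_zero, smul_eq_mul]
  have w1 := w 1 (fun _ => by simp) (by simp)
  have w2 := w (tw I e c Γ p ρ A a b x * tw I e c Γ p ρ A a' b' x)
    (fun m => by rw [mul_assoc, t, ← mul_assoc, t, mul_assoc])
    (by rw [mul_assoc, h.tw_p, ← mul_assoc, h.tw_p, mul_assoc])
  have e' : Qf o p J ρ θ x = (1 / 2 : ℝ) • (ppf o p ρ x - sp ρ θ x * J) := rfl
  have j : ∀ T, J * (J * T) = -T := fun T => by rw [← mul_assoc, hJ, neg_one_mul]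
  rw [cor_neg h, Qf_neg, sub_mul, sub_mul, map_sub, h1, un_neg, un_neg] at h2
  simp only [e', mul_add, add_mul, sub_mul, smul_mul_assoc, mul_smul_comm, map_add, map_sub,
    map_smul, mul_assoc, h.tw_J, j, hJ, mul_neg, map_neg, s, smul_eq_mul, mul_one] at h2 w1 w2 ⊢
  linear_combination h2 + w2 - un I e c Γ θ a b x * un I e c Γ θ a' b' x * w1

end gen

variable {E : Type} [NormedAddCommGroup E] [NormedSpace ℝ E] [FiniteDimensional ℝ E]
  [MeasurableSpace E] [BorelSpace E]
  {HM : Type} [TopologicalSpace HM] {I : ModelWithCorners ℝ E HM} [I.Boundaryless]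
  {M : Type} [TopologicalSpace M] [ChartedSpace HM M] [IsManifold I ∞ M]
  [MeasurableSpace M] [BorelSpace M] [SecondCountableTopology M] [T2Space M] [CompactSpace M]
  {ι : Type} [Fintype ι] [DecidableEq ι] {κ : Type} [Fintype κ] [DecidableEq κ]

/-- **the leaf `SQ`** -/
theorem sqStmt (X : Eq82.Bk I M ι) {L : Line51.Ln E M κ} (hL : L.On I Set.univ) :
    Taub88.SqStmt X L := by
  intro m H
  refine ⟨(2 * Num57.cw I (Num57.vol X.F X.o) (Num57.f0 E m.p) - 4 * Num57.cw I (Num57.vol X.F X.o)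
    (Num57.f0 E (ppf X.o m.p m.ρ)) + 96 * Real.pi ^ 2 * ((Num57.bp X.ok.ori : ℝ)
      - Num57.bm X.ok.ori)) / 8, fun F θ hF K => ?_⟩
  have hB := Abel74.B_ok X hL
  have hG := Abel74.G_ok hL hF
  have k := Abel74.okF hF
  obtain ⟨W, C⟩ := Spn45.exists_conn hB hG H
  have T : TM I F.e (X.B L).P F.c F.Gam X.o θ m.p m.J m.ρ W := Taub88.tm_of hB hG H C K
  have c1 : Con I F.P W := hF.P ▸ T.C.toCon
  have c2 : Con I F.P (W + cor I F.e W (Qf X.o m.p m.J m.ρ θ)) := hF.P ▸ con_cor T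
  have h1 := Num57.integral_cwd F k.h4 k.isv k.sm k.vo' c1 H.sp T.C.par
  have h2 := Num57.integral_cwd F k.h4 k.isv k.sm k.vo' c2 T.sm_pp (par_cor_pp T)
  have u : ∀ T A : _, Num57.cwd (V := m.V) F X.o T A = cwd F X.o T A := fun _ _ => rfl
  rw [Num57.cw_ori k.ori X.ok.ori hF.ori, u] at h1 h2
  have e : ∀ x, wf X.o (Taub88.uF F θ) (Taub88.uF F θ) x = (cwd F X.o m.p W x / 2
      - cwd F X.o (ppf X.o m.p m.ρ) (W + cor I F.e W (Qf X.o m.p m.J m.ρ θ)) x
      + 96 * Real.pi ^ 2 * sgd F X.o x) / 8 := fun x => by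
    have h3 := dn_tw (o := X.o) (F := F) (p := m.p) (ρ := m.ρ) (A := W) (hF.P ▸ T.C)
      (fun a => ((H.cl x).pl a).trans ((H.cl x).pr a).symm) (H.pidem x)
    have h4 : cwd F X.o (ppf X.o m.p m.ρ) (W + cor I F.e W (Qf X.o m.p m.J m.ρ θ)) x = _ :=
      congrArg (c4 fun a b c d => X.o a b c d x)
        (by funext a b c d; exact tr_cor T H.Jsq a b c d x)
    have h5 : trL (m.p x) = 16 := H.prk x
    rw [dn_eq, cw_eq, h5] at h3
    rw [h4, c4_sub, c4_mul, c4_mul, h5]
    field_simp at h3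
    simp only [wf, Taub88.uF]
    linarith
  have s1 := intg (F := F) (sm_cwd k H.sp c1.sm)
  have s2 := intg (F := F) (sm_cwd (T := ppf X.o m.p m.ρ) k T.sm_pp c2.sm)
  have s3 := intg (F := F) (sm_sgd k)
  simp only [e]
  rw [integral_div, integral_add (f := fun x => cwd F X.o m.p W x / 2 - _)
    ((s1.div_const 2).sub s2) (s3.const_mul _), integral_sub (s1.div_const 2) s2, integral_div,
    integral_const_mul, int_sgd k, Num57.bp_ori k.ori X.ok.ori hF.ori,
    Num57.bm_ori k.ori X.ok.ori hF.ori,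
    h1, h2]
  ring

end Crest.Agent.X212.Idg99
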